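import Vale.Agent.P287T.Fm.St

/-!
# Block FM: the objects of line bundles, statements
-/

open CategoryTheory Limits MvPolynomial

universe w

namespace Vale.Agent.P287T.Fm

open Vale.Agent.P287Z Vale.Agent.P287Z.O.V Vale.Agent.P287T.Cy

variable {ν : ℕ} {W : S6}

/-- `H¹(𝒪) = 0` for the standard cover -/
def H1c (I : Ideal (MvPolynomial (Fin ν) ℂ)) : Prop :=
  ∀ (N : ℕ) (a : Fin ν → Fin ν → MvPolynomial (Fin ν) ℂ), (∀ i j, (a i j).IsHomogeneous (2 * N)) →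
    (∀ i j k, X k ^ N * a i j + X i ^ N * a j k - X j ^ N * a i k ∈ I) →
    ∃ (M : ℕ) (b : Fin ν → MvPolynomial (Fin ν) ℂ), (∀ i, (b i).IsHomogeneous (M + N)) ∧
      ∀ i j, (X i * X j) ^ M * a i j - (X i ^ (M + N) * b j - X j ^ (M + N) * b i) ∈ I

/-- `Hom^*(G, U v) = ℂ[0]` at all points -/
def LbU (I : Ideal (Gr.Sn ν)) {r : (Fin ν → ℂ) → ℕ} (U : ∀ v, GMF W (r v)) {n : ℕ} (G : GMF W n) :
    Prop :=
  ∀ v, Pt I v → (∀ k, k ≠ 0 → Subsingleton (Hm G (U v) k)) ∧ Module.finrank ℂ (Hm G (U v) 0) = 1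

/-- spherical objects -/
def Sph {n : ℕ} (G : GMF W n) : Prop :=
  ∀ k : ℤ, Module.finrank ℂ (Hm G G k) = if k = 0 ∨ k = 2 then 1 else 0

/-- the map `a : G' → G` kills `Hom(G, U)` -/
def Kil {m n r : ℕ} (G' : GMF W m) (G : GMF W n) (U : GMF W r)
    (a : Matrix (Fin n) (Fin m) S6) : Prop := ∀ φ, Cl G U φ → Nh G' U (φ * a)

/-- closed maps `a j : G' → G` which satisfy on the fibre at `v` the same linear relations as the
columns of `f` -/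
def Cols (I : Ideal (Gr.Sn ν)) {r : (Fin ν → ℂ) → ℕ} (U : ∀ v, GMF W (r v)) {m n : ℕ}
    (G' : GMF W m) (G : GMF W n) {ι κ : Type} [Fintype κ] (f : Matrix ι κ (Gr.Sn ν)) : Prop :=
  ∃ a : κ → Matrix (Fin n) (Fin m) S6, (∀ j, Cl G' G (a j)) ∧ ∀ v, Pt I v → ∀ c : κ → ℂ,
    Kil G' G (U v) (∑ j, c j • a j) ↔ (f.map (eval v)).mulVec c = 0

/-- the objects of the sheaves `𝒪(-m)` and of the images of the matrices of rank one -/
def LbOut (I : Ideal (Gr.Sn ν)) {r : (Fin ν → ℂ) → ℕ} (U : ∀ v, GMF W (r v)) : Prop :=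
  ∃ (g : ℤ → ℕ) (G : ∀ m, GMF W (g m)), (∀ m, LbU I U (G m) ∧ Sph (G m)) ∧
    (∀ m, Cols I U (G (m + 1)) (G m) (Matrix.of fun (_ : Unit) j => X j)) ∧
    ∀ {ι κ : Type} [Fintype ι] [Fintype κ] (n : ℕ) (f : Matrix ι κ (Gr.Sn ν)),
      (∀ i j, (f i j).IsHomogeneous n) → (∀ v, Pt I v → (f.map (eval v)).rank = 1) →
      ∀ m : ℤ, ∃ (s : ℕ) (L : GMF W s), LbU I U L ∧ Sph L ∧ Cols I U (G (m + n)) L f

variable (W) (I : Ideal (Gr.Sn ν)) [Fact (W.IsHomogeneous 3)] [Fact (IsHom I)]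
  [HasDerivedCategory.{w} (P294Z.Coh (PI I))]

/-- output OUT3 -/
def StOut3 : Prop := CY W → I.IsPrime → (∃ v, Pt I v) → H1c I →
  ∀ (K : Ker W I) (r : (Fin ν → ℂ) → ℕ) (U : ∀ v, GMF W (r v)), K.Out →
  (∀ v (hv : Pt I v), Nonempty (K.ob (U v) ≅ (DerivedCategory.singleFunctor _ 2).obj (Ov I hv))) →
  LbOut I U

end Vale.Agent.P287T.Fm
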