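import Vale.Agent.P287T.Fm.St

/-!
# Block FM: exactness in large degrees gives exactness of sheaves
-/

open CategoryTheory Limits MvPolynomial

universe w

namespace Vale.Agent.P287T.Fm

open Vale.Agent.P287Z Vale.Agent.P287Z.O.V Vale.Agent.P287T.Cy

variable {ν : ℕ} {I : Ideal (Gr.Sn ν)}

theorem exL_tors {A B C : Gr.GA I} {f : A ⟶ B} {g : B ⟶ C} (w : f ≫ g = 0) (h : ExL f g) :
    Gr.tors I (ShortComplex.mk f g w).homology := by
  obtain ⟨n, hn⟩ := h
  refine ⟨n, fun a ha => subsingleton_of_forall_eq 0 fun x => ?_⟩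
  obtain ⟨z, rfl⟩ := Gr.GA_app_surjective I (ShortComplex.mk f g w).homologyπ a x
  obtain ⟨y, hy⟩ := hn a ha ((ShortComplex.mk f g w).iCycles.hom.app ⟨a⟩ z)
    (congrArg (fun k : _ ⟶ C => k.hom.app ⟨a⟩ z) (ShortComplex.mk f g w).iCycles_g)
  have h1 : (ShortComplex.mk f g w).toCycles.hom.app ⟨a⟩ y = z :=
    Gr.GA_app_injective I (ShortComplex.mk f g w).iCycles a
      ((congrArg (fun k : A ⟶ B => k.hom.app ⟨a⟩ y) (ShortComplex.mk f g w).toCycles_i).trans hy)
  rw [← h1]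
  exact congrArg (fun k : A ⟶ _ => k.hom.app ⟨a⟩ y) (ShortComplex.mk f g w).toCycles_comp_homologyπ

theorem exL_of_tors {A B C : Gr.GA I} {f : A ⟶ B} {g : B ⟶ C} (w : f ≫ g = 0)
    (h : Gr.tors I (ShortComplex.mk f g w).homology) : ExL f g := by
  obtain ⟨n, hn⟩ := h
  refine ⟨n, fun a ha x hx => ?_⟩
  have := hn a ha
  obtain ⟨z, hz⟩ := Gr.GA_exact_apply I (S := ShortComplex.mk _ _ (ShortComplex.mk f g w).iCycles_g)
    (ShortComplex.exact_of_f_is_kernel _ (ShortComplex.mk f g w).cyclesIsKernel) a x hx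
  obtain ⟨y, hy⟩ := Gr.GA_exact_apply I
    (S := ShortComplex.mk _ _ (ShortComplex.mk f g w).toCycles_comp_homologyπ)
    (ShortComplex.exact_of_g_is_cokernel _ (ShortComplex.mk f g w).homologyIsCokernel) a z
    (Subsingleton.elim _ _)
  refine ⟨y, Eq.trans ?_ hz⟩
  rw [← hy]
  exact (congrArg (fun k : A ⟶ B => k.hom.app ⟨a⟩ y) (ShortComplex.mk f g w).toCycles_i).symm

variable [Fact (IsHom I)]

theorem exL_isZero_iff (A : Gr.GA I) : IsZero ((piI I).obj A) ↔ Gr.tors I A :=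
  ObjectProperty.SerreClassLocalization.isZero_obj_iff (piI I) (Gr.tors I) A

theorem exL_iff {A B C : Gr.GA I} {f : A ⟶ B} {g : B ⟶ C} (w : f ≫ g = 0) :
    ((ShortComplex.mk f g w).map (piI I)).Exact ↔ ExL f g := by
  rw [ShortComplex.exact_iff_isZero_homology,
    ((ShortComplex.mk f g w).mapHomologyIso (piI I)).isZero_iff, exL_isZero_iff]
  exact ⟨exL_of_tors w, exL_tors w⟩

/-- exactness in large degrees gives exactness of the sheaves -/
theorem exact_of_exL {A B C : Gr.GA I} {f : A ⟶ B} {g : B ⟶ C} (w : f ≫ g = 0) (h : ExL f g) :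
    ((ShortComplex.mk f g w).map (piI I)).Exact := (exL_iff w).2 h

theorem exactAt_iff_exL (C : CochainComplex (Gr.GA I) ℤ) (k : ℤ) :
    (((piI I).mapHomologicalComplex (ComplexShape.up ℤ)).obj C).ExactAt k ↔
      ExL (C.d (k - 1) k) (C.d k (k + 1)) := by
  rw [HomologicalComplex.exactAt_iff' _ (k - 1) k (k + 1) (by simp) (by simp)]
  exact exL_iff (C.d_comp_d (k - 1) k (k + 1))

variable [HasDerivedCategory.{w} (P294Z.Coh (PI I))]

theorem exL_isZero_H (C : CochainComplex (Gr.GA I) ℤ) (k : ℤ) :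
    IsZero ((DerivedCategory.homologyFunctor _ k).obj ((QS I).obj C)) ↔
      ExL (C.d (k - 1) k) (C.d k (k + 1)) := by
  rw [← exactAt_iff_exL, HomologicalComplex.exactAt_iff_isZero_homology]
  exact ((DerivedCategory.homologyFunctorFactors _ k).app _).isZero_iff

theorem exL_isGE (C : CochainComplex (Gr.GA I) ℤ) (b : ℤ)
    (h : ∀ k < b, ExL (C.d (k - 1) k) (C.d k (k + 1))) : ((QS I).obj C).IsGE b :=
  (DerivedCategory.isGE_iff _ _).2 fun k hk => (exL_isZero_H C k).2 (h k hk)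

theorem exL_isLE (C : CochainComplex (Gr.GA I) ℤ) (b : ℤ)
    (h : ∀ k, b < k → ExL (C.d (k - 1) k) (C.d k (k + 1))) : ((QS I).obj C).IsLE b :=
  (DerivedCategory.isLE_iff _ _).2 fun k hk => (exL_isZero_H C k).2 (h k hk)

theorem exL_isZero (C : CochainComplex (Gr.GA I) ℤ)
    (h : ∀ k, ExL (C.d (k - 1) k) (C.d k (k + 1))) : IsZero ((QS I).obj C) := by
  have := exL_isGE C 1 fun k _ => h k
  have := exL_isLE C 0 fun k _ => h k
  exact DerivedCategory.TStructure.t.isZero _ 0 1 zero_lt_one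

end Vale.Agent.P287T.Fm
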