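import Vale.Agent.P287T.Fm.Ptk
import Vale.Agent.P287T.Fm.ExL

/-!
# Block FM, steps BDD and SPAN
-/

open CategoryTheory Limits MvPolynomial

universe w

namespace Vale.Agent.P287T.Fm

open Vale.Agent.P287Z Vale.Agent.P287Z.O.V Vale.Agent.P287T.Cy

variable {ν : ℕ} {W : S6} {I : Ideal (Gr.Sn ν)}

theorem bdd_neg {m n : ℕ} (E : GMF W m) (F : GMF W n) (k : ℤ)
    (h : ∀ i l, 3 * k + E.p l - F.p i < 0) : Subsingleton (Hm E F k) :=
  T.hq_subsingleton fun f hf => by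
    rw [show f = 0 from Matrix.ext fun i l => O.L.hg_neg ((mem_ZZ.1 hf).1 i l) (h i l)]
    exact Submodule.zero_mem _

theorem bdd_cl_one {n : ℕ} (E : GMF W n) : Cl E E 1 :=
  ⟨fun i j => by
    have := O.H962.hgT_one E 0 i j
    rwa [show 3 * 0 - 3 * 0 + E.p j - E.p i = E.p j - E.p i by ring] at this,
    by rw [Matrix.mul_one, Matrix.one_mul]⟩

variable [Fact (W.IsHomogeneous 3)]

theorem bdd_ge (hP : StPsif W I) (K : Ker W I) {n : ℕ} (E : GMF W n) :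
    ∃ b, (K.cx E).IsStrictlyGE b := by
  obtain ⟨e₀, he⟩ := K.low
  obtain ⟨c, hc⟩ := Finite.exists_le fun i => -E.p i
  refine ⟨min 0 (2 * e₀ - c), (CochainComplex.isStrictlyGE_iff _ _).2 fun k hk =>
    cx_pr hP K E k IsZero (fun _ _ e h => h.of_iso e.symm) (fun _ h => h)
      (fun _ _ h h' => (biprod_isZero_iff _ _).2 ⟨h, h'⟩)
      fun i e hi => (Gr.GA_isZero_iff I (K.Y e)).2 (he e ?_)⟩
  have h2 := hc i
  lia

/-- if all the fibres are exact in degree `k`, so is the complex in large degrees -/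
theorem bdd_exL (hF : StFib W I) (hE : StExg I) (hP : StPsif W I) (hL : StLfc I) (hI : I.IsPrime)
    (K : Ker W I) {r : (Fin ν → ℂ) → ℕ} {U : ∀ v, GMF W (r v)} (h : K.Pts r U) {n : ℕ}
    (E : GMF W n) (k : ℤ) (hk : ∀ v, Pt I v → Subsingleton (Hm (U v) E k)) :
    ExL ((K.cx E).d (k - 1) k) ((K.cx E).d k (k + 1)) :=
  hE hI _ _ ((K.cx E).d_comp_d _ _ _) (ptk_lf hP hL K h.lf E _) (ptk_lf hP hL K h.lf E _)
    fun v hv => (hF K _ _ (h.fib v hv) E k).1 (hk v hv)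

theorem bdd_hm (hC : CY W) (K : Ker W I) {r : (Fin ν → ℂ) → ℕ} {U : ∀ v, GMF W (r v)}
    (h : K.Pts r U) {n : ℕ} (E : GMF W n) : ∃ b : ℤ, ∀ k, k < -b ∨ b < k → ∀ v, Pt I v →
      Subsingleton (Hm (U v) E k) := by
  obtain ⟨c, hc⟩ := h.bdd
  obtain ⟨c', hc'⟩ := Finite.exists_le fun i => |E.p i|
  refine ⟨max 2 (c + c' + 2), fun k hk v hv => ?_⟩
  rcases hk with hk | hk
  · refine bdd_neg _ _ _ fun i l => ?_
    have h1 := abs_le.1 (hc v hv l)
    have h2 := abs_le.1 (hc' i)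
    lia
  · refine ptk_sub hC _ _ (l := 2 - k) (by lia) (bdd_neg _ _ _ fun i l => ?_)
    have h1 := abs_le.1 (hc v hv i)
    have h2 := abs_le.1 (hc' l)
    lia

variable [Fact (IsHom I)] [HasDerivedCategory.{w} (P294Z.Coh (PI I))]

/-- **step BDD** -/
theorem stBdd (hF : StFib W I) (hE : StExg I) (hP : StPsif W I) (hL : StLfc I) : StBdd W I := by
  intro hC hS K r U h n E
  obtain ⟨b, hb⟩ := bdd_hm hC K h E
  refine ⟨bdd_ge hP K E, ?_⟩
  rw [cx_ob]
  exact ⟨⟨-b, exL_isGE _ _ fun k hk => bdd_exL hF hE hP hL hS.prime K h E k (hb k (.inl hk))⟩,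
    ⟨b, exL_isLE _ _ fun k hk => bdd_exL hF hE hP hL hS.prime K h E k (hb k (.inr hk))⟩⟩

/-- **step SPAN** -/
theorem bdd_stSpan (hF : StFib W I) (hE : StExg I) (hP : StPsif W I) (hL : StLfc I) :
    StSpan W I := by
  intro _ hS K r U h hO n E hE'
  have h1 : IsZero (K.ob E) := by
    rw [cx_ob]
    exact exL_isZero _ fun k => bdd_exL hF hE hP hL hS.prime K h E k fun v hv => hE' v hv k
  exact (hO.faithful E E 1 (bdd_cl_one E)).1 (h1.eq_of_src _ _)

end Vale.Agent.P287T.Fm
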