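import Vale.Agent.P287T.Fm.St2

/-!
# Block FM: the terms and the differentials of `K.cx E`, in a form which is cheap for the kernel
-/

open CategoryTheory Limits MvPolynomial

universe w

namespace Vale.Agent.P287T.Fm

open Vale.Agent.P287Z Vale.Agent.P287Z.O.V Vale.Agent.P287T.Cy

section

variable {A B C D : Type*} [Category A] [Category B] [Category C] [Category D]
  [HasZeroMorphisms A] [HasZeroMorphisms B] [HasZeroMorphisms C]

theorem cx_g1 (F : A ⥤ B) {_ : F.PreservesZeroMorphisms} (p : IsRightCancelAdd ℤ)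
    (X : CochainComplex A ℤ) (k : ℤ) :
    HomologicalComplex.X (c := ComplexShape.up ℤ)
      ((F.mapHomologicalComplex (@ComplexShape.up ℤ _ p _)).obj X) k = F.obj (X.X k) := rfl

theorem cx_g2 (F : A ⥤ B) {_ : F.PreservesZeroMorphisms} (p : IsRightCancelAdd ℤ)
    (X : CochainComplex A ℤ) (P : ∀ {a b c : B}, (a ⟶ b) → (b ⟶ c) → Prop) (i j k : ℤ) :
    P (((F.mapHomologicalComplex (@ComplexShape.up ℤ _ p _)).obj X).d i j)
      (((F.mapHomologicalComplex (@ComplexShape.up ℤ _ p _)).obj X).d j k) ↔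
    P (F.map (X.d i j)) (F.map (X.d j k)) := Iff.rfl

theorem cx_g3 (F : A ⥤ B) (G : B ⥤ C) {_ : F.PreservesZeroMorphisms}
    {_ : G.PreservesZeroMorphisms} {_ : (F ⋙ G).PreservesZeroMorphisms}
    (p p' p'' : IsRightCancelAdd ℤ) (Q : CochainComplex C ℤ ⥤ D) (X : CochainComplex A ℤ) :
    ((F ⋙ G).mapHomologicalComplex (@ComplexShape.up ℤ _ p _) ⋙ Q).obj X =
      (G.mapHomologicalComplex (@ComplexShape.up ℤ _ p' _) ⋙ Q).obj
        ((F.mapHomologicalComplex (@ComplexShape.up ℤ _ p'' _)).obj X) := rfl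

theorem cx_g4 (F : A ⥤ B) {h : F.PreservesZeroMorphisms} {h' : F.PreservesZeroMorphisms}
    (p p' : IsRightCancelAdd ℤ) (X : CochainComplex A ℤ) :
    @Eq (CochainComplex B ℤ)
      ((@Functor.mapHomologicalComplex _ _ _ _ _ _ _ F h (@ComplexShape.up ℤ _ p _)).obj X)
      ((@Functor.mapHomologicalComplex _ _ _ _ _ _ _ F h' (@ComplexShape.up ℤ _ p' _)).obj X) :=
  rfl

end

variable {ν : ℕ} {W : S6} {I : Ideal (Gr.Sn ν)} [Fact (W.IsHomogeneous 3)]

theorem cx_tt {n : ℕ} (E : GMF W n) (k : ℤ) :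
    (O.L.TT E).X k = O.L.FrA W (O.L.qsel E (fun _ => True) k) := rfl

theorem cx_eq (K : Ker W I) {n : ℕ} (E : GMF W n) {h : K.psi.PreservesZeroMorphisms} :
    K.cx E = (K.psi.mapHomologicalComplex (ComplexShape.up ℤ)).obj (O.L.TT E) := by
  unfold Ker.cx
  exact cx_g4 _ _ _ _

theorem cx_X (K : Ker W I) {n : ℕ} (E : GMF W n) (k : ℤ) :
    (K.cx E).X k = K.psi.obj ((O.L.TT E).X k) := by
  unfold Ker.cx
  exact cx_g1 _ _ _ _

theorem cx_X' (K : Ker W I) {n : ℕ} (E : GMF W n) (k : ℤ) :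
    (K.cx E).X k = K.psi.obj (O.L.FrA W (O.L.qsel E (fun _ => True) k)) :=
  (cx_X K E k).trans (congrArg K.psi.obj (cx_tt E k))

theorem cx_d (K : Ker W I) {n : ℕ} (E : GMF W n)
    (P : ∀ {a b c : Gr.GA I}, (a ⟶ b) → (b ⟶ c) → Prop) (i j k : ℤ) :
    P ((K.cx E).d i j) ((K.cx E).d j k) ↔
      P (K.psi.map ((O.L.TT E).d i j)) (K.psi.map ((O.L.TT E).d j k)) := by
  unfold Ker.cx
  exact cx_g2 _ _ _ _ _ _ _

/-- the terms of `K.cx E` are sums of graded pieces of the kernel -/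
theorem cx_pr (hP : StPsif W I) (K : Ker W I) {n : ℕ} (E : GMF W n) (k : ℤ)
    (Pr : Gr.GA I → Prop) (h1 : ∀ A B : Gr.GA I, (A ≅ B) → Pr A → Pr B)
    (h2 : ∀ A, IsZero A → Pr A) (h3 : ∀ A B, Pr A → Pr B → Pr (A ⊞ B))
    (h4 : ∀ i e, E.p i - 3 * k = -2 * e → Pr (K.Y e)) : Pr ((K.cx E).X k) := by
  rw [cx_X']
  exact hP K _ Pr h1 h2 h3 h4

variable [Fact (IsHom I)] [HasDerivedCategory.{w} (P294Z.Coh (PI I))]

theorem cx_ob (K : Ker W I) {n : ℕ} (E : GMF W n) : K.ob E = (QS I).obj (K.cx E) := by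
  unfold Ker.ob Ker.Q Ker.F Ker.cx
  exact cx_g3 _ _ _ _ _ _ _

end Vale.Agent.P287T.Fm
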