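import Vale.Agent.P287Z.T3.Shim
import Vale.Agent.P287Z.D.Pt
import Vale.Agent.P287T.Cy.Defs

/-!
# Fourier-Mukai functor of a family of matrix factorizations: definitions (P287 phase 2, block FM)
-/

open CategoryTheory Limits MvPolynomial

universe w

namespace Vale.Agent.P287T.Fm

open Vale.Agent.P287Z Vale.Agent.P287Z.O.V Vale.Agent.P287T.Cy

/-! ## The side of the cubic -/

section X

variable {W : S6} {n : ℕ}

/-- the dual matrix factorization -/
def dual (E : GMF W n) : GMF W n where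
  p i := -E.p i
  d := E.d.transpose
  deg i j := by
    have := E.deg j i
    rwa [show 3 + E.p i - E.p j = 3 + -E.p j - -E.p i by ring] at this
  sq := by rw [← Matrix.transpose_mul, E.sq, Matrix.transpose_smul, Matrix.transpose_one]

/-- homotopy classes of closed maps `E → F[k]` -/
abbrev Hm {m : ℕ} (E : GMF W m) (F : GMF W n) (k : ℤ) : Type := HH E.p E.d F.p F.d (3 * k)

/-- the graded dual -/
noncomputable def dgr (N : O.L.GrS) : O.L.GrS where
  obj a := ModuleCat.of ℂ (Module.Dual ℂ (N.obj ⟨-a.deg⟩))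
  map {a b} μ := ModuleCat.ofHom (N.map (⟨μ.1, by have := μ.2; change -b.deg + _ = -a.deg; lia⟩ :
    (⟨-b.deg⟩ : O.L.Dg) ⟶ ⟨-a.deg⟩)).hom.dualMap
  map_id a := by
    ext φ x
    change φ (N.map (𝟙 _) x) = φ x
    rw [N.map_id]
    rfl
  map_comp {a b c} μ μ' := by
    ext φ x
    refine congrArg φ ?_
    refine Eq.trans ?_ (congr($(N.map_comp _ _) x))
    exact congr(N.map $(Subtype.ext (add_comm μ.1 μ'.1)) x)

/-- the graded dual of a map -/
noncomputable def dgrM {N N' : O.L.GrS} (f : N ⟶ N') : dgr N' ⟶ dgr N where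
  app a := ModuleCat.ofHom (f.app ⟨-a.deg⟩).hom.dualMap
  naturality a b μ := by
    refine ModuleCat.hom_ext (LinearMap.ext fun φ => LinearMap.ext fun x => ?_)
    exact congrArg (show Module.Dual ℂ (N'.obj ⟨-a.deg⟩) from φ)
      (congr($(f.naturality (⟨μ.1, by have := μ.2; change -b.deg + _ = -a.deg; lia⟩ :
        (⟨-b.deg⟩ : O.L.Dg) ⟶ ⟨-a.deg⟩)) x)).symm

variable (W) in
/-- `(N ⊗_A P)₀`, as the dual of `Hom_A(P, N^*)` -/
noncomputable def ten (N : O.L.GrS) : O.L.GA W ⥤ ModuleCat.{0} ℂ where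
  obj P := ModuleCat.of ℂ (Module.Dual ℂ (P.obj ⟶ dgr N))
  map f := ModuleCat.ofHom (Linear.leftComp ℂ (dgr N) f.hom).dualMap
  map_id P := by
    ext φ g
    exact congrArg φ (Category.id_comp g)
  map_comp f g := by
    ext φ h
    exact congrArg φ (Category.assoc f.hom g.hom h)

variable (W) in
/-- functoriality in the first variable -/
noncomputable def tenL {N N' : O.L.GrS} (f : N ⟶ N') : ten W N ⟶ ten W N' where
  app P := ModuleCat.ofHom (Linear.rightComp ℂ P.obj (dgrM f)).dualMap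
  naturality P Q g := by
    refine ModuleCat.hom_ext (LinearMap.ext fun φ => LinearMap.ext fun h => ?_)
    exact congrArg (show Module.Dual ℂ (P.obj ⟶ dgr N) from φ)
      (Category.assoc g.hom h (dgrM f)).symm

theorem ten_add (N : O.L.GrS) : (ten W N).Additive where
  map_add {P Q f g} := by
    refine ModuleCat.hom_ext (LinearMap.ext fun φ => LinearMap.ext fun h => ?_)
    exact (congrArg (show Module.Dual ℂ (P.obj ⟶ dgr N) from φ)
      (Preadditive.add_comp _ _ _ f.hom g.hom h)).trans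
      (map_add (show Module.Dual ℂ (P.obj ⟶ dgr N) from φ) _ _)

/-- the pure tensor `x ⊗ y` -/
noncomputable def tm {N : O.L.GrS} {P : O.L.GA W} {a : ℤ} (x : N.obj ⟨-a⟩) (y : P.obj.obj ⟨a⟩) :
    (ten W N).obj P :=
  (show Module.Dual ℂ (P.obj ⟶ dgr N) from
    { toFun := fun g => (show Module.Dual ℂ (N.obj ⟨-a⟩) from g.app ⟨a⟩ y) x
      map_add' := fun _ _ => rfl
      map_smul' := fun _ _ => rfl })

/-- Serre duality, dimensions only -/
def CY (W : S6) : Prop := ∀ {m n : ℕ} (E : GMF W m) (F : GMF W n) (k : ℤ),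
  Module.Finite ℂ (Hm E F k) ∧ Module.finrank ℂ (Hm E F k) = Module.finrank ℂ (Hm F E (2 - k))

theorem hgT_MM {m : ℕ} {G : GMF W m} {E : GMF W n} {f : Matrix (Fin n) (Fin m) S6} {k l : ℤ}
    (hf : f ∈ MM G.p E.p (3 * l - 3 * k)) : O.H962.HgT G E k l f := hf

theorem hgT_MM0 {m : ℕ} {G : GMF W m} {E : GMF W n} {f : Matrix (Fin n) (Fin m) S6} {l : ℤ}
    (hf : f ∈ MM G.p E.p (3 * l)) : O.H962.HgT G E 0 l f :=
  hgT_MM (by rwa [mul_zero, sub_zero])

variable [Fact (W.IsHomogeneous 3)]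

/-- the map between the terms of the complexes given by a matrix -/
noncomputable def fm {m : ℕ} (G : GMF W m) (E : GMF W n) {f : Matrix (Fin n) (Fin m) S6} (k l : ℤ)
    (hf : f ∈ MM G.p E.p (3 * l - 3 * k)) : (O.L.TT G).X k ⟶ (O.L.TT E).X l :=
  O.H962.mX (fun _ => True) f (hgT_MM hf)

/-- the component on the term of degree zero -/
noncomputable def fz {m : ℕ} (G : GMF W m) (E : GMF W n) {f : Matrix (Fin n) (Fin m) S6} (l : ℤ)
    (hf : f ∈ MM G.p E.p (3 * l)) : (O.L.TT G).X 0 ⟶ (O.L.TT E).X l :=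
  O.H962.mX (fun _ => True) f (hgT_MM0 hf)

/-- the module of a matrix factorization -/
noncomputable def cok (E : GMF W n) : O.L.GA W := cokernel ((O.L.TT E).d (-1) 0)

/-- the maps which factor through a free module -/
def FF {M N : O.L.GA W} (f : M ⟶ N) : Prop :=
  ∃ (r : ℕ) (q : Fin r → ℤ) (a : M ⟶ O.L.FrA W q) (b : O.L.FrA W q ⟶ N), f = a ≫ b

/-- `N` is stably equivalent to the module of `E` -/
def StE (N : O.L.GA W) (E : GMF W n) : Prop :=
  ∃ (α : N ⟶ cok E) (β : cok E ⟶ N), FF (α ≫ β - 𝟙 _) ∧ FF (β ≫ α - 𝟙 _)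

end X

/-! ## The side of the surface -/

section S

variable {ν : ℕ}

/-- the shift operators on the total module -/
noncomputable def shT (N : Gr.GrS ν) (μ : Fin ν →₀ ℕ) : Module.End ℂ (Π₀ m : ℤ, N.obj ⟨m⟩) :=
  DFinsupp.lsum ℂ fun m => DFinsupp.lsingle (m + (μ.degree : ℤ)) ∘ₗ
    (N.map (⟨μ, rfl⟩ : (⟨m⟩ : Gr.Dg ν) ⟶ ⟨m + (μ.degree : ℤ)⟩)).hom

theorem shT_single (N : Gr.GrS ν) (μ : Fin ν →₀ ℕ) {a b : ℤ} (h : a + (μ.degree : ℤ) = b)
    (x : N.obj ⟨a⟩) : shT N μ (DFinsupp.single a x) =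
      DFinsupp.single b (N.map (⟨μ, h⟩ : (⟨a⟩ : Gr.Dg ν) ⟶ ⟨b⟩) x) := by
  subst h
  rw [shT, DFinsupp.lsum_single]
  rfl

/-- the action of the polynomial ring on the total module -/
noncomputable def actT (N : Gr.GrS ν) : Gr.Sn ν →ₐ[ℂ] Module.End ℂ (Π₀ m : ℤ, N.obj ⟨m⟩) :=
  AddMonoidAlgebra.lift ℂ _ (Fin ν →₀ ℕ)
    { toFun := fun μ => shT N μ.toAdd
      map_one' := by
        refine DFinsupp.lhom_ext fun a x => ?_
        refine (shT_single N 0 (b := a) (by simp) x).trans ?_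
        exact congrArg (DFinsupp.single a) (congr($(N.map_id ⟨a⟩) x))
      map_mul' := fun μ μ' => by
        refine DFinsupp.lhom_ext fun a x => ?_
        refine Eq.trans ?_ (congrArg (shT N μ.toAdd) (shT_single N μ'.toAdd rfl x)).symm
        refine Eq.trans ?_ (shT_single N μ.toAdd rfl _).symm
        refine (shT_single N (μ.toAdd + μ'.toAdd)
          (b := a + (μ'.toAdd.degree : ℤ) + (μ.toAdd.degree : ℤ))
          (by rw [map_add]; push_cast; ring) x).trans ?_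
        refine congrArg (DFinsupp.single _) ?_
        refine Eq.trans ?_ (congr($(N.map_comp _ _) x))
        exact congr(N.map $(Subtype.ext (add_comm μ.toAdd μ'.toAdd)) x) }

/-- the total module `⊕_m N_m` over the polynomial ring -/
noncomputable def Tot (N : Gr.GrS ν) : ModuleCat.{0} (Gr.Sn ν) :=
  letI : Module (Gr.Sn ν) (Π₀ m : ℤ, N.obj ⟨m⟩) := Module.compHom _ (actT N).toRingHom
  ModuleCat.of _ (Π₀ m : ℤ, N.obj ⟨m⟩)

/-- the map of total modules -/
noncomputable def totL {M N : Gr.GrS ν} (f : M ⟶ N) :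
    (Π₀ m : ℤ, M.obj ⟨m⟩) →ₗ[ℂ] (Π₀ m : ℤ, N.obj ⟨m⟩) :=
  DFinsupp.mapRange.linearMap fun m => (f.app ⟨m⟩).hom

/-- `t ∈ 𝔞 N` -/
def InI (N : Gr.GrS ν) (𝔞 : Ideal (Gr.Sn ν)) (t : Π₀ m : ℤ, N.obj ⟨m⟩) : Prop :=
  (show Tot N from t) ∈ (𝔞 • ⊤ : Submodule (Gr.Sn ν) (Tot N))

/-- `ev` identifies `Φ` with `N / 𝔞 N` -/
def IsQ (N : Gr.GrS ν) (𝔞 : Ideal (Gr.Sn ν)) {Φ : Type} [AddCommGroup Φ] [Module ℂ Φ]
    (ev : ∀ m : ℤ, N.obj ⟨m⟩ →ₗ[ℂ] Φ) : Prop :=
  Function.Surjective (DFinsupp.lsum ℂ ev : (Π₀ m : ℤ, N.obj ⟨m⟩) →ₗ[ℂ] Φ) ∧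
    ∀ t : Π₀ m : ℤ, N.obj ⟨m⟩, DFinsupp.lsum ℂ ev t = 0 ↔ InI N 𝔞 t

/-- the maximal ideal of the point `v` of the affine cone -/
noncomputable def mv (v : Fin ν → ℂ) : Ideal (Gr.Sn ν) := RingHom.ker (eval v)

/-- the derivative at `v` in the direction `t` -/
noncomputable def dv (v t : Fin ν → ℂ) (g : Gr.Sn ν) : ℂ := ∑ j, t j * eval v (pderiv j g)

theorem dv_add (v t : Fin ν → ℂ) (f g : Gr.Sn ν) : dv v t (f + g) = dv v t f + dv v t g := by
  simp only [dv, map_add, mul_add, Finset.sum_add_distrib]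

theorem dv_mul (v t : Fin ν → ℂ) (f g : Gr.Sn ν) :
    dv v t (f * g) = eval v f * dv v t g + eval v g * dv v t f := by
  simp only [dv, Derivation.leibniz, smul_eq_mul, map_add, map_mul, mul_add,
    Finset.sum_add_distrib, Finset.mul_sum, mul_left_comm]

/-- the ideal of the tangent vector `t` at `v` -/
noncomputable def mj (v t : Fin ν → ℂ) : Ideal (Gr.Sn ν) where
  carrier := {g | eval v g = 0 ∧ dv v t g = 0}
  zero_mem' := by simp [dv]
  add_mem' := fun h h' => ⟨by rw [map_add, h.1, h'.1, add_zero], by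
    rw [dv_add, h.2, h'.2, add_zero]⟩
  smul_mem' := fun c g h => ⟨by rw [smul_eq_mul, map_mul, h.1, mul_zero], by
    rw [smul_eq_mul, dv_mul, h.1, h.2, mul_zero, zero_mul, add_zero]⟩

variable (I : Ideal (Gr.Sn ν))

/-- the points of the punctured affine cone -/
def Pt (v : Fin ν → ℂ) : Prop := v ≠ 0 ∧ I ≤ ptI v

/-- tangent vectors of the cone which are transversal to the line -/
def Tg (v t : Fin ν → ℂ) : Prop := (∀ g ∈ I, dv v t g = 0) ∧ ∀ c : ℂ, t ≠ c • v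

/-- `Proj ℂ[y] / I` is a smooth integral surface (Jacobian form) -/
structure Surf : Prop where
  prime : I.IsPrime
  ne : ∃ v, Pt I v
  jac : ∀ v, Pt I v → ∃ (c : ℕ) (g : Fin c → Gr.Sn ν) (h : Gr.Sn ν), c + 3 = ν ∧ (∀ k, g k ∈ I) ∧
    LinearIndependent ℂ (fun k j => eval v (pderiv j (g k))) ∧ eval v h ≠ 0 ∧
    ∀ f ∈ I, h * f ∈ Ideal.span (Set.range g)

/-- all the fibres of `N` on the punctured cone have the same dimension -/
def LF (N : Gr.GrS ν) : Prop := ∃ ρ : ℕ, ∀ v, Pt I v →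
  ∃ ev : ∀ m : ℤ, N.obj ⟨m⟩ →ₗ[ℂ] (Fin ρ → ℂ), IsQ N (mv v) ev

variable [Fact (IsHom I)]

/-- the sheaf `𝒪(-m)` -/
noncomputable abbrev Om (m : ℤ) : P294Z.Coh (PI I) := (piI I).obj (Gr.FrA I fun _ : Fin 1 => 2 * m)

variable [HasDerivedCategory.{w} (P294Z.Coh (PI I))]

/-- a sheaf as an object of the derived category -/
noncomputable abbrev sg : P294Z.Coh (PI I) ⥤ DerivedCategory (P294Z.Coh (PI I)) :=
  DerivedCategory.singleFunctor _ 0

/-- Serre vanishing in the degrees `≥ m₀` -/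
def SV (m₀ : ℤ) (N : Gr.GA I) : Prop := ∀ m ≥ m₀,
  Function.Bijective (fun f : Gr.FrA I (fun _ : Fin 1 => 2 * m) ⟶ N => (piI I).map f) ∧
  ∀ k : ℤ, 0 < k → ∀ f : (sg I).obj (Om I m) ⟶ ((sg I).obj ((piI I).obj N))⟦k⟧, f = 0

end S

/-! ## Kernels -/

section K

variable {ν : ℕ} {W : S6}

/-- the part of degree `e` in the variables `x` -/
noncomputable def NY (N : Gr.Dg ν ⥤ O.L.GA W) (e : ℤ) : Gr.GrS ν :=
  N ⋙ (O.L.grA W).ι ⋙ (evaluation _ _).obj ⟨e⟩

theorem dgrM_id (N : O.L.GrS) : dgrM (𝟙 N) = 𝟙 _ := rfl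

theorem dgrM_comp {N N' N'' : O.L.GrS} (f : N ⟶ N') (g : N' ⟶ N'') :
    dgrM (f ≫ g) = dgrM g ≫ dgrM f := rfl

/-- the functor `P ↦ (N ⊗_A P)₀` to graded modules over the ring of the surface -/
noncomputable def psi0 (N : Gr.Dg ν ⥤ O.L.GA W) : O.L.GA W ⥤ Gr.GrS ν where
  obj P :=
    { obj := fun m => (ten W (N.obj m).obj).obj P
      map := fun μ => (tenL W (N.map μ).hom).app P
      map_id := fun m => by
        rw [N.map_id]
        refine ModuleCat.hom_ext (LinearMap.ext fun φ => LinearMap.ext fun h => ?_)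
        exact congrArg (show Module.Dual ℂ (P.obj ⟶ dgr (N.obj m).obj) from φ)
          (Category.comp_id h)
      map_comp := fun {a b c} μ μ' => by
        rw [N.map_comp]
        refine ModuleCat.hom_ext (LinearMap.ext fun φ => LinearMap.ext fun h => ?_)
        exact congrArg (show Module.Dual ℂ (P.obj ⟶ dgr (N.obj a).obj) from φ)
          (Category.assoc h (dgrM (N.map μ').hom) (dgrM (N.map μ).hom)).symm }
  map f :=
    { app := fun m => (ten W (N.obj m).obj).map f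
      naturality := fun a b μ => ((tenL W (N.map μ).hom).naturality f).symm }
  map_id P := NatTrans.ext (funext fun m => (ten W (N.obj m).obj).map_id P)
  map_comp f g := NatTrans.ext (funext fun m => (ten W (N.obj m).obj).map_comp f g)

variable (W) (I : Ideal (Gr.Sn ν))

/-- a bigraded module, finitely generated on both sides -/
structure Ker where
  N : Gr.Dg ν ⥤ O.L.GA W
  mem : ∀ e, Gr.grA I (NY N e)
  memP : ∀ P, Gr.grA I ((psi0 N).obj P)
  low : ∃ e₀ : ℤ, ∀ e < e₀, ∀ m : ℤ, Subsingleton ((N.obj ⟨m⟩).obj.obj ⟨e⟩)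
  fg : ∃ e₁ : ℤ, ∀ e ≥ e₁, ∀ (m : ℤ) (z : (N.obj ⟨m⟩).obj.obj ⟨e + 1⟩),
    ∃ y : Fin 6 → (N.obj ⟨m⟩).obj.obj ⟨e⟩,
      z = ∑ j, O.L.act (N.obj ⟨m⟩).obj (X j) e (e + 1) (y j)

variable {W I} (K : Ker W I)

/-- the graded pieces -/
noncomputable def Ker.Y (e : ℤ) : Gr.GA I := ⟨NY K.N e, K.mem e⟩

/-- the functor on graded modules -/
noncomputable def Ker.psi : O.L.GA W ⥤ Gr.GA I := (Gr.grA I).lift (psi0 K.N) K.memP

theorem Ker.psi_add : K.psi.Additive where
  map_add {P Q f g} := by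
    refine ObjectProperty.hom_ext _ (NatTrans.ext (funext fun m => ?_))
    exact (ten_add (W := W) (K.N.obj m).obj).map_add

theorem Ker.psi_lin : K.psi.Linear ℂ where
  map_smul {P Q} f c := by
    refine ObjectProperty.hom_ext _ (NatTrans.ext (funext fun m => ?_))
    refine ModuleCat.hom_ext (LinearMap.ext fun φ => LinearMap.ext fun h => ?_)
    exact (congrArg (show Module.Dual ℂ (P.obj ⟶ dgr (K.N.obj m).obj) from φ)
      (Linear.smul_comp _ _ _ c f.hom h)).trans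
      (map_smul (show Module.Dual ℂ (P.obj ⟶ dgr (K.N.obj m).obj) from φ) c _)

/-- `Q = N / 𝔞 N` -/
def Ker.Quo (𝔞 : Ideal (Gr.Sn ν)) (Q : O.L.GA W) : Prop :=
  ∃ ev : ∀ m : ℤ, K.N.obj ⟨m⟩ ⟶ Q, ∀ e : ℤ,
    IsQ (NY K.N e) 𝔞 (fun m => ((ev m).hom.app ⟨e⟩).hom)

variable [Fact (W.IsHomogeneous 3)]

/-- the quotient `N / 𝔞 N` is stably equivalent to the module of the dual of `U` -/
def Ker.Fib (𝔞 : Ideal (Gr.Sn ν)) {r : ℕ} (U : GMF W r) : Prop :=
  ∃ Q, K.Quo 𝔞 Q ∧ StE Q (dual U)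

/-- the fibrewise conditions: the fibres `U v` form a complete orthogonal family of point-like
objects with an injective Kodaira-Spencer map -/
structure Ker.Pts (r : (Fin ν → ℂ) → ℕ) (U : ∀ v, GMF W (r v)) : Prop where
  lf : ∀ e, LF I (NY K.N e)
  fib : ∀ v, Pt I v → K.Fib (mv v) (U v)
  orth : ∀ v v', Pt I v → Pt I v' → (∀ c : ℂ, v' ≠ c • v) → ∀ k, Subsingleton (Hm (U v') (U v) k)
  neg : ∀ v, Pt I v → ∀ k < 0, Subsingleton (Hm (U v) (U v) k)
  one : ∀ v, Pt I v → Module.finrank ℂ (Hm (U v) (U v) 0) = 1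
  jet : ∀ v t, Pt I v → Tg I v t → ∃ (s : ℕ) (U₂ : GMF W s), K.Fib (mj v t) U₂ ∧
    Module.finrank ℂ (Hm (U v) U₂ 0) ≤ 1
  bdd : ∃ c : ℤ, ∀ v, Pt I v → ∀ i, |(U v).p i| ≤ c

variable [Fact (IsHom I)]

/-- the functor to coherent sheaves -/
noncomputable def Ker.F : O.L.GA W ⥤ P294Z.Coh (PI I) := K.psi ⋙ piI I

instance : K.F.Additive := by
  have := K.psi_add
  exact inferInstanceAs (K.psi ⋙ piI I).Additive

instance : K.F.Linear ℂ := by
  have := K.psi_add
  have := K.psi_lin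
  exact inferInstanceAs ((K.psi ⋙ piI I).Linear ℂ)

variable [HasDerivedCategory.{w} (P294Z.Coh (PI I))]

/-- uniform Serre vanishing -/
def Ker.Glob (m₀ : ℤ) : Prop := ∀ e, SV I m₀ (K.Y e)

/-- the Fourier-Mukai functor on complexes -/
noncomputable def Ker.Q : CochainComplex (O.L.GA W) ℤ ⥤ DerivedCategory (P294Z.Coh (PI I)) :=
  K.F.mapHomologicalComplex (ComplexShape.up ℤ) ⋙ DerivedCategory.Q

/-- the Fourier-Mukai functor on matrix factorizations -/
noncomputable def Ker.ob {n : ℕ} (E : GMF W n) : DerivedCategory (P294Z.Coh (PI I)) :=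
  K.Q.obj (O.L.TT E)

/-- the Fourier-Mukai functor on closed maps -/
noncomputable def Ker.mp {m n : ℕ} {E : GMF W m} {E' : GMF W n} {f : Matrix (Fin n) (Fin m) S6}
    (hf : Cl E E' f) : K.ob E ⟶ K.ob E' := K.Q.map (O.L.Tf hf fun _ => True)

/-- **the output**: the functor is an equivalence onto `D^b(Coh S)` -/
structure Ker.Out : Prop where
  bdd : ∀ {n : ℕ} (E : GMF W n),
    (DerivedCategory.TStructure.t (C := P294Z.Coh (PI I))).bounded (K.ob E)
  full : ∀ {m n : ℕ} (E : GMF W m) (E' : GMF W n) (g : K.ob E ⟶ K.ob E'),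
    ∃ f, ∃ hf : Cl E E' f, K.mp hf = g
  faithful : ∀ {m n : ℕ} (E : GMF W m) (E' : GMF W n) f (hf : Cl E E' f),
    K.mp hf = 0 ↔ Nh E E' f
  ess : ∀ Y, (DerivedCategory.TStructure.t (C := P294Z.Coh (PI I))).bounded Y →
    ∃ (n : ℕ) (E : GMF W n), Nonempty (K.ob E ≅ Y)

end K

end Vale.Agent.P287T.Fm
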