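import Vale.Agent.P287T.Fm.Defs
import Vale.Agent.P287T.Zg.Tri

/-!
# Block FM: the dg functor `E ↦ T(E)` and the exact functors obtained from it
-/

open CategoryTheory Limits MvPolynomial

universe w v u v' u'

namespace Vale.Agent.P287T.Fm.Dt

open Vale.Agent.P287Z Vale.Agent.P287Z.O.V Vale.Agent.P287T.Cy Vale.Agent.P287T.G3

variable {W : S6}

/-- a matrix in the numbered bases -/
noncomputable def nb (E F : HM W) (g : Matrix F.ι E.ι S6) :
    Matrix (Fin (Fintype.card F.ι)) (Fin (Fintype.card E.ι)) S6 :=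
  g.submatrix (Fintype.equivFin F.ι).symm (Fintype.equivFin E.ι).symm

/-- a matrix in the original bases -/
noncomputable def unb (E F : HM W)
    (g : Matrix (Fin (Fintype.card F.ι)) (Fin (Fintype.card E.ι)) S6) : Matrix F.ι E.ι S6 :=
  g.submatrix (Fintype.equivFin F.ι) (Fintype.equivFin E.ι)

section

variable {E F G : HM W}

theorem nb_unb (g) : nb E F (unb E F g) = g := by
  rw [nb, unb, Matrix.submatrix_submatrix, Equiv.self_comp_symm, Equiv.self_comp_symm,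
    Matrix.submatrix_id_id]

theorem unb_nb (g) : unb E F (nb E F g) = g := by
  rw [nb, unb, Matrix.submatrix_submatrix, Equiv.symm_comp_self, Equiv.symm_comp_self,
    Matrix.submatrix_id_id]

theorem nb_mul (g : Matrix F.ι E.ι S6) (g' : Matrix G.ι F.ι S6) :
    nb E G (g' * g) = nb F G g' * nb E F g := (Matrix.submatrix_mul_equiv _ _ _ _ _).symm

theorem nb_add (g g' : Matrix F.ι E.ι S6) : nb E F (g + g') = nb E F g + nb E F g' := rfl

theorem nb_smul (c : ℂ) (g : Matrix F.ι E.ι S6) : nb E F (c • g) = c • nb E F g := rfl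

theorem nb_one : nb E E 1 = 1 := Matrix.submatrix_one_equiv _

theorem nb_inj {g g' : Matrix F.ι E.ι S6} (h : nb E F g = nb E F g') : g = g' := by
  rw [← unb_nb g, h, unb_nb]

theorem nb_MM {g : Matrix F.ι E.ι S6} {j : ℤ} :
    nb E F g ∈ MM (toGMF E).p (toGMF F).p j ↔ g ∈ MM E.pz F.pz j := by
  refine ⟨fun h i l => ?_, fun h i l => h _ _⟩
  have := h (Fintype.equivFin F.ι i) (Fintype.equivFin E.ι l)
  simpa only [nb, toGMF, Matrix.submatrix_apply, Equiv.symm_apply_apply] using this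

theorem nb_cl {g : Matrix F.ι E.ι S6} :
    Cl (toGMF E) (toGMF F) (nb E F g) ↔ g ∈ ZZ E.pz E.dz F.pz F.dz 0 := by
  refine ((cl_iff _ _ _).trans (mem_Z0_iff (ofGMF _) (ofGMF _) _)).trans (and_congr nb_MM ?_)
  change nb F F F.dz * nb E F g = nb E F g * nb E E E.dz ↔ _
  rw [← nb_mul, ← nb_mul]
  exact ⟨nb_inj, congrArg _⟩

theorem nb_nh {g : Matrix F.ι E.ι S6} (h : Nh (toGMF E) (toGMF F) (nb E F g)) :
    g ∈ BB E.pz E.dz F.pz F.dz 0 := by
  obtain ⟨s, hs, e⟩ := h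
  obtain ⟨s, rfl⟩ : ∃ s', s = nb E F s' := ⟨_, (nb_unb s).symm⟩
  refine mem_BB.2 ⟨s, nb_MM.1 fun i l => ?_, nb_inj ?_⟩
  · rw [show 0 - 3 + (toGMF E).p l - (toGMF F).p i = (toGMF E).p l - (toGMF F).p i - 3 by ring]
    exact hs i l
  · rw [nb_add, nb_mul, nb_mul]
    exact e

theorem hgT_nb {g : Matrix F.ι E.ι S6} {k l : ℤ}
    (hg : g ∈ MM E.pz F.pz (3 * (l - k))) : O.H962.HgT (toGMF E) (toGMF F) k l (nb E F g) :=
  hgT_MM (nb_MM.2 (Zg.MM_cast hg (mul_sub _ _ _)))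

end

theorem perm_aux {m n : ℕ} (E : GMF W n) (F : GMF W m) (e : Fin m ≃ Fin n)
    (hp : ∀ i, F.p i = E.p (e i)) (hd : F.d = E.d.submatrix e e) :
    ∃ a b, Cl F E a ∧ Cl E F b ∧ b * a = 1 ∧ a * b = 1 := by
  have h : ∀ i j, Hg (E.p j - E.p i) ((1 : Matrix (Fin n) (Fin n) S6) i j) := fun i j => by
    have := Zg.MM_one (p := E.p) (q := E.p) (a := 0) (fun i => (zero_add _).symm) i j
    rwa [zero_add] at this
  refine ⟨(1 : Matrix (Fin n) (Fin n) S6).submatrix id e,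
    (1 : Matrix (Fin n) (Fin n) S6).submatrix e id, ⟨fun i j => hp j ▸ h _ _, ?_⟩,
    ⟨fun i j => hp i ▸ h _ _, ?_⟩, ?_, ?_⟩
  · rw [hd, Matrix.submatrix_mul_equiv, Matrix.one_mul]
    exact (Matrix.submatrix_mul_equiv E.d 1 id (Equiv.refl _) e).trans (by rw [Matrix.mul_one])
  · rw [hd, Matrix.submatrix_mul_equiv, Matrix.mul_one]
    exact Eq.symm ((Matrix.submatrix_mul_equiv 1 E.d e (Equiv.refl _) id).trans
      (by rw [Matrix.one_mul]))
  · exact (Matrix.submatrix_mul_equiv 1 1 e (Equiv.refl _) e).trans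
      (by rw [Matrix.one_mul, Matrix.submatrix_one_equiv])
  · rw [Matrix.submatrix_mul_equiv, Matrix.one_mul, Matrix.submatrix_id_id]

/-- the permutation matrices between a factorization and its renumbering -/
theorem exists_perm {n : ℕ} (E : GMF W n) : ∃ a b, Cl (toGMF (ofGMF E)) E a ∧
    Cl E (toGMF (ofGMF E)) b ∧ b * a = 1 ∧ a * b = 1 :=
  perm_aux E (toGMF (ofGMF E)) (Fintype.equivFin (Fin n)).symm (fun _ => rfl) rfl

variable [Fact (W.IsHomogeneous 3)]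

theorem mX_smul {m n : ℕ} {E : GMF W m} {F : GMF W n} {k l : ℤ} (c : ℂ)
    {f : Matrix (Fin n) (Fin m) S6} (hf : O.H962.HgT E F k l f) (h : O.H962.HgT E F k l (c • f)) :
    O.H962.mX (fun _ => True) (c • f) h = c • O.H962.mX (fun _ => True) f hf := by
  refine Eq.trans ?_ (O.H962.matA_smul W c _ (hf.mask fun _ => True)
    fun i j => O.L.hga_smul c (hf.mask (fun _ => True) i j))
  refine O.H962.matA_congr W _ _ _ _ fun i j _ => ?_
  rw [Matrix.smul_apply, O.L.mask, O.L.mask, if_pos ⟨trivial, trivial⟩, if_pos ⟨trivial, trivial⟩,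
    Matrix.smul_apply, sub_self]
  exact dvd_zero _

open Classical in
/-- the map between the terms given by a matrix -/
noncomputable def tX (E F : HM W) (g : Matrix F.ι E.ι S6) (k l : ℤ) :
    (O.L.TT (toGMF E)).X k ⟶ (O.L.TT (toGMF F)).X l :=
  if h : O.H962.HgT (toGMF E) (toGMF F) k l (nb E F g) then O.H962.mX (fun _ => True) _ h else 0

theorem tX_eq {E F : HM W} {g : Matrix F.ι E.ι S6} {k l : ℤ}
    (h : O.H962.HgT (toGMF E) (toGMF F) k l (nb E F g)) :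
    tX E F g k l = O.H962.mX (fun _ => True) _ h := dif_pos h

variable (W) in
/-- the dg functor `E ↦ T(E)` -/
noncomputable def dgT : Zg.DG W (O.L.GA W) :=
  Zg.DG.ofMod (fun E => O.L.TT (toGMF E)) tX
    (fun E F g g' c k l hg hg' => by
      have h1 : O.H962.HgT (toGMF E) (toGMF F) k l (c • nb E F g) :=
        hgT_nb (Submodule.smul_mem _ c hg)
      rw [tX_eq (hgT_nb hg), tX_eq (hgT_nb hg'), ← mX_smul c (hgT_nb hg) h1, ← O.H962.mX_add]
      exact tX_eq _)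
    (fun E k => (tX_eq (hgT_nb (Zg.MM_one fun i => by ring))).trans
      ((O.H962.mX_congr _ nb_one _ _).trans (O.H962.mX_one _ _ k)))
    (fun E F G g g' k l r hg hg' => by
      rw [tX_eq (hgT_nb hg), tX_eq (hgT_nb hg'), O.H962.mX_comp,
        tX_eq (hgT_nb (Zg.MM_mul hg' hg (by ring)))]
      exact O.H962.mX_congr _ (nb_mul g g') _ _)
    fun E k => (O.H962.T_dX _ _ k (k + 1) rfl).trans (tX_eq (g := E.dz) _).symm

theorem dgT_hom {E F : HM W} (f : Matrix F.ι E.ι S6) (hf : f ∈ ZZ E.pz E.dz F.pz F.dz 0) :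
    (dgT W).hom f hf = O.L.Tf (nb_cl.2 hf) fun _ => True := by
  ext1 k
  exact tX_eq (O.H962.hgT_cl (nb_cl.2 hf) k)

theorem exists_iso {n : ℕ} (E : GMF W n) : Nonempty (O.L.TT (toGMF (ofGMF E)) ≅ O.L.TT E) := by
  obtain ⟨a, b, ha, hb, e, e'⟩ := exists_perm E
  have k : ∀ {m : ℕ} (X : GMF W m), Cl X X 1 := fun X => (cl_iff X X 1).2 (one_mem_Z0 (ofGMF X))
  have k' : ∀ {m : ℕ} (X : GMF W m) {f} (h : Cl X X f), f = 1 →
      O.L.Tf h (fun _ => True) = 𝟙 _ := fun X f h e => by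
    subst e
    exact O.L.Tf_one X _ h
  exact ⟨⟨O.L.Tf ha _, O.L.Tf hb _, (O.L.Tf_comp ha hb _ (e ▸ k _)).trans (k' _ _ e),
    (O.L.Tf_comp hb ha _ (e' ▸ k _)).trans (k' _ _ e')⟩⟩

variable {𝒜 : Type u} [Category.{v} 𝒜] [Abelian 𝒜] [HasDerivedCategory.{w} 𝒜]

/-- the functor `E ↦ Q (T E)` is an equivalence onto the bounded derived category -/
structure OutQ (Q : CochainComplex (O.L.GA W) ℤ ⥤ DerivedCategory 𝒜) : Prop where
  bdd : ∀ {n : ℕ} (E : GMF W n),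
    (DerivedCategory.TStructure.t (C := 𝒜)).bounded (Q.obj (O.L.TT E))
  full : ∀ {m n : ℕ} (E : GMF W m) (E' : GMF W n) (g : Q.obj (O.L.TT E) ⟶ Q.obj (O.L.TT E')),
    ∃ f, ∃ hf : Cl E E' f, Q.map (X := O.L.TT E) (Y := O.L.TT E') (O.L.Tf hf fun _ => True) = g
  faithful : ∀ {m n : ℕ} (E : GMF W m) (E' : GMF W n) f (hf : Cl E E' f),
    Q.map (X := O.L.TT E) (Y := O.L.TT E') (O.L.Tf hf fun _ => True) = 0 ↔ Nh E E' f
  ess : ∀ Y, (DerivedCategory.TStructure.t (C := 𝒜)).bounded Y →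
    ∃ (n : ℕ) (E : GMF W n), Nonempty (Q.obj (O.L.TT E) ≅ Y)

variable [Linear ℂ 𝒜] {ℬ : Type u'} [Category.{v'} ℬ] [Preadditive ℬ] [Linear ℂ ℬ]
  (ψ : O.L.GA W ⥤ ℬ) [ψ.Additive] [ψ.Linear ℂ] (π : ℬ ⥤ 𝒜) [π.Additive] [π.Linear ℂ]

/-- the functor on complexes -/
noncomputable def QA : CochainComplex (O.L.GA W) ℤ ⥤ DerivedCategory 𝒜 :=
  (ψ ⋙ π).mapHomologicalComplex (ComplexShape.up ℤ) ⋙ DerivedCategory.Q

theorem fd_obj (E : HM W) :
    (((dgT W).map ψ).map π).fd.obj E = (QA ψ π).obj (O.L.TT (toGMF E)) := rfl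

theorem fd_map {E F : HM W} (f : Matrix F.ι E.ι S6) (hf : f ∈ ZZ E.pz E.dz F.pz F.dz 0) :
    (((dgT W).map ψ).map π).fd.map (mkR f hf) = (QA ψ π).map (X := O.L.TT (toGMF E))
      (Y := O.L.TT (toGMF F)) (O.L.Tf (nb_cl.2 hf) fun _ => True) :=
  ((((dgT W).map ψ).map π).fd_map f hf).trans (congrArg (QA ψ π).map (dgT_hom f hf))

variable {ψ π} {Q : CochainComplex (O.L.GA W) ℤ ⥤ DerivedCategory 𝒜} (hQ : Q = QA ψ π)
include hQ

theorem ob_iso {n : ℕ} (E : GMF W n) :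
    Nonempty ((((dgT W).map ψ).map π).fd.obj (ofGMF E) ≅ Q.obj (O.L.TT E)) := by
  subst hQ
  exact ⟨(QA ψ π).mapIso (exists_iso E).some⟩

theorem OutQ.fd_full (h : OutQ Q) : (((dgT W).map ψ).map π).fd.Full where
  map_surjective {E F} g := by
    subst hQ
    obtain ⟨f, hf, e⟩ := h.full (toGMF E) (toGMF F) g
    obtain ⟨f, rfl⟩ : ∃ f', f = nb E F f' := ⟨_, (nb_unb f).symm⟩
    exact ⟨mkR f (nb_cl.1 hf), (fd_map ψ π _ _).trans e⟩

theorem OutQ.fd_faithful (h : OutQ Q) : (((dgT W).map ψ).map π).fd.Faithful where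
  map_injective {E F} x y e := by
    subst hQ
    rw [← sub_eq_zero] at e ⊢
    rw [← Functor.map_sub] at e
    obtain ⟨f, hf, e'⟩ := exists_mkR (x - y)
    rw [e'] at e ⊢
    exact (mkR_eq_zero hf).2 (nb_nh ((h.faithful _ _ _ _).1 ((fd_map ψ π f hf).symm.trans e)))

theorem OutQ.fd_ess (h : OutQ Q) (Y : DerivedCategory 𝒜) :
    (((dgT W).map ψ).map π).fd.essImage Y ↔
      (DerivedCategory.TStructure.t (C := 𝒜)).bounded Y := by
  constructor
  · rintro ⟨E, ⟨e⟩⟩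
    subst hQ
    exact ObjectProperty.prop_of_iso _ e (h.bdd (toGMF E))
  · intro hY
    obtain ⟨n, E, ⟨e⟩⟩ := h.ess Y hY
    exact ⟨ofGMF E, ⟨(ob_iso hQ E).some ≪≫ e⟩⟩

end Vale.Agent.P287T.Fm.Dt
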