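import Vale.Agent.P287T.Fm.Dt0

/-!
# Block FM: the exact functor of a kernel
-/

open CategoryTheory Limits MvPolynomial

universe w

namespace Vale.Agent.P287T.Fm.Dt

open Vale.Agent.P287Z Vale.Agent.P287Z.O.V Vale.Agent.P287T.Cy Vale.Agent.P287T.G3

variable {W : S6} [Fact (W.IsHomogeneous 3)] {ν : ℕ} {I : Ideal (Gr.Sn ν)} (K : Ker W I)

/-- the dg functor of a kernel, with values in graded modules -/
noncomputable def dg0 : Zg.DG W (Gr.GA I) :=
  haveI := K.psi_add
  haveI := K.psi_lin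
  (dgT W).map K.psi

variable [Fact (IsHom I)] [HasDerivedCategory.{w} (P294Z.Coh (PI I))]

/-- **the exact functor of a kernel** -/
noncomputable abbrev fd : HM W ⥤ DerivedCategory (P294Z.Coh (PI I)) := ((dg0 K).map (piI I)).fd

omit [Fact (W.IsHomogeneous 3)] in
theorem Q_eq : K.Q = @QA W _ _ _ _ _ _ _ K.psi K.psi_add (piI I) _ := rfl

theorem fd_iso {n : ℕ} (E : GMF W n) : Nonempty ((fd K).obj (ofGMF E) ≅ K.ob E) :=
  haveI := K.psi_add
  haveI := K.psi_lin
  ob_iso (Q_eq K) E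

variable {K}

theorem outQ (h : K.Out) : OutQ K.Q := ⟨h.bdd, h.full, h.faithful, h.ess⟩

theorem full (h : K.Out) : (fd K).Full :=
  haveI := K.psi_add
  haveI := K.psi_lin
  (outQ h).fd_full (Q_eq K)

theorem faithful (h : K.Out) : (fd K).Faithful :=
  haveI := K.psi_add
  haveI := K.psi_lin
  (outQ h).fd_faithful (Q_eq K)

theorem ess (h : K.Out) (Y : DerivedCategory (P294Z.Coh (PI I))) :
    (fd K).essImage Y ↔ (DerivedCategory.TStructure.t (C := P294Z.Coh (PI I))).bounded Y :=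
  haveI := K.psi_add
  haveI := K.psi_lin
  (outQ h).fd_ess (Q_eq K) Y

theorem bdd (h : K.Out) (E : HM W) :
    (DerivedCategory.TStructure.t (C := P294Z.Coh (PI I))).bounded ((fd K).obj E) :=
  (ess h _).1 ((fd K).obj_mem_essImage E)

end Vale.Agent.P287T.Fm.Dt
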