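import Vale.Agent.P287T.Fm.Dt1
import Vale.Agent.P287T.Zg.Main
import Vale.Agent.P287T.Au.Alg

/-!
# Block FM: from the output of the block to the equivalence
-/

open CategoryTheory MvPolynomial

universe w w'

namespace Vale.Agent.P287T.Fm.Dt

open Vale.Agent.P287Z

theorem stDgk : Au.StDgk.{w, w'} := fun W _ _ _ _ _ _ h0 K h L hL =>
  haveI := full h
  haveI := faithful h
  Zg.kuEqv W h0 (fd K) (ess h) L hL

end Vale.Agent.P287T.Fm.Dt
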