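import Vale.Agent.P287T.Fm.Dt1
import Vale.Agent.P287T.Au.Alg

/-!
# Block H1: reduction to a statement about dg functors
-/

open CategoryTheory MvPolynomial

universe w

namespace Vale.Agent.P287T.Fm.Dt

open Vale.Agent.P287Z Vale.Agent.P287T.Cy Vale.Agent.P287T.G3

/-- the vanishing of `H¹(𝒪)` for a dg functor with values in graded modules -/
def StH1D : Prop := ∀ (W : S6) [Fact (W.IsHomogeneous 3)] (ν : ℕ) (I : Ideal (Gr.Sn ν))
  [Fact (IsHom I)] [HasDerivedCategory.{w} (P294Z.Coh (PI I))], Sm W → Surf I →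
  ∀ D : Zg.DG W (Gr.GA I), (D.map (piI I)).fd.Full → (D.map (piI I)).fd.Faithful →
  (∀ E, (DerivedCategory.TStructure.t (C := P294Z.Coh (PI I))).bounded
    ((D.map (piI I)).fd.obj E)) →
  (∀ v (hv : Pt I v), ∃ Y : HM W, Au.chg Y.pz ≠ 0 ∧ Nonempty ((D.map (piI I)).fd.obj Y ≅
    (DerivedCategory.singleFunctor _ 2).obj (Ov I hv))) → Kx.H1p I

theorem stH1_of (H : StH1D.{w}) : Au.StH1.{w} := fun W _ ν I _ _ hs hI K _ U h hp hc =>
  H W ν I hs hI (dg0 K) (full h) (faithful h) (bdd h) fun v hv =>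
    ⟨ofGMF (U v), hc v hv, ⟨(fd_iso K (U v)).some ≪≫ (hp v hv).some⟩⟩

end Vale.Agent.P287T.Fm.Dt
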