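import Vale.Agent.P287T.Fm.St

/-!
# Block FM: fibres, kernels given by matrices
-/

open CategoryTheory Limits MvPolynomial

namespace Vale.Agent.P287T.Fm

open Vale.Agent.P287Z Vale.Agent.P287Z.O.V Vale.Agent.P287T.Cy

variable {ν : ℕ} (W : S6) (I : Ideal (Gr.Sn ν)) [Fact (W.IsHomogeneous 3)]

/-- step FIB: the cohomology of the fibres of `Ψ E` is `Hom(U, E[k])` -/
def StFib : Prop := ∀ (K : Ker W I) (𝔞 : Ideal (Gr.Sn ν)) {r : ℕ} (U : GMF W r), K.Fib 𝔞 U →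
  ∀ {n : ℕ} (E : GMF W n) (k : ℤ),
    (Subsingleton (Hm U E k) → FEx ((K.cx E).d (k - 1) k) ((K.cx E).d k (k + 1)) 𝔞) ∧
    (FEx ((K.cx E).d (k - 1) k) ((K.cx E).d k (k + 1)) 𝔞 → Subsingleton (Hm U E k)) ∧
    (Module.Finite ℂ (Hm U E k) → Module.finrank ℂ (Hm U E k) ≤ 1 →
      ∃ z, InI _ 𝔞 (totL ((K.cx E).d k (k + 1)).hom z) ∧
        Sp ((K.cx E).d (k - 1) k) ((K.cx E).d k (k + 1)) 𝔞 z)

/-- step REP: dimensions from a representing cycle -/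
def StRep : Prop := ∀ (N : O.L.GA W) {m : ℕ} (G : GMF W m) (u : _), Rep N G u →
  ∀ {n : ℕ} (E : GMF W n) (k : ℤ),
    ((∀ z, dT N E k (k + 1) z = 0 → ∃ y, z = dT N E (k - 1) k y) ↔ Subsingleton (Hm G E k)) ∧
    ((∃ z, dT N E k (k + 1) z = 0 ∧ ∀ z', dT N E k (k + 1) z' = 0 →
      ∃ (c : ℂ) (y : _), z' = c • z + dT N E (k - 1) k y) → Module.finrank ℂ (Hm G E k) ≤ 1)

variable {W I}

/-- bihomogeneous matrices: `a` are the degrees in `y`, `q` the doubled degrees in `x` -/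
def BiH {ι κ : Type} (a q : ι → ℤ) (a' q' : κ → ℤ)
    (Φ : Matrix κ ι (MvPolynomial (Fin 6) (Gr.Sn ν))) : Prop :=
  ∀ i j μ, P294.V.Hg (2 * (a j - a' i)) (coeff μ (Φ i j)) ∧
    (coeff μ (Φ i j) ≠ 0 → 2 * (μ.degree : ℤ) = q j - q' i)

/-- the value at a point -/
noncomputable def atP {ι κ : Type} (Φ : Matrix κ ι (MvPolynomial (Fin 6) (Gr.Sn ν)))
    (v : Fin ν → ℂ) : Matrix κ ι S6 := Φ.map (MvPolynomial.map (eval v))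

/-- the derivative at a point -/
noncomputable def atD {ι κ : Type} (Φ : Matrix κ ι (MvPolynomial (Fin 6) (Gr.Sn ν)))
    (v t : Fin ν → ℂ) : Matrix κ ι S6 :=
  Φ.map fun g => ∑ μ ∈ g.support, monomial μ (dv v t (coeff μ g))

/-- the value at a tangent vector -/
noncomputable def atJ {ι κ : Type} (Φ : Matrix κ ι (MvPolynomial (Fin 6) (Gr.Sn ν)))
    (v t : Fin ν → ℂ) : Matrix (κ ⊕ κ) (ι ⊕ ι) S6 :=
  Matrix.fromBlocks (atP Φ v) (atD Φ v t) 0 (atP Φ v)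

variable (W I)

/-- step MAT: the kernel given by a presentation matrix -/
def StMat : Prop := I.IsPrime → ∀ {ι₀ ι₁ ι₂ : Type} [Fintype ι₀] [Fintype ι₁] [Fintype ι₂]
  (a₀ q₀ : ι₀ → ℤ) (a₁ q₁ : ι₁ → ℤ) (a₂ q₂ : ι₂ → ℤ)
  (Φ : Matrix ι₀ ι₁ (MvPolynomial (Fin 6) (Gr.Sn ν)))
  (Φ' : Matrix ι₁ ι₂ (MvPolynomial (Fin 6) (Gr.Sn ν))), BiH a₁ q₁ a₀ q₀ Φ → BiH a₂ q₂ a₁ q₁ Φ' →
  (∀ v, Pt I v → ∀ (h : O.L.HgM q₁ q₀ (atP Φ v)) (h' : O.L.HgM q₂ q₁ (atP Φ' v)),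
    ∃ w, (ShortComplex.mk (O.L.matA W _ h') (O.L.matA W _ h) w).Exact) →
  ∃ K : Ker W I, (∀ e, LF I (NY K.N e)) ∧ ∀ v, Pt I v →
    (∀ h : O.L.HgM q₁ q₀ (atP Φ v), K.Quo (mv v) (cokernel (O.L.matA W _ h))) ∧
    ∀ t, Tg I v t → ∀ h : O.L.HgM (Sum.elim q₁ q₁) (Sum.elim q₀ q₀) (atJ Φ v t),
      K.Quo (mj v t) (cokernel (O.L.matA W _ h))

/-- step KSL: a nontrivial first order deformation -/
def StKsl : Prop := ∀ {n : ℕ} (U : GMF W n) (U₂ : GMF W (n + n)) (ξ : Matrix (Fin n) (Fin n) S6),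
  U₂.p = Fin.append U.p U.p →
  U₂.d = Matrix.reindex finSumFinEquiv finSumFinEquiv (Matrix.fromBlocks U.d 0 ξ U.d) →
  (∀ h ∈ MM U.p U.p 0, ξ ≠ h * U.d - U.d * h) → Module.finrank ℂ (Hm U U 0) = 1 →
  Module.finrank ℂ (Hm U U₂ 0) ≤ 1

end Vale.Agent.P287T.Fm
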