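import Vale.Agent.P287T.Fm.Ten
import Vale.Agent.P287T.Fm.St2
import Vale.Agent.P287T.Kr.Jet
import Vale.Agent.P287T.Cy.Main

/-!
# Block FM: Serre duality, twists and first order deformations at the level of matrices
-/

open MvPolynomial Module

namespace Vale.Agent.P287T.Fm

open Vale.Agent.P287Z Vale.Agent.P287Z.O.V Vale.Agent.P287T.Cy

variable {W : S6} {m n : ℕ}

theorem cy' (hW : Hg 6 W) (hs : Sm W) : CY W := fun E F _ =>
  ⟨finite_HH _ _ _ _ _, serre hW hs (isMF_gmf E) (isMF_gmf F) (by ring)⟩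

/-- **Serre duality** -/
theorem cy [Fact (W.IsHomogeneous 3)] (hs : Sm W) : CY W := cy' hg6 hs

/-- the charges lowered by `c`, with the same differential -/
def twG (E : GMF W n) (c : ℤ) : GMF W n where
  p i := E.p i - c
  d := E.d
  deg i j := by
    have := E.deg i j
    rwa [show 3 + E.p j - E.p i = 3 + (E.p j - c) - (E.p i - c) by ring] at this
  sq := E.sq

/-- the shift, with the same differential -/
def sh (E : GMF W n) (c : ℤ) : GMF W n := twG E (3 * c)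

theorem dual_MM {ι κ : Type} (p : ι → ℤ) (q : κ → ℤ) (a b : ℤ) {j j' : ℤ}
    (h : j' = j + b - a) : MM (fun i => p i - a) (fun i => q i - b) j = MM p q j' := by
  ext g
  refine forall_congr' fun i => forall_congr' fun l => ?_
  rw [show j + (p l - a) - (q i - b) = j' + p l - q i by rw [h]; ring]

theorem dual_ZZ {ι κ : Type} [Fintype ι] [Fintype κ] (p : ι → ℤ) (d : Matrix ι ι S6) (q : κ → ℤ)
    (e : Matrix κ κ S6) (a b : ℤ) {j j' : ℤ} (h : j' = j + b - a) :
    ZZ (fun i => p i - a) d (fun i => q i - b) e j = ZZ p d q e j' := by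
  ext g
  rw [mem_ZZ, mem_ZZ, dual_MM p q a b h]

theorem dual_BB {ι κ : Type} [Fintype ι] [Fintype κ] (p : ι → ℤ) (d : Matrix ι ι S6) (q : κ → ℤ)
    (e : Matrix κ κ S6) (a b : ℤ) {j j' : ℤ} (h : j' = j + b - a) :
    BB (fun i => p i - a) d (fun i => q i - b) e j = BB p d q e j' := by
  ext g
  rw [mem_BB, mem_BB, dual_MM p q a b (j := j - 3) (j' := j' - 3) (by rw [h]; ring)]

theorem hh_tw (E : GMF W m) (F : GMF W n) (a b : ℤ) {j j' : ℤ} (h : j' = j + b - a) :
    Nonempty (HH (twG E a).p (twG E a).d (twG F b).p (twG F b).d j ≃ₗ[ℂ]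
      HH E.p E.d F.p F.d j') :=
  Kr.hh_of_equiv (LinearEquiv.refl ℂ _)
    (fun g => (SetLike.ext_iff.1 (dual_ZZ E.p E.d F.p F.d a b h) g).symm)
    (fun g => (SetLike.ext_iff.1 (dual_BB E.p E.d F.p F.d a b h) g).symm)

theorem twG_zero (E : GMF W n) : twG E 0 = E := by
  obtain ⟨p, d, h1, h2⟩ := E
  simp only [twG, sub_zero]

theorem sh_zero (E : GMF W n) : sh E 0 = E := by rw [sh, mul_zero, twG_zero]

theorem hm_sh (E : GMF W m) (F : GMF W n) (a b k : ℤ) :
    Nonempty (Hm (sh E a) (sh F b) k ≃ₗ[ℂ] Hm E F (k + b - a)) :=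
  hh_tw E F (3 * a) (3 * b) (by ring)

theorem hm_sh_both (E : GMF W m) (F : GMF W n) (c k : ℤ) :
    Nonempty (Hm (sh E c) (sh F c) k ≃ₗ[ℂ] Hm E F k) :=
  hh_tw E F (3 * c) (3 * c) (by ring)

theorem hm_sh_right (E : GMF W m) (F : GMF W n) (c k : ℤ) :
    Nonempty (Hm E (sh F c) k ≃ₗ[ℂ] Hm E F (k + c)) := by
  have h := hh_tw E F 0 (3 * c) (j := 3 * k) (j' := 3 * (k + c)) (by ring)
  rwa [twG_zero] at h

theorem hm_sh_left (E : GMF W m) (F : GMF W n) (c k : ℤ) :
    Nonempty (Hm (sh E c) F k ≃ₗ[ℂ] Hm E F (k - c)) := by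
  have h := hh_tw E F (3 * c) 0 (j := 3 * k) (j' := 3 * (k - c)) (by ring)
  rwa [twG_zero] at h

theorem dual_twG (E : GMF W n) (c : ℤ) : dual (twG E c) = twG (dual E) (-c) := by
  obtain ⟨p, d, h1, h2⟩ := E
  simp only [dual, twG, neg_sub, sub_neg_eq_add, neg_add_eq_sub]

theorem dual_sh (E : GMF W n) (c : ℤ) : dual (sh E c) = sh (dual E) (-c) := by
  rw [sh, sh, dual_twG, mul_neg]

end Vale.Agent.P287T.Fm
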