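import Vale.Agent.P287T.Fm.Defs

/-!
# Block FM: the statements of the steps
-/

open CategoryTheory Limits MvPolynomial Pretriangulated HomologicalComplex

universe w v u

namespace Vale.Agent.P287T.Fm

open Vale.Agent.P287Z Vale.Agent.P287Z.O.V Vale.Agent.P287T.Cy

/-- triangulated closure conditions -/
structure TriC {𝒟 : Type u} [Category.{v} 𝒟] [Preadditive 𝒟] [HasZeroObject 𝒟]
    [HasShift 𝒟 ℤ] [∀ n : ℤ, (shiftFunctor 𝒟 n).Additive] [Pretriangulated 𝒟]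
    (I : 𝒟 → Prop) : Prop where
  iso : ∀ X Y : 𝒟, (X ≅ Y) → I X → I Y
  zero : ∀ X : 𝒟, IsZero X → I X
  shift : ∀ (X : 𝒟) (n : ℤ), I X → I (X⟦n⟧)
  ext₂ : ∀ T ∈ distTriang 𝒟, I T.obj₁ → I T.obj₃ → I T.obj₂

/-! ## The side of the cubic -/

section X

variable (W : S6)

/-- idempotents split in the homotopy category -/
def StIdem : Prop := ∀ {n : ℕ} (E : GMF W n) (f : Matrix (Fin n) (Fin n) S6), Cl E E f →
  Nh E E (f * f - f) → ∃ (m : ℕ) (E' : GMF W m) (i : Matrix (Fin n) (Fin m) S6)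
    (r : Matrix (Fin m) (Fin n) S6), Cl E' E i ∧ Cl E E' r ∧ Nh E' E' (r * i - 1) ∧
      Nh E E (i * r - f)

/-- the stabilized residue fields detect all objects, are indecomposable and linked -/
def StKap : Prop := ∃ (n : ℕ) (κ : ℤ → GMF W n),
  (∀ {m : ℕ} (C : GMF W m), (∀ c f, Cl C (κ c) f → Nh C (κ c) f) → Nh C C 1) ∧
  (∀ c f, Cl (κ c) (κ c) f → Nh (κ c) (κ c) (f * f - f) →
    Nh (κ c) (κ c) f ∨ Nh (κ c) (κ c) (f - 1)) ∧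
  ∀ c, ∃ f, Cl (κ c) (κ (c + 1)) f ∧ ¬ Nh (κ c) (κ (c + 1)) f

variable {W} [Fact (W.IsHomogeneous 3)]

/-- the differential of `N ⊗ T(E)` -/
noncomputable abbrev dT (N : O.L.GA W) {n : ℕ} (E : GMF W n) (k l : ℤ) :
    (ten W N.obj).obj ((O.L.TT E).X k) ⟶ (ten W N.obj).obj ((O.L.TT E).X l) :=
  (ten W N.obj).map ((O.L.TT E).d k l)

/-- the cycle `u` identifies the cohomology of `N ⊗ T(E)` with `Hom(G, E[k])` -/
structure Rep (N : O.L.GA W) {m : ℕ} (G : GMF W m) (u : (ten W N.obj).obj ((O.L.TT G).X 0)) :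
    Prop where
  cyc : dT N G 0 1 u = 0
  sur : ∀ {n : ℕ} (E : GMF W n) (k : ℤ) (z : (ten W N.obj).obj ((O.L.TT E).X k)),
    dT N E k (k + 1) z = 0 → ∃ (f : Matrix (Fin n) (Fin m) S6) (hf : f ∈ ZZ G.p G.d E.p E.d (3 * k))
      (y : (ten W N.obj).obj ((O.L.TT E).X (k - 1))),
      z = (ten W N.obj).map (fz G E k (mem_ZZ.1 hf).1) u + dT N E (k - 1) k y
  inj : ∀ {n : ℕ} (E : GMF W n) (k : ℤ) (f : Matrix (Fin n) (Fin m) S6)
    (hf : f ∈ ZZ G.p G.d E.p E.d (3 * k)),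
    (∃ y, (ten W N.obj).map (fz G E k (mem_ZZ.1 hf).1) u = dT N E (k - 1) k y) ↔
      f ∈ BB G.p G.d E.p E.d (3 * k)

variable (W)

/-- step HST -/
def StHst : Prop := ∀ (N : O.L.GA W) {m : ℕ} (G : GMF W m), StE N (dual G) → ∃ u, Rep N G u

/-- step HST2: every module is represented -/
def StHst2 : Prop := ∀ N : O.L.GA W, ∃ (m : ℕ) (G : GMF W m) (u : _), Rep N G u

variable {ν : ℕ} (I : Ideal (Gr.Sn ν))

/-- step MEM -/
def StMem : Prop := ∀ N : Gr.Dg ν ⥤ O.L.GA W, (∀ e, Gr.grA I (NY N e)) →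
  ∀ P, Gr.grA I ((psi0 N).obj P)

/-- step PSIF: the values on free modules are finite sums of graded pieces of the kernel -/
def StPsif : Prop := ∀ (K : Ker W I) {ι : Type} [Fintype ι] (q : ι → ℤ) (Pr : Gr.GA I → Prop),
  (∀ A B : Gr.GA I, (A ≅ B) → Pr A → Pr B) → (∀ A, IsZero A → Pr A) →
  (∀ A B, Pr A → Pr B → Pr (A ⊞ B)) → (∀ i e, q i = -2 * e → Pr (K.Y e)) →
  Pr (K.psi.obj (O.L.FrA W q))

/-- step QUO: base change for the values on free modules -/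
def StQuo : Prop := ∀ (K : Ker W I) (𝔞 : Ideal (Gr.Sn ν)) (Q : O.L.GA W)
  (ev : ∀ m : ℤ, K.N.obj ⟨m⟩ ⟶ Q),
  (∀ e : ℤ, IsQ (NY K.N e) 𝔞 (fun m => ((ev m).hom.app ⟨e⟩).hom)) →
  ∀ {ι : Type} [Fintype ι] (q : ι → ℤ), IsQ ((psi0 K.N).obj (O.L.FrA W q)) 𝔞
    (fun m => ((tenL W (ev m).hom).app (O.L.FrA W q)).hom)

end X

/-! ## Local algebra on the cone -/

section S

variable {ν : ℕ} {I : Ideal (Gr.Sn ν)}

/-- exactness after base change to `ℂ[y] / 𝔞` -/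
def FEx {A B C : Gr.GA I} (f : A ⟶ B) (g : B ⟶ C) (𝔞 : Ideal (Gr.Sn ν)) : Prop :=
  ∀ t, InI C.obj 𝔞 (totL g.hom t) → ∃ s, InI B.obj 𝔞 (t - totL f.hom s)

/-- exactness in large degrees -/
def ExL {A B C : Gr.GA I} (f : A ⟶ B) (g : B ⟶ C) : Prop :=
  ∃ n : ℤ, ∀ a ≥ n, ∀ x : B.obj.obj ⟨a⟩, g.hom.app ⟨a⟩ x = 0 → ∃ y, f.hom.app ⟨a⟩ y = x

/-- `z` is not a boundary in the fibre at `v` -/
def NB {A B : Gr.GA I} (f : A ⟶ B) (v : Fin ν → ℂ) (z : Π₀ m : ℤ, B.obj.obj ⟨m⟩) : Prop :=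
  ∀ s, ¬ InI B.obj (mv v) (z - totL f.hom s)

/-- the cohomology of the base change to `ℂ[y] / 𝔞` is spanned by `z` -/
def Sp {A B C : Gr.GA I} (f : A ⟶ B) (g : B ⟶ C) (𝔞 : Ideal (Gr.Sn ν))
    (z : Π₀ m : ℤ, B.obj.obj ⟨m⟩) : Prop :=
  ∀ t, InI C.obj 𝔞 (totL g.hom t) → ∃ (c : ℂ) (s : _), InI B.obj 𝔞 (t - c • z - totL f.hom s)

/-- the complex `C` resolves the sheaf of the point `v`, placed in degree two -/
structure PtCx (C : CochainComplex (Gr.GA I) ℤ) (v : Fin ν → ℂ) : Prop where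
  ex : ∀ k, k ≠ 2 → ExL (C.d (k - 1) k) (C.d k (k + 1))
  gen : ∃ (a : ℤ) (x : (C.X 2).obj.obj ⟨a⟩), (C.d 2 3).hom.app ⟨a⟩ x = 0 ∧
    NB (C.d 1 2) v (DFinsupp.single a x) ∧ ∃ n : ℤ, ∀ m ≥ n,
      (∀ z : (C.X 2).obj.obj ⟨m⟩, (C.d 2 3).hom.app ⟨m⟩ z = 0 → ∃ g y,
        P294.V.Hg (2 * (m - a)) g ∧ z = Gr.act _ g a m x + (C.d 1 2).hom.app ⟨m⟩ y) ∧
      ∀ g, P294.V.Hg (2 * (m - a)) g → eval v g = 0 →
        ∃ y, Gr.act _ g a m x = (C.d 1 2).hom.app ⟨m⟩ y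

variable (I)

/-- step LFC: closure properties of `LF` -/
def StLfc : Prop := (∀ A B : Gr.GA I, (A ≅ B) → LF I A.obj → LF I B.obj) ∧
  (∀ A : Gr.GA I, IsZero A → LF I A.obj) ∧
  ∀ A B : Gr.GA I, LF I A.obj → LF I B.obj → LF I (A ⊞ B).obj

/-- step EXG: fibrewise exact complexes of locally free modules are exact -/
def StExg : Prop := I.IsPrime → ∀ {A B C : Gr.GA I} (f : A ⟶ B) (g : B ⟶ C), f ≫ g = 0 →
  LF I B.obj → LF I C.obj → (∀ v, Pt I v → FEx f g (mv v)) → ExL f g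

/-- step PT3: the Koszul complex of a point -/
def StPt3 : Prop := Surf I → ∀ (C : CochainComplex (Gr.GA I) ℤ) (v : Fin ν → ℂ), Pt I v →
  (∀ k, LF I (C.X k).obj) →
  (∀ k, k < 0 ∨ 2 < k → FEx (C.d (k - 1) k) (C.d k (k + 1)) (mv v)) →
  (∀ v', Pt I v' → (∀ c : ℂ, v' ≠ c • v) → ∀ k, FEx (C.d (k - 1) k) (C.d k (k + 1)) (mv v')) →
  (∃ z, InI _ (mv v) (totL (C.d 2 3).hom z) ∧ NB (C.d 1 2) v z ∧
    Sp (C.d 1 2) (C.d 2 3) (mv v) z) →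
  (∀ t, Tg I v t → ∃ z, Sp (C.d 1 2) (C.d 2 3) (mj v t) z) → PtCx C v

variable [Fact (IsHom I)] [HasDerivedCategory.{w} (P294Z.Coh (PI I))]

/-- complexes of graded modules as objects of the derived category -/
noncomputable abbrev QS : CochainComplex (Gr.GA I) ℤ ⥤ DerivedCategory (P294Z.Coh (PI I)) :=
  (piI I).mapHomologicalComplex (ComplexShape.up ℤ) ⋙ DerivedCategory.Q

/-- the free module with one generator in degree `m` -/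
noncomputable abbrev Fr (m : ℤ) : Gr.GA I := Gr.FrA I fun _ : Fin 1 => 2 * m

/-- step SV: Serre vanishing and its closure properties -/
def StSv : Prop := (∀ N : Gr.GA I, ∃ m₀, SV I m₀ N) ∧ ∀ m₀ : ℤ,
  (∀ A B : Gr.GA I, (A ≅ B) → SV I m₀ A → SV I m₀ B) ∧
  (∀ A : Gr.GA I, IsZero A → SV I m₀ A) ∧
  (∀ A B : Gr.GA I, SV I m₀ A → SV I m₀ B → SV I m₀ (A ⊞ B)) ∧
  ∀ S : ShortComplex (Gr.GA I), S.ShortExact → SV I m₀ S.X₁ →
    (SV I m₀ S.X₃ → SV I m₀ S.X₂) ∧ (SV I m₀ S.X₂ → SV I m₀ S.X₃)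

/-- step ADJ0: hypercohomology of a complex of acyclic sheaves -/
def StAdj0 : Prop := ∀ (m₀ : ℤ) (C : CochainComplex (Gr.GA I) ℤ) (b : ℤ), C.IsStrictlyGE b →
  (∀ j, SV I m₀ (C.X j)) → ∀ m ≥ m₀, ∀ k : ℤ,
    (∀ g : (QS I).obj ((single _ (ComplexShape.up ℤ) k).obj (Fr I m)) ⟶ (QS I).obj C,
      ∃ f, (QS I).map f = g) ∧
    ∀ f : (single _ (ComplexShape.up ℤ) k).obj (Fr I m) ⟶ C,
      (QS I).map f = 0 ↔ Nonempty (Homotopy f 0)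

/-- the sheaf of the point `v` -/
noncomputable abbrev Ov {v : Fin ν → ℂ} (h : Pt I v) : P294Z.Coh (PI I) :=
  (piI I).obj (cy (ih_ptI v) h.2)

/-- step HYP: the cohomology of a resolution of a point in the degrees `≥ m₀` -/
def StHyp : Prop := ∀ (C : CochainComplex (Gr.GA I) ℤ) (v : Fin ν → ℂ) (hv : Pt I v), PtCx C v →
  Nonempty ((QS I).obj C ≅ (DerivedCategory.singleFunctor _ 2).obj (Ov I hv)) ∧
  ∀ (m₀ b : ℤ), C.IsStrictlyGE b → (∀ j, SV I m₀ (C.X j)) → ∀ m ≥ m₀,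
    (∀ k, k ≠ 2 → ∀ z : (C.X k).obj.obj ⟨m⟩, (C.d k (k + 1)).hom.app ⟨m⟩ z = 0 →
      ∃ y, z = (C.d (k - 1) k).hom.app ⟨m⟩ y) ∧
    ∃ z : (C.X 2).obj.obj ⟨m⟩, (C.d 2 3).hom.app ⟨m⟩ z = 0 ∧
      NB (C.d 1 2) v (DFinsupp.single m z) ∧ ∀ z' : (C.X 2).obj.obj ⟨m⟩,
        (C.d 2 3).hom.app ⟨m⟩ z' = 0 → ∃ (c : ℂ) (y : _), z' = c • z + (C.d 1 2).hom.app ⟨m⟩ y

/-- step CD: cohomological dimension -/
def StCd : Prop := I.IsPrime → ∀ (E : Gr.GA I), LF I E.obj → ∀ (F : P294Z.Coh (PI I)) (k : ℤ),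
  (ν : ℤ) ≤ k → 0 < k → ∀ f : (sg I).obj ((piI I).obj E) ⟶ ((sg I).obj F)⟦k⟧, f = 0

/-- step SYZ: third syzygies are locally free -/
def StSyz : Prop := Surf I → ∀ (S₀ S₁ S₂ : ShortComplex (Gr.GA I)), S₀.ShortExact → S₁.ShortExact →
  S₂.ShortExact → (S₁.X₃ ≅ S₀.X₁) → (S₂.X₃ ≅ S₁.X₁) → LF I S₀.X₂.obj → LF I S₁.X₂.obj →
  LF I S₂.X₂.obj → LF I S₂.X₁.obj

/-- step GEN: the sheaves `𝒪(-m)`, `m ≥ m₀`, generate the bounded derived category -/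
def StGen : Prop := Surf I → ∀ (m₀ : ℤ) (𝒯 : DerivedCategory (P294Z.Coh (PI I)) → Prop),
  TriC 𝒯 → (∀ (X Y) (i : X ⟶ Y) (r : Y ⟶ X), i ≫ r = 𝟙 X → 𝒯 Y → 𝒯 X) →
  (∀ m ≥ m₀, 𝒯 ((sg I).obj (Om I m))) →
  ∀ Y, (DerivedCategory.TStructure.t (C := P294Z.Coh (PI I))).bounded Y → 𝒯 Y

end S

/-! ## The core -/

section Core

variable {ν : ℕ} (W : S6) (I : Ideal (Gr.Sn ν)) [Fact (W.IsHomogeneous 3)]

variable {W I} in
/-- the complex of graded modules attached to a matrix factorization -/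
noncomputable def Ker.cx (K : Ker W I) {n : ℕ} (E : GMF W n) : CochainComplex (Gr.GA I) ℤ :=
  haveI := K.psi_add
  (K.psi.mapHomologicalComplex (ComplexShape.up ℤ)).obj (O.L.TT E)

/-- step PTK: the complex of a fibre resolves the point -/
def StPtk : Prop := CY W → Surf I → ∀ (K : Ker W I) r U, K.Pts r U → ∀ v, Pt I v →
  PtCx (K.cx (U v)) v

variable [Fact (IsHom I)] [HasDerivedCategory.{w} (P294Z.Coh (PI I))]

/-- step GLOB: uniform Serre vanishing -/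
def StGlob : Prop := ∀ K : Ker W I, ∃ m₀, K.Glob m₀

/-- step BDD -/
def StBdd : Prop := CY W → Surf I → ∀ (K : Ker W I) r U, K.Pts r U → ∀ {n : ℕ} (E : GMF W n),
  (∃ b, (K.cx E).IsStrictlyGE b) ∧
    (DerivedCategory.TStructure.t (C := P294Z.Coh (PI I))).bounded (K.ob E)

/-- `G` represents `E ↦ Hom(𝒪(-m), Ψ E)` and `Ψ G = 𝒪(-m)` -/
def Ker.Un {W : S6} {I : Ideal (Gr.Sn ν)} [Fact (W.IsHomogeneous 3)] [Fact (IsHom I)]
    [HasDerivedCategory.{w} (P294Z.Coh (PI I))] (K : Ker W I) (m : ℤ) {n : ℕ} (G : GMF W n) : Prop :=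
  Nonempty ((sg I).obj (Om I m) ≅ K.ob G) ∧ ∀ {n' : ℕ} (E : GMF W n'),
    (∀ g : K.ob G ⟶ K.ob E, ∃ f, ∃ hf : Cl G E f, K.mp hf = g) ∧
    ∀ f (hf : Cl G E f), K.mp hf = 0 → Nh G E f

/-- step UNIT -/
def StUnit : Prop := CY W → Surf I → ∀ (K : Ker W I) r U m₀, K.Pts r U → K.Glob m₀ →
  ∀ m ≥ m₀, ∀ {n : ℕ} (G : GMF W n) (u : _), Rep (K.N.obj ⟨m⟩) G u → K.Un m G

/-- step END -/
def StEnd : Prop := CY W → Surf I → ∀ (K : Ker W I) (m₀ : ℤ),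
  (∀ {n : ℕ} (E : GMF W n),
    (DerivedCategory.TStructure.t (C := P294Z.Coh (PI I))).bounded (K.ob E)) →
  (∀ m ≥ m₀, ∃ (n : ℕ) (G : GMF W n), K.Un m G) → K.Out

/-- **the theorem of the block** -/
def Main : Prop := CY W → Surf I → ∀ (K : Ker W I) r U, K.Pts r U →
  K.Out ∧ ∀ v (hv : Pt I v),
    Nonempty (K.ob (U v) ≅ (DerivedCategory.singleFunctor _ 2).obj (Ov I hv))

/-- output SPAN: the fibres detect all objects -/
def StSpan : Prop := CY W → Surf I → ∀ (K : Ker W I) r U, K.Pts r U → K.Out →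
  ∀ {n : ℕ} (E : GMF W n), (∀ v, Pt I v → ∀ k, Subsingleton (Hm (U v) E k)) → Nh E E 1

/-- output LB: the object attached to a line bundle -/
def StLb : Prop := CY W → Surf I → ∀ (K : Ker W I) r U, K.Pts r U → K.Out →
  ∀ L : Gr.GA I, (∀ v, Pt I v → ∃ ev : ∀ m : ℤ, L.obj.obj ⟨m⟩ →ₗ[ℂ] ℂ, IsQ L.obj (mv v) ev) →
  ∃ (n : ℕ) (G : GMF W n),
    Nonempty (K.ob G ≅ (DerivedCategory.singleFunctor _ 2).obj ((piI I).obj L)) ∧
    ∀ v, Pt I v → (∀ k, k ≠ 0 → Subsingleton (Hm G (U v) k)) ∧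
      Module.finrank ℂ (Hm G (U v) 0) = 1

end Core

end Vale.Agent.P287T.Fm
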