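import Mathlib.RingTheory.MvPolynomial.Ideal
import Mathlib.RingTheory.Nullstellensatz
import Mathlib.RingTheory.Ideal.Colon
import Vale.Agent.P287T.Fm.St

/-!
# The total module of a graded module
-/

open CategoryTheory Limits MvPolynomial

namespace Vale.Agent.P287T.Fm.La

open Vale.Agent.P287Z Vale.Agent.P287Z.Gr Vale.Agent.P294.V

variable {ν : ℕ}

/-- the inclusion of the part of degree `a` -/
noncomputable def sgl (N : GrS ν) (a : ℤ) : N.obj ⟨a⟩ →+ Tot N :=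
  (DFinsupp.singleAddHom (fun m : ℤ => (N.obj ⟨m⟩ : Type)) a :)

/-- the part of degree `a` -/
noncomputable def cmp (N : GrS ν) (a : ℤ) : Tot N →+ N.obj ⟨a⟩ :=
  (((DFinsupp.lapply a : (Π₀ m : ℤ, N.obj ⟨m⟩) →ₗ[ℂ] N.obj ⟨a⟩).toAddMonoidHom :
    (Π₀ m : ℤ, N.obj ⟨m⟩) →+ N.obj ⟨a⟩) :)

variable {N M P : GrS ν}

theorem cmp_ext {s t : Tot N} (h : ∀ a, cmp N a s = cmp N a t) : s = t := DFinsupp.ext h

theorem cmp_sgl (a : ℤ) (x : N.obj ⟨a⟩) : cmp N a (sgl N a x) = x :=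
  DFinsupp.single_eq_same (β := fun m : ℤ => (N.obj ⟨m⟩ : Type))

theorem cmp_sgl_ne {a b : ℤ} (h : b ≠ a) (x : N.obj ⟨a⟩) : cmp N b (sgl N a x) = 0 :=
  DFinsupp.single_eq_of_ne (β := fun m : ℤ => (N.obj ⟨m⟩ : Type)) h

theorem exists_sum (t : Tot N) : ∃ s : Finset ℤ, ∑ a ∈ s, sgl N a (cmp N a t) = t := by
  classical
  exact ⟨DFinsupp.support (β := fun m : ℤ => (N.obj ⟨m⟩ : Type)) t,
    DFinsupp.sum_single (β := fun m : ℤ => (N.obj ⟨m⟩ : Type))⟩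

theorem mem_of_sgl {Q : Submodule (Sn ν) (Tot N)} {t : Tot N}
    (h : ∀ a, sgl N a (cmp N a t) ∈ Q) : t ∈ Q := by
  obtain ⟨s, hs⟩ := exists_sum t
  exact hs ▸ Q.sum_mem fun a _ => h a

theorem C_smul (c : ℂ) (t : Π₀ m : ℤ, N.obj ⟨m⟩) :
    ((C c : Sn ν) • (show Tot N from t) : Tot N) = (show Tot N from c • t) :=
  congr($((actT N).commutes c) t)

theorem sgl_smul (c : ℂ) (a : ℤ) (x : N.obj ⟨a⟩) : sgl N a (c • x) = (C c : Sn ν) • sgl N a x :=
  ((DFinsupp.lsingle (R := ℂ) (M := fun m : ℤ => (N.obj ⟨m⟩ : Type)) a).map_smul c x).trans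
    (C_smul c _).symm

theorem cmp_C (c : ℂ) (a : ℤ) (t : Tot N) : cmp N a ((C c : Sn ν) • t) = c • cmp N a t :=
  congrArg (cmp N a) (C_smul c t)

theorem monomial_smul_sgl (μ : Fin ν →₀ ℕ) {a b : ℤ} (h : a + (μ.degree : ℤ) = b) (x : N.obj ⟨a⟩) :
    (monomial μ 1 : Sn ν) • sgl N a x = sgl N b (N.map (⟨μ, h⟩ : (⟨a⟩ : Dg ν) ⟶ ⟨b⟩) x) := by
  refine Eq.trans ?_ (shT_single N μ h x)
  have h1 : actT N (monomial μ 1) = shT N μ :=
    (AddMonoidAlgebra.lift_single _ μ (1 : ℂ)).trans (one_smul ℂ _)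
  exact congr($h1 (DFinsupp.single a x))

theorem cmp_smul_sgl (g : Sn ν) (a b : ℤ) (x : N.obj ⟨a⟩) :
    cmp N b (g • sgl N a x) = act N g a b x := by
  induction g using MvPolynomial.induction_on' with
  | add p q hp hq => rw [add_smul, map_add, hp, hq, act_add]; rfl
  | monomial μ c =>
    rw [act_monomial, ← mul_one c, ← C_mul_monomial, mul_smul, cmp_C, mul_one,
      monomial_smul_sgl μ rfl]
    refine congrArg (c • ·) ?_
    by_cases h : a + (μ.degree : ℤ) = b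
    · subst h
      rw [cmp_sgl, mon_of_eq N μ rfl]
    · rw [cmp_sgl_ne (Ne.symm h), mon_of_ne N μ h]
      rfl

theorem hg_smul_sgl {g : Sn ν} {a b : ℤ} (hg : Hg (2 * (b - a)) g) (x : N.obj ⟨a⟩) :
    g • sgl N a x = sgl N b (act N g a b x) := cmp_ext fun m => by
  rw [cmp_smul_sgl]
  by_cases h : m = b
  · subst h
    rw [cmp_sgl]
  · rw [cmp_sgl_ne h, act_eq_zero_of_hg N hg (by lia)]
    rfl

theorem hpart_smul_sgl (g : Sn ν) (a b : ℤ) (x : N.obj ⟨a⟩) :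
    hpart (2 * (b - a)) g • sgl N a x = sgl N b (cmp N b (g • sgl N a x)) := by
  rw [hg_smul_sgl (hga_hpart _ _), act_hpart, cmp_smul_sgl]

theorem totL_sgl (f : M ⟶ N) (a : ℤ) (x : M.obj ⟨a⟩) :
    (show Tot N from totL f (sgl M a x)) = sgl N a (f.app ⟨a⟩ x) :=
  DFinsupp.mapRange_single (β₁ := fun m : ℤ => (M.obj ⟨m⟩ : Type))
    (β₂ := fun m : ℤ => (N.obj ⟨m⟩ : Type)) (hf := fun _ => map_zero _)

/-- the map of total modules, additive version -/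
noncomputable def tA (f : M ⟶ N) : Tot M →+ Tot N := ((totL f).toAddMonoidHom :)

/-- the map of total modules -/
noncomputable def tL (f : M ⟶ N) : Tot M →ₗ[Sn ν] Tot N where
  toFun := tA f
  map_add' := map_add _
  map_smul' g t := by
    obtain ⟨s, hs⟩ := exists_sum t
    rw [← hs, Finset.smul_sum, map_sum, map_sum, Finset.smul_sum]
    refine Finset.sum_congr rfl fun a _ => cmp_ext fun b => ?_
    have h1 : tA f (sgl M a (cmp M a t)) = _ := totL_sgl f a _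
    rw [h1, RingHom.id_apply, cmp_smul_sgl]
    refine (congrArg (f.app ⟨b⟩) (cmp_smul_sgl g a b _)).trans ?_
    exact congr($(act_natural f g a b) _)

theorem tL_eq (f : M ⟶ N) (t : Tot M) : tL f t = (show Tot N from totL f t) := rfl

theorem cmp_tL (f : M ⟶ N) (a : ℤ) (t : Tot M) : cmp N a (tL f t) = f.app ⟨a⟩ (cmp M a t) := rfl

theorem tL_sgl (f : M ⟶ N) (a : ℤ) (x : M.obj ⟨a⟩) : tL f (sgl M a x) = sgl N a (f.app ⟨a⟩ x) :=
  totL_sgl f a x

theorem tL_comp (f : M ⟶ N) (g : N ⟶ P) (t : Tot M) : tL (f ≫ g) t = tL g (tL f t) :=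
  cmp_ext fun _ => rfl

theorem tL_id (t : Tot M) : tL (𝟙 M) t = t := cmp_ext fun _ => rfl

theorem tL_zero (t : Tot M) : tL (0 : M ⟶ N) t = 0 := cmp_ext fun _ => rfl

theorem tL_add (f g : M ⟶ N) (t : Tot M) : tL (f + g) t = tL f t + tL g t := cmp_ext fun _ => rfl

theorem inI_iff {𝔞 : Ideal (Sn ν)} (t : Tot N) :
    InI N 𝔞 t ↔ t ∈ (𝔞 • ⊤ : Submodule (Sn ν) (Tot N)) := Iff.rfl

theorem map_mem_smul {R A B : Type*} [CommRing R] [AddCommGroup A] [Module R A] [AddCommGroup B]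
    [Module R B] (f : A →ₗ[R] B) {𝔞 : Ideal R} {t : A} (h : t ∈ (𝔞 • ⊤ : Submodule R A)) :
    f t ∈ (𝔞 • ⊤ : Submodule R B) :=
  Submodule.smul_mono le_rfl le_top (Submodule.map_smul'' 𝔞 ⊤ f ▸ Submodule.mem_map_of_mem h)

theorem kill {I : Ideal (Sn ν)} (h : killed I N) {g : Sn ν} (hg : g ∈ I) (t : Tot N) :
    g • t = 0 := by
  obtain ⟨s, hs⟩ := exists_sum t
  rw [← hs, Finset.smul_sum]
  refine Finset.sum_eq_zero fun a _ => cmp_ext fun b => ?_
  rw [cmp_smul_sgl, h g hg]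
  rfl

theorem finite (h : fg N) : Module.Finite (Sn ν) (Tot N) := by
  obtain ⟨n, a, g, hg⟩ := h
  refine ⟨Submodule.fg_def.2 ⟨Set.range fun i => sgl N (a i) (g i), Set.finite_range _, ?_⟩⟩
  refine eq_top_iff.2 fun t _ => mem_of_sgl fun b => ?_
  refine Submodule.span_induction (fun w hw => ?_) ?_ (fun x y _ _ hx hy => ?_)
    (fun c x _ hx => ?_) (hg b (cmp N b t))
  · obtain ⟨i, μ, rfl⟩ := hw
    exact monomial_smul_sgl μ.1 μ.2 (g i) ▸ Submodule.smul_mem _ _ (Submodule.subset_span ⟨i, rfl⟩)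
  · exact map_zero (sgl N b) ▸ zero_mem _
  · exact map_add (sgl N b) x y ▸ add_mem hx hy
  · exact sgl_smul c b x ▸ Submodule.smul_mem _ _ hx

instance finGA {I : Ideal (Sn ν)} (A : GA I) : Module.Finite (Sn ν) (Tot A.obj) := finite A.2.2

theorem killGA {I : Ideal (Sn ν)} (A : GA I) {g : Sn ν} (hg : g ∈ I) (t : Tot A.obj) : g • t = 0 :=
  kill A.2.1 hg t

theorem tL_tL {I : Ideal (Sn ν)} {A B D : GA I} {f : A ⟶ B} {g : B ⟶ D} (h : f ≫ g = 0)
    (t : Tot A.obj) : tL g.hom (tL f.hom t) = 0 :=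
  (tL_comp f.hom g.hom t).symm.trans ((congrArg (fun k : A ⟶ D => tL k.hom t) h).trans (tL_zero t))

/-! ## Graded submodules -/

/-- graded submodules -/
def Grd (Q : Submodule (Sn ν) (Tot N)) : Prop := ∀ t ∈ Q, ∀ a, sgl N a (cmp N a t) ∈ Q

theorem grd_ker (f : M ⟶ N) : Grd (LinearMap.ker (tL f)) := fun t ht a => by
  rw [LinearMap.mem_ker, tL_sgl, ← cmp_tL, LinearMap.mem_ker.1 ht, map_zero, map_zero]

theorem grd_range (f : M ⟶ N) : Grd (LinearMap.range (tL f)) := by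
  rintro _ ⟨s, rfl⟩ a
  exact ⟨_, tL_sgl f a _⟩

theorem Grd.sup {Q Q' : Submodule (Sn ν) (Tot N)} (h : Grd Q) (h' : Grd Q') : Grd (Q ⊔ Q') := by
  intro t ht a
  obtain ⟨x, hx, y, hy, rfl⟩ := Submodule.mem_sup.1 ht
  rw [map_add, map_add]
  exact Submodule.add_mem_sup (h x hx a) (h' y hy a)

/-- the submodule `𝔞 x` -/
noncomputable def Ix (𝔞 : Ideal (Sn ν)) (x : Tot N) : Submodule (Sn ν) (Tot N) :=
  Submodule.map (LinearMap.toSpanSingleton _ _ x) 𝔞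

theorem mem_Ix {𝔞 : Ideal (Sn ν)} {x t : Tot N} : t ∈ Ix 𝔞 x ↔ ∃ g ∈ 𝔞, g • x = t := Iff.rfl

theorem grd_Ix {𝔞 : Ideal (Sn ν)} (h : IH 𝔞) (a : ℤ) (x : N.obj ⟨a⟩) : Grd (Ix 𝔞 (sgl N a x)) := by
  rintro _ ⟨g, hg, rfl⟩ b
  exact ⟨_, h g hg _, hpart_smul_sgl g a b x⟩

theorem ih_colon {Q Q' : Submodule (Sn ν) (Tot N)} (h : Grd Q) (h' : Grd Q') :
    IH (Q'.colon Q) := fun g hg k => Submodule.mem_colon.2 fun t ht => by
  by_cases hk : 2 ∣ k
  · obtain ⟨d, rfl⟩ := hk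
    obtain ⟨s, hs⟩ := exists_sum t
    rw [← hs, Finset.smul_sum]
    refine Q'.sum_mem fun a _ => ?_
    have := hpart_smul_sgl g a (a + d) (cmp N a t)
    rw [add_sub_cancel_left] at this
    exact this ▸ h' _ (Submodule.mem_colon.1 hg _ (h t ht a)) _
  · rw [hga_odd_eq_zero (hga_hpart k g) hk, zero_smul]
    exact zero_mem _

/-! ## Points -/

theorem mem_mv {v : Fin ν → ℂ} {g : Sn ν} : g ∈ mv v ↔ eval v g = 0 := Iff.rfl

instance mv_max (v : Fin ν → ℂ) : (mv v).IsMaximal :=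
  RingHom.ker_isMaximal_of_surjective _ fun c => ⟨C c, eval_C c⟩

theorem ptI_le (v : Fin ν → ℂ) : ptI v ≤ mv v := fun g h => by
  rw [mem_mv, ← sum_homogeneousComponent g, map_sum]
  exact Finset.sum_eq_zero fun n _ => h n

theorem le_ptI {J : Ideal (Sn ν)} (hJ : IH J) {v : Fin ν → ℂ} (h : J ≤ mv v) : J ≤ ptI v :=
  fun g hg n => by
    rw [← hpart_two_mul]
    exact h (hJ g hg _)

theorem eval_smul_hom {g : Sn ν} {n : ℕ} (hg : g.IsHomogeneous n) (c : ℂ) (v : Fin ν → ℂ) :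
    eval (c • v) g = c ^ n * eval v g := by
  rw [eval_eq', eval_eq', Finset.mul_sum]
  refine Finset.sum_congr rfl fun μ hμ => ?_
  have h1 : ∑ i, μ i = n := by
    rw [← hg (mem_support_iff.1 hμ), Finsupp.weight_apply, Finsupp.sum_fintype _ _ (by simp)]
    simp
  simp only [Pi.smul_apply, smul_eq_mul, mul_pow, Finset.prod_mul_distrib,
    Finset.prod_pow_eq_pow_sum, h1]
  ring

theorem ptI_le_smul (v : Fin ν → ℂ) (c : ℂ) : ptI v ≤ ptI (c • v) := fun g h n => by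
  rw [eval_smul_hom (homogeneousComponent_isHomogeneous n g), h n, mul_zero]

theorem le_mv_of_smul {J : Ideal (Sn ν)} (hJ : IH J) {v : Fin ν → ℂ} {c : ℂ} (hc : c ≠ 0)
    (h : J ≤ mv (c • v)) : J ≤ mv v := by
  have := (le_ptI hJ h).trans (ptI_le_smul _ c⁻¹)
  rw [inv_smul_smul₀ hc] at this
  exact this.trans (ptI_le v)

theorem nst {J : Ideal (Sn ν)} {g : Sn ν} (h : ∀ v, J ≤ mv v → eval v g = 0) : g ∈ J.radical := by
  rw [← vanishingIdeal_zeroLocus_eq_radical (K := ℂ)]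
  intro v hv
  rw [aeval_eq_eval]
  exact h v fun p hp => by rw [mem_mv, ← aeval_eq_eval]; exact hv p hp

/-- **large degrees**: an inclusion which holds locally off the vertex holds in large degrees -/
theorem large [Module.Finite (Sn ν) (Tot N)] {Q Q' : Submodule (Sn ν) (Tot N)} (hQ : Grd Q)
    (h : ∀ v ≠ 0, ¬ Q'.colon Q ≤ mv v) :
    ∃ n : ℤ, ∀ a ≥ n, ∀ t ∈ Q, ∃ q ∈ Q', cmp N a q = cmp N a t := by
  obtain ⟨k, hk⟩ := Ideal.exists_pow_le_of_le_radical_of_fg (I := idealOfVars (Fin ν) ℂ)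
    (J := Q'.colon Q) (Ideal.span_le.2 (by
      rintro _ ⟨j, rfl⟩
      refine nst fun v hv => ?_
      rw [by_contra fun e : v ≠ 0 => h v e hv, eval_X]
      rfl)) (idealOfVars_fg _ _)
  obtain ⟨S, hS⟩ := IsNoetherian.noetherian Q
  choose s hs using exists_sum (N := N)
  obtain ⟨d, hd⟩ := (S.finite_toSet.biUnion fun t _ => (s t).finite_toSet).bddAbove
  refine ⟨d + k, fun a ha t ht => ?_⟩
  suffices H : ∀ r : Sn ν, ∃ q ∈ Q', cmp N a q = cmp N a (r • t) by simpa using H 1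
  refine Submodule.span_induction
    (p := fun t _ => ∀ r : Sn ν, ∃ q ∈ Q', cmp N a q = cmp N a (r • t))
    (fun w hw r => ?_) (fun r => ⟨0, zero_mem _, by simp⟩)
    (fun x y _ _ hx hy r => ?_) (fun c x _ hx r => by rw [← mul_smul]; exact hx _) (hS.ge ht)
  · refine ⟨∑ b ∈ s w, hpart (2 * (a - b)) r • sgl N b (cmp N b w), Q'.sum_mem fun b hb => ?_, ?_⟩
    · refine Submodule.mem_colon.1 (hk ((mem_pow_idealOfVars_iff _ _).2 fun μ hμ => ?_)) _
        (hQ w (hS ▸ Submodule.subset_span hw) b)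
      have h1 := hg_iff.1 (hga_hpart _ r) μ hμ
      have h2 : b ≤ d := hd (Set.mem_biUnion hw hb)
      lia
    · conv_rhs => rw [← hs w, Finset.smul_sum]
      rw [map_sum, map_sum]
      exact Finset.sum_congr rfl fun b _ => by rw [hpart_smul_sgl, cmp_sgl]
  · obtain ⟨q, hq, e⟩ := hx r
    obtain ⟨q', hq', e'⟩ := hy r
    exact ⟨q + q', add_mem hq hq', by rw [map_add, e, e', smul_add, map_add]⟩

end Vale.Agent.P287T.Fm.La
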