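import Vale.Agent.P287T.Fm.Iv
import Vale.Agent.P287T.Fm.Tt
import Vale.Agent.P287T.Sv.Ext
import Vale.Agent.P287T.Sv.Lp
import Vale.Agent.P287T.Q0.Ext

/-!
# A line bundle has no self-extensions if `H¹(𝒪) = 0`
-/

open CategoryTheory Limits MvPolynomial Abelian

universe w

namespace Vale.Agent.P287T.Fm

open Vale.Agent.P287Z Vale.Agent.P287Z.Gr Vale.Agent.P294.V La Sv

variable {ν : ℕ} {I : Ideal (Sn ν)}

namespace E1

theorem unif (hI : IH I) (P : ℤ → Sn ν → Prop) (h0 : ∀ k, ∀ g ∈ I, P k g)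
    (ha : ∀ k g g', P k g → P k g' → P k (g + g'))
    (hm : ∀ k e g c, Hg (2 * e) c → P k g → P (k + e) (c * g))
    (hv : ∀ v, Pt I v → ∃ d h, Hg (2 * d) h ∧ eval v h ≠ 0 ∧ P d h) :
    ∃ N : ℕ, ∀ i, P N (X i ^ N) := by
  let J : Ideal (Sn ν) :=
    { carrier := {g | ∀ k, P k (hpart (2 * k) g)}
      zero_mem' := fun k => h0 k _ (hI 0 I.zero_mem _)
      add_mem' := fun h h' k => hpart_add _ _ _ ▸ ha k _ _ (h k) (h' k)
      smul_mem' := fun c g h k => by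
        induction c using MvPolynomial.induction_on' with
        | add p q hp hq =>
          rw [add_smul, hpart_add]
          exact ha k _ _ hp hq
        | monomial μ c =>
          have := hm _ _ _ _ (hga_monomial (m := μ) c rfl) (h (k - μ.degree))
          rwa [sub_add_cancel, mul_sub, ← hpart_mul (hga_monomial c rfl)] at this }
  have h1 : ∀ i, (X i : Sn ν) ∈ J.radical := fun i => nst fun v hJ => by
    by_contra e
    obtain ⟨d, h, h2, h3, h4⟩ := hv v ⟨by rintro rfl; simp at e,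
      le_ptI hI fun g hg => hJ fun k => h0 k _ (hI g hg _)⟩
    refine h3 (hJ fun k => ?_)
    by_cases hk : k = d
    · rwa [hk, hpart_eq_self h2]
    · rw [show hpart (2 * k) h = 0 from MvPolynomial.ext _ _ fun m => by
        rw [coeff_hpart]
        split_ifs with e
        · by_contra e'
          have := hg_iff.1 h2 m (mem_support_iff.2 e')
          lia
        · rfl]
      exact h0 k _ I.zero_mem
  choose n hn using h1
  refine ⟨Finset.univ.sup n, fun i => ?_⟩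
  have := J.pow_mem_of_pow_mem (hn i) (Finset.le_sup (f := n) (Finset.mem_univ i))
    (Finset.univ.sup n : ℕ)
  rwa [hpart_eq_self (hg_pow i _ rfl)] at this

section

variable {A B D : GrS ν} {k l : ℤ}

/-- maps of degree `k` -/
def Hd (k : ℤ) (θ : Tot A →ₗ[Sn ν] Tot B) : Prop :=
  ∀ a b, a + k = b → ∀ x, ∃ y, θ (sgl A a x) = sgl B b y

theorem Hd.zero : Hd k (0 : Tot A →ₗ[Sn ν] Tot B) := fun _ _ _ _ => ⟨0, (map_zero _).symm⟩

theorem Hd.add {θ θ' : Tot A →ₗ[Sn ν] Tot B} (h : Hd k θ) (h' : Hd k θ') : Hd k (θ + θ') :=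
  fun a b e x => by
    obtain ⟨y, hy⟩ := h a b e x
    obtain ⟨y', hy'⟩ := h' a b e x
    exact ⟨y + y', by rw [LinearMap.add_apply, hy, hy', map_add]⟩

theorem Hd.sub {θ θ' : Tot A →ₗ[Sn ν] Tot B} (h : Hd k θ) (h' : Hd k θ') : Hd k (θ - θ') :=
  fun a b e x => by
    obtain ⟨y, hy⟩ := h a b e x
    obtain ⟨y', hy'⟩ := h' a b e x
    exact ⟨y - y', by rw [LinearMap.sub_apply, hy, hy', map_sub]⟩

theorem Hd.smul {θ : Tot A →ₗ[Sn ν] Tot B} (h : Hd k θ) {e : ℤ} {c : Sn ν} (hc : Hg (2 * e) c)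
    (r : k + e = l) : Hd l (c • θ) := fun a b u x => by
  obtain ⟨y, hy⟩ := h a _ rfl x
  exact ⟨_, by rw [LinearMap.smul_apply, hy, hg_smul_sgl (b := b) (by convert hc using 2; lia)]⟩

theorem Hd.comp {θ : Tot A →ₗ[Sn ν] Tot B} {θ' : Tot B →ₗ[Sn ν] Tot D} {r : ℤ} (h' : Hd l θ')
    (h : Hd k θ) (e : k + l = r) : Hd r (θ' ∘ₗ θ) := fun a b u x => by
  obtain ⟨y, hy⟩ := h a _ rfl x
  obtain ⟨z, hz⟩ := h' (a + k) b (by lia) y
  exact ⟨z, by rw [LinearMap.comp_apply, hy, hz]⟩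

theorem hd_tL (f : A ⟶ B) : Hd 0 (tL f) := fun a b u x => by
  obtain rfl : a = b := by lia
  exact ⟨_, tL_sgl f a x⟩

theorem hd_id : Hd 0 (LinearMap.id : Tot A →ₗ[Sn ν] Tot A) := fun a b u x => by
  obtain rfl : a = b := by lia
  exact ⟨x, rfl⟩

theorem exists_lift {j : B ⟶ D} (hj : ∀ a : ℤ, Function.Injective (j.app ⟨a⟩))
    {ρ : Tot A →ₗ[Sn ν] Tot D} (h : ∀ x, ∃ y, tL j y = ρ x) (hρ : Hd k ρ) :
    ∃ ρ' : Tot A →ₗ[Sn ν] Tot B, Hd k ρ' ∧ ∀ x, tL j (ρ' x) = ρ x := by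
  have i : Function.Injective (tL j) := fun _ _ h =>
    cmp_ext fun a => hj a (congrArg (cmp _ a) h)
  have e := LinearMap.codRestrictOfInjective_comp_apply ρ (tL j) i h
  refine ⟨_, fun a b u x => ⟨cmp B b (ρ.codRestrictOfInjective (tL j) i h (sgl A a x)), i ?_⟩, e⟩
  obtain ⟨y, hy⟩ := hρ a b u x
  rw [tL_sgl, ← cmp_tL, e, hy, cmp_sgl]

end

section

variable {L : GA I} {v : Fin ν → ℂ} {a : ℤ} {s : L.obj.obj ⟨a⟩} {d : ℕ} {h : Sn ν}
  (G : Gn1 L v a s d h)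
include G

theorem gen_hg (b : ℤ) (x : L.obj.obj ⟨b⟩) :
    ∃ g : Sn ν, Hg (2 * (b + d - a)) g ∧ h • sgl _ b x = g • sgl _ a s := by
  obtain ⟨g, h1, h2⟩ := G.gen b x
  refine ⟨g, h1, ?_⟩
  rw [hg_smul_sgl h1, ← h2, hg_smul_sgl (b := b + d) (by convert G.hg using 2; lia)]

theorem gen_all (x : Tot L.obj) : ∃ g : Sn ν, g • sgl _ a s = h • x :=
  mem_of_sgl (Q := (LinearMap.range (LinearMap.toSpanSingleton (Sn ν) _ (sgl _ a s))).comap
    (LinearMap.lsmul _ _ h)) fun b => (gen_hg G b _).elim fun g hg => ⟨g, hg.2.symm⟩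

theorem ann_all {g : Sn ν} (hg : g • sgl _ a s = 0) : g ∈ I := by
  rw [← sum_homogeneousComponent g]
  refine I.sum_mem fun n _ => ?_
  have := G.ann (a + n) _ (hga_hpart _ g) (by rw [act_hpart, ← cmp_smul_sgl, hg, map_zero])
  rwa [add_sub_cancel_left, hpart_two_mul] at this

end

/-- local sections -/
theorem sec (hI : IH I) {Z L : GA I} (hL : Iv L) (f : Z ⟶ L) {m : ℤ}
    (hf : ∀ a ≥ m, Function.Surjective (f.hom.app ⟨a⟩)) :
    ∃ (N : ℕ) (σ : Fin ν → Tot L.obj →ₗ[Sn ν] Tot Z.obj),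
      ∀ i, Hd N (σ i) ∧ ∀ x, tL f.hom (σ i x) = (X i ^ N : Sn ν) • x := by
  obtain ⟨N, hN⟩ := unif hI (fun k g => ∃ σ : Tot L.obj →ₗ[Sn ν] Tot Z.obj, Hd k σ ∧
      ∀ x, tL f.hom (σ x) = g • x)
    (fun k g hg => ⟨0, Hd.zero, fun x => (map_zero _).trans (killGA L hg x).symm⟩)
    (fun k g g' ⟨σ, h1, h2⟩ ⟨σ', h3, h4⟩ => ⟨σ + σ', h1.add h3, fun x => by
      rw [LinearMap.add_apply, map_add, h2, h4, add_smul]⟩)
    (fun k e g c hc ⟨σ, h1, h2⟩ => ⟨c • σ, h1.smul hc rfl, fun x => by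
      rw [LinearMap.smul_apply, map_smul, h2, mul_smul]⟩) fun v hv => by
    obtain ⟨a, s, d, h, G⟩ := hL v hv
    obtain ⟨i, hi⟩ := Function.ne_iff.1 hv.1
    obtain ⟨r, hr⟩ : ∃ r : ℕ, m ≤ a + r := ⟨(m - a).toNat, by lia⟩
    obtain ⟨z, hz⟩ := hf _ hr (act L.obj (X i ^ r) a (a + r) s)
    let u := LinearMap.toSpanSingleton (Sn ν) _ (sgl _ a s)
    let t := LinearMap.toSpanSingleton (Sn ν) _ (sgl _ (a + r) z)
    have k : LinearMap.ker u ≤ LinearMap.ker t := fun g hg => killGA Z (ann_all G hg) _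
    let σ := (LinearMap.ker u).liftQ t k ∘ₗ u.quotKerEquivRange.symm.toLinearMap ∘ₗ
      (LinearMap.lsmul _ _ h).codRestrict (LinearMap.range u) (gen_all G)
    have e : ∀ x g, h • x = g • sgl _ a s → σ x = g • sgl _ (a + r) z := fun x g e =>
      congrArg ((LinearMap.ker u).liftQ t k) (u.quotKerEquivRange.symm_apply_eq.2
        (Subtype.ext (e.trans (u.quotKerEquivRange_apply_mk g).symm)) :
          _ = Submodule.Quotient.mk g)
    refine ⟨r + d, X i ^ r * h, hga_mul' (hg_pow i r rfl) G.hg (by ring), ?_, σ,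
      fun b c w x => ?_, fun x => ?_⟩
    · rw [map_mul, map_pow, eval_X]
      exact mul_ne_zero (pow_ne_zero _ hi) G.ne
    · obtain ⟨g, h1, h2⟩ := gen_hg G b x
      exact ⟨_, by rw [e _ g h2, hg_smul_sgl (b := c) (by convert h1 using 2; lia)]⟩
    · obtain ⟨g, h1⟩ := gen_all G x
      rw [e x g h1.symm, map_smul, tL_sgl, hz, ← hg_smul_sgl (hg_pow i r (by lia)), smul_comm, h1,
        mul_smul]
  choose σ hσ using hN
  exact ⟨N, σ, hσ⟩

/-- endomorphisms are scalars -/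
theorem scal (hI : IH I) {L : GA I} (hL : Iv L) {T : Type} {k : ℤ}
    (θ : T → Tot L.obj →ₗ[Sn ν] Tot L.obj) (hθ : ∀ t, Hd k (θ t)) :
    ∃ M : ℕ, ∀ i t, ∃ a : Sn ν, Hg (2 * (M + k)) a ∧ ∀ x, (X i ^ M : Sn ν) • θ t x = a • x :=
  unif hI (fun e g => ∀ t, ∃ a : Sn ν, Hg (2 * (e + k)) a ∧ ∀ x, g • θ t x = a • x)
    (fun e g hg t => ⟨0, hga_zero _, fun x => (killGA L hg _).trans (zero_smul _ _).symm⟩)
    (fun e g g' h h' t => by
      obtain ⟨a, h1, h2⟩ := h t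
      obtain ⟨a', h3, h4⟩ := h' t
      exact ⟨a + a', hga_add h1 h3, fun x => by rw [add_smul, add_smul, h2, h4]⟩)
    (fun e e' g c hc h t => by
      obtain ⟨a, h1, h2⟩ := h t
      exact ⟨c * a, hga_mul' hc h1 (by ring), fun x => by rw [mul_smul, mul_smul, h2]⟩)
    fun v hv => by
      obtain ⟨a, s, d, h, G⟩ := hL v hv
      refine ⟨d + d, h * h, hga_mul' G.hg G.hg (by ring), ?_, fun t => ?_⟩
      · rw [map_mul]
        exact mul_ne_zero G.ne G.ne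
      obtain ⟨y, hy⟩ := hθ t a _ rfl s
      obtain ⟨g, h1, h2⟩ := gen_hg G _ y
      refine ⟨g * h, hga_mul' h1 G.hg (by ring), fun x => ?_⟩
      obtain ⟨g', h3⟩ := gen_all G x
      rw [mul_smul, ← map_smul _ h x, ← h3, map_smul, smul_comm, hy, h2, smul_comm, h3, mul_smul]

/-- compatible local extensions -/
theorem core (hI : IH I) (hH : H1c I) {v : Fin ν → ℂ} (hv : Pt I v) {K Z L : GA I} (hL : Iv L)
    (j : K ⟶ Z) (f : Z ⟶ L) (ψ : K ⟶ L) (hj : ∀ a : ℤ, Function.Injective (j.hom.app ⟨a⟩))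
    (w : j ≫ f = 0) (ex : ∀ z, tL f.hom z = 0 → ∃ y, tL j.hom y = z) {m : ℤ}
    (hf : ∀ a ≥ m, Function.Surjective (f.hom.app ⟨a⟩)) :
    ∃ (R : ℕ) (p : Fin ν → Tot Z.obj →ₗ[Sn ν] Tot L.obj), (∀ i, Hd R (p i)) ∧
      (∀ i k z, (X k ^ R : Sn ν) • p i z = (X i ^ R : Sn ν) • p k z) ∧
      ∀ i x, p i (tL j.hom x) = (X i ^ R : Sn ν) • tL ψ.hom x := by
  have inj : Function.Injective (tL j.hom) := fun _ _ h =>
    cmp_ext fun a => hj a (congrArg (cmp _ a) h)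
  obtain ⟨N, σ, hσ⟩ := sec hI hL f hf
  choose ρ r1 r2 using fun i => exists_lift hj (k := N)
    (ρ := (X i ^ N : Sn ν) • LinearMap.id - σ i ∘ₗ tL f.hom)
    (fun x => ex _ (by simp [(hσ i).2]))
    ((hd_id.smul (hg_pow i N rfl) (zero_add _)).sub ((hσ i).1.comp (hd_tL _) (zero_add _)))
  replace r2 : ∀ i x, tL j.hom (ρ i x) = (X i ^ N : Sn ν) • x - σ i (tL f.hom x) := r2
  obtain ⟨M, hM⟩ := scal hI hL (k := N + N)
    (fun t : Fin ν × Fin ν => tL ψ.hom ∘ₗ ρ t.2 ∘ₗ σ t.1)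
    fun t => (hd_tL _).comp ((r1 _).comp (hσ _).1 rfl) (add_zero _)
  choose a a1 a2 using fun i k => hM i (i, k)
  replace a2 : ∀ i k x, (X i ^ M : Sn ν) • tL ψ.hom (ρ k (σ i x)) = a i k • x := a2
  obtain ⟨b, s, d, h, G⟩ := hL v hv
  have c1 : ∀ i k x, tL j.hom (ρ k (σ i x)) = (X k ^ N : Sn ν) • σ i x - (X i ^ N : Sn ν) • σ k x :=
    fun i k x => by rw [r2, (hσ i).2, map_smul]
  obtain ⟨M', b, b1, b2⟩ := hH (N + M) (fun i k => X k ^ M * a i k)
    (fun i k => hom_of_hg (hga_mul' (hg_pow k M rfl) (a1 i k) (by push_cast; ring)))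
    fun i k l => ann_all G (by
      have : (X l ^ N : Sn ν) • ρ k (σ i (sgl _ b s)) + (X i ^ N : Sn ν) • ρ l (σ k (sgl _ b s)) -
          (X k ^ N : Sn ν) • ρ l (σ i (sgl _ b s)) = 0 := inj (by
        simp only [map_sub, map_add, map_smul, c1, map_zero]
        module)
      have := congrArg (fun y => ((X i * X k * X l) ^ M : Sn ν) • tL ψ.hom y) this
      simp only [map_sub, map_add, map_smul, map_zero, smul_zero] at this
      simp only [sub_smul, add_smul, mul_smul, ← a2]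
      rw [← this]
      module)
  refine ⟨M' + (N + M), fun i => (X i ^ (M' + M) : Sn ν) • (tL ψ.hom ∘ₗ ρ i) - b i • tL f.hom,
    fun i => (((hd_tL _).comp (r1 i) (add_zero _)).smul (hg_pow i _ rfl) (by push_cast; ring)).sub
      ((hd_tL _).smul (hg_of_hom (b1 i)) (zero_add _)), fun i k z => ?_, fun i x => ?_⟩
  · have e1 : (X i ^ N : Sn ν) • ρ k z - (X k ^ N : Sn ν) • ρ i z = ρ k (σ i (tL f.hom z)) :=
      inj (by
        simp only [map_sub, map_smul, c1, r2 _ z]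
        module)
    have e2 := congrArg (fun y => ((X i * X k) ^ (M' + M) : Sn ν) • tL ψ.hom y) e1
    have e3 := killGA L (b2 i k) (tL f.hom z)
    simp only [map_sub, map_smul] at e2
    simp only [sub_smul, mul_smul, ← a2] at e3
    simp only [LinearMap.sub_apply, LinearMap.smul_apply, LinearMap.comp_apply]
    linear_combination (norm := module) -e2 - e3
  · have e1 : ρ i (tL j.hom x) = (X i ^ N : Sn ν) • x := inj (by
      rw [r2, tL_tL w, map_zero, sub_zero, map_smul])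
    simp only [LinearMap.sub_apply, LinearMap.smul_apply, LinearMap.comp_apply, e1, tL_tL w,
      map_smul]
    module

theorem act_lt (P : GrS ν) (f : Sn ν) {b c : ℤ} (h : c < b) (x : P.obj ⟨b⟩) :
    act P f b c x = 0 := by
  rw [← act_hpart, hga_neg_eq_zero (hga_hpart _ f) (by lia), ← cmp_smul_sgl, zero_smul, map_zero]

/-- gluing -/
theorem glue {Z L : GA I} {m : ℤ} (hZ : Low m Z.obj) (hL : Reg m L.obj) {R : ℕ}
    {p : Fin ν → Tot Z.obj →ₗ[Sn ν] Tot L.obj} (h1 : ∀ i, Hd R (p i))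
    (h2 : ∀ i k z, (X k ^ R : Sn ν) • p i z = (X i ^ R : Sn ν) • p k z) :
    ∃ (φ : Z ⟶ L) (n : ℤ), ∀ b ≥ n, ∀ z y,
      (∀ i, p i (sgl _ b z) = (X i ^ R : Sn ν) • sgl _ b y) → φ.hom.app ⟨b⟩ z = y := by
  obtain ⟨n₁, i1⟩ := Q0.ext_inj (N := R) L.2.2
  obtain ⟨n₂, i2⟩ := Q0.ext_mid (N := R) (a := fun _ _ => 0) I
    (fun _ _ => isHomogeneous_zero _ _ _) L
  have sg : ∀ {b : ℤ} {x y : L.obj.obj ⟨b⟩}, sgl _ b x = sgl _ b y → x = y := fun {b x y} e => by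
    rw [← cmp_sgl b x, e, cmp_sgl]
  have uq : ∀ b ≥ max n₁ n₂, ∀ {x y : L.obj.obj ⟨b⟩},
      (∀ i, (X i ^ R : Sn ν) • sgl _ b x = (X i ^ R : Sn ν) • sgl _ b y) → x = y :=
    fun b hb x y e => sub_eq_zero.1 (i1 b (le_of_max_le_left hb) _ fun i => by
      rw [← cmp_smul_sgl, map_sub, smul_sub, e, sub_self, map_zero])
  have key : ∀ b : ℤ, ∃ g : Z.obj.obj ⟨b⟩ →ₗ[ℂ] L.obj.obj ⟨b⟩, max n₁ n₂ ≤ b →
      ∀ z i, (X i ^ R : Sn ν) • sgl _ b (g z) = p i (sgl _ b z) := fun b => by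
    by_cases hb : max n₁ n₂ ≤ b
    swap
    · exact ⟨0, fun h => absurd h hb⟩
    have : ∀ z : Z.obj.obj ⟨b⟩, ∃ y : L.obj.obj ⟨b⟩,
        ∀ i, (X i ^ R : Sn ν) • sgl _ b y = p i (sgl _ b z) := fun z => by
      choose y hy using fun i => h1 i b _ rfl z
      obtain ⟨g, hg⟩ := i2 b (le_of_max_le_right hb) (Q0.extMk R L.obj b 0 y) (fun i k => by
        change act L.obj _ _ _ (y i) - act L.obj _ _ _ (y k) = act L.obj _ _ _ 0
        rw [map_zero, ← cmp_smul_sgl, ← cmp_smul_sgl, ← hy, ← hy, h2, sub_self]) rfl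
      exact ⟨g, fun i => by rw [hy, hg_smul_sgl (Q0.ext_pow i rfl), hg i]; rfl⟩
    choose y hy using this
    refine ⟨{ toFun := y, map_add' := fun x x' => ?_, map_smul' := fun c x => ?_ }, fun _ => hy⟩
    · exact uq b hb fun i => by rw [map_add, smul_add, hy, hy, hy, map_add, map_add]
    · exact uq b hb fun i => by
        rw [RingHom.id_apply, hy, sgl_smul, sgl_smul, map_smul, smul_comm, hy]
  choose g hg using key
  obtain ⟨φ, hφ⟩ := hL.ext_hom hZ (max n₁ n₂) g fun b c f x hb => by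
    rcases lt_or_ge c b with hc | hc
    · rw [act_lt _ _ hc, act_lt _ _ hc, map_zero]
    refine uq c (hb.trans hc) fun i => ?_
    rw [hg c (hb.trans hc), ← cmp_smul_sgl, ← cmp_smul_sgl, ← hpart_smul_sgl, ← hpart_smul_sgl,
      map_smul, smul_comm, hg b hb]
  exact ⟨ObjectProperty.homMk φ, _, fun b hb z y e =>
    (hφ b hb z).trans (uq b hb fun i => (hg b hb z i).trans (e i))⟩

end E1

variable (I) [Fact (IsHom I)] [HasDerivedCategory.{w} (P294Z.Coh (PI I))]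

/-- **E1** -/
theorem stE1 : StE1 I := by
  intro _ hH L hL _ ξ
  by_cases hv : ∃ v, Pt I v
  swap
  · obtain ⟨N, hN⟩ := E1.unif (ih I) (fun _ g => g ∈ I) (fun _ _ h => h)
      (fun _ _ _ => I.add_mem) (fun _ _ _ c _ => I.mul_mem_left c) fun v h => absurd ⟨v, h⟩ hv
    obtain ⟨n, hn⟩ := high_zero L.2.2 N fun i a b x => by rw [L.2.1 _ (hN i)]; rfl
    exact ((sg I).map_isZero ((exL_isZero_iff L).2
      ⟨n, fun a ha => subsingleton_of_forall_eq 0 (hn a ha)⟩)).eq_of_src _ _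
  obtain ⟨v, hv⟩ := hv
  refine zero_of_ext zero_le_one (fun α => ?_) ξ
  obtain ⟨n₀, h₀⟩ := eff (piI I) (n := 0) α
  obtain ⟨m₀, hm⟩ := exists_reg L.2.2
  obtain ⟨r, d, hd, q, hq⟩ := exists_cover (low_trc (max n₀ m₀) L)
  let f := q ≫ trcι _ L
  have hf : ∀ a ≥ max n₀ m₀, Function.Surjective (f.hom.app ⟨a⟩) := fun a ha =>
    (trc_bij _ L a ha).2.comp (GA_app_surjective I q a)
  have hZ : Low m₀ (FrA I fun k => 2 * d k).obj :=
    low_free I fun k _ => by have := le_of_max_le_right (hd k); lia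
  let S := ShortComplex.mk (kernel.ι f) f (kernel.condition f)
  have hS : (S.map (piI I)).ShortExact := ShortComplex.ShortExact.mk'
    (coh_exact _ S 0 fun b _ => GA_exact_apply I (ShortComplex.exact_kernel f) b)
    ((coh_mono_iff (piI I) _).2 ⟨0, fun a _ => GA_app_injective I (kernel.ι f) a⟩)
    ((coh_epi_iff (piI I) f).2 ⟨_, hf⟩)
  obtain ⟨β, hβ⟩ := Ext.contravariant_sequence_exact₃ hS _ α
    (h₀ _ (fun k _ => by have := le_of_max_le_left (hd k); lia) f) (n₀ := 0) rfl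
  obtain ⟨b, rfl⟩ := (Ext.mk₀_bijective _ _).2 β
  obtain ⟨ψ, rfl⟩ := (pi_bij (piI I) (hZ.of_inj (kernel.ι f).hom (GA_app_injective I _)) hm).2 b
  obtain ⟨R, p, p1, p2, p3⟩ := E1.core (ih I) hH hv hL (kernel.ι f) f ψ (GA_app_injective I _)
    (kernel.condition f) (fun z hz => mem_of_sgl (Q := LinearMap.range (tL (kernel.ι f).hom))
      fun a => (GA_exact_apply I (ShortComplex.exact_kernel f) a _ (congrArg (cmp _ a) hz)).elim
        fun y hy => ⟨sgl _ a y, (tL_sgl _ a y).trans (congrArg _ hy)⟩) hf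
  obtain ⟨φ, n, hφ⟩ := E1.glue hZ hm p1 p2
  have e : (piI I).map ψ = (piI I).map (kernel.ι f) ≫ (piI I).map φ :=
    (map_eq_of_large (piI I) (g := kernel.ι f ≫ φ) n fun a ha x =>
      (hφ a ha ((kernel.ι f).hom.app ⟨a⟩ x) _ fun i => by
        rw [← tL_sgl, ← tL_sgl, p3]).symm).trans ((piI I).map_comp _ _)
  exact hβ.symm.trans ((congrArg (hS.extClass.comp · _) ((congrArg Ext.mk₀ e).trans
    (Ext.mk₀_comp_mk₀ (S.map (piI I)).f ((piI I).map φ)).symm)).trans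
      (hS.extClass_comp_assoc (Ext.mk₀ ((piI I).map φ))))

end Vale.Agent.P287T.Fm
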