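import Vale.Agent.P287T.Fm.O0

/-!
# Invertible graded modules: definitions
-/

open CategoryTheory Limits MvPolynomial

universe w

namespace Vale.Agent.P287T.Fm

open Vale.Agent.P287Z Vale.Agent.P287Z.Gr Vale.Agent.P294.V

variable {ν : ℕ} {I : Ideal (Sn ν)}

/-- `L` is free on `s` where `h ≠ 0`, and `h v ≠ 0` -/
structure Gn1 (L : GA I) (v : Fin ν → ℂ) (a : ℤ) (s : L.obj.obj ⟨a⟩) (d : ℕ) (h : Sn ν) :
    Prop where
  hg : Hg (2 * (d : ℤ)) h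
  ne : eval v h ≠ 0
  gen : ∀ (b : ℤ) (x : L.obj.obj ⟨b⟩), ∃ g, Hg (2 * (b + d - a)) g ∧
    act L.obj h b (b + d) x = act L.obj g a (b + d) s
  ann : ∀ (b : ℤ) (g : Sn ν), Hg (2 * (b - a)) g → act L.obj g a b s = 0 → g ∈ I

/-- locally free of rank one on the punctured cone -/
def Iv (L : GA I) : Prop := ∀ v, Pt I v → ∃ a s d h, Gn1 L v a s d h

/-- torsion free -/
def Tf (L : GA I) : Prop := ∀ (a b : ℤ) (g : Sn ν) (x : L.obj.obj ⟨a⟩), Hg (2 * (b - a)) g →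
  g ∉ I → act L.obj g a b x = 0 → x = 0

variable (I) [Fact (IsHom I)] [HasDerivedCategory.{w} (P294Z.Coh (PI I))]

/-- a line bundle has no self-extensions if `H¹(𝒪) = 0` -/
def StE1 : Prop := I.IsPrime → H1c I → ∀ L : GA I, Iv L → Tf L →
  ∀ ξ : (sg I).obj ((piI I).obj L) ⟶ ((sg I).obj ((piI I).obj L))⟦(1 : ℤ)⟧, ξ = 0

end Vale.Agent.P287T.Fm
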