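import Vale.Agent.P287T.Fm.Pt3
import Vale.Agent.P287T.Fm.Iv
import Vale.Agent.P287T.Fm.ExL

/-!
# Extensions of an invertible module by itself: the core
-/

open CategoryTheory Limits MvPolynomial

namespace Vale.Agent.P287T.Fm.La

open Vale.Agent.P287Z Vale.Agent.P287Z.Gr Vale.Agent.P294.V

section

variable {R : Type} [CommRing R] {I m : Ideal R} {N Z L : Type} [AddCommGroup N] [Module R N]
  [AddCommGroup Z] [Module R Z] [AddCommGroup L] [Module R L]

theorem e1_loc (hI : I.IsPrime) (hm : m.IsPrime) (hle : I ≤ m) {j : N →ₗ[R] Z} {f : Z →ₗ[R] L}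
    {ψ : N →ₗ[R] L} (w : ∀ n, f (j n) = 0) (hk : LinearMap.ker j ≤ LinearMap.ker ψ)
    (kZ : ∀ a ∈ I, ∀ z : Z, a • z = 0) (kL : ∀ a ∈ I, ∀ x : L, a • x = 0) {s : L} {h : R}
    (hh : h ∉ m) (gen : ∀ x, ∃ g : R, h • x = g • s) (ann : ∀ g : R, g • s = 0 → g ∈ I)
    (h1 : ∃ e ∉ m, ∀ x ∈ (⊤ : Submodule R L), e • x ∈ LinearMap.range f)
    (h2 : ∃ e ∉ m, ∀ z ∈ LinearMap.ker f, e • z ∈ LinearMap.range j) :
    (∃ c ∉ m, ∃ F : Z →ₗ[R] L, ∀ n, F (j n) = c • ψ n) ∧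
    (∃ c ∉ m, ∀ Θ : Z →ₗ[R] L, (∀ n, Θ (j n) = 0) → ∃ p : R, ∀ z, c • Θ z = p • f z) ∧
    ∀ p : R, (∀ z, p • f z = 0) → p ∈ I := by
  obtain ⟨e, he, h1⟩ := h1
  obtain ⟨e', he', h2⟩ := h2
  have hL : LFr I m L := ⟨kL, 1, fun _ => s, h, hh, fun x => (gen x).elim fun g hg =>
    ⟨fun _ => g, by simpa using hg⟩, fun b hb l => by
      rw [Subsingleton.elim l 0]
      exact ann _ (by simpa using hb)⟩
  obtain ⟨g, hg, u, hu⟩ := hL.lift kZ f (e • LinearMap.id) fun x => LinearMap.mem_range.1 (h1 x trivial)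
  have hu' : ∀ x, f (u x) = (g * e) • x := fun x => (hu x).trans (mul_smul _ _ _).symm
  let π : Z →ₗ[R] Z := e' • ((g * e) • LinearMap.id - u ∘ₗ f)
  have hπ : ∀ z, π z ∈ LinearMap.range j := fun z => h2 _ (by
    change f ((g * e) • z - u (f z)) = 0
    rw [map_sub, map_smul, hu', sub_self])
  have hc := nm_mul hm he' (nm_mul hm hg he)
  refine ⟨⟨_, hc, (LinearMap.ker j).liftQ ψ hk ∘ₗ j.quotKerEquivRange.symm.toLinearMap ∘ₗ
    π.codRestrict _ hπ, fun n => ?_⟩, ⟨_, nm_mul hm (nm_mul hm hh hh) hc, fun Θ hΘ => ?_⟩,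
    fun p hp => (hI.mem_or_mem (ann (p * (g * e)) (by rw [mul_smul, ← hu', hp]))).resolve_right
      fun h3 => nm_mul hm hg he (hle h3)⟩
  · have h3 : π.codRestrict _ hπ (j n) = ⟨j ((e' * (g * e)) • n), LinearMap.mem_range_self _ _⟩ :=
      Subtype.ext (by
      change e' • ((g * e) • j n - u (f (j n))) = j _
      rw [w, map_zero, sub_zero, map_smul, mul_smul e'])
    rw [LinearMap.comp_apply, LinearMap.comp_apply, h3, LinearEquiv.coe_coe,
      LinearMap.quotKerEquivRange_symm_apply_image, ← map_smul]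
    rfl
  · obtain ⟨q, hq⟩ := gen (Θ (u s))
    refine ⟨e' * q * h, fun z => ?_⟩
    obtain ⟨n, hn⟩ := hπ z
    obtain ⟨a, ha⟩ := gen (f z)
    have h3 : Θ (e' • ((g * e) • z - u (f z))) = 0 := (congrArg Θ hn).symm.trans (hΘ n)
    rw [map_smul, map_sub, map_smul, smul_sub, sub_eq_zero] at h3
    rw [mul_smul, mul_smul e', h3, smul_comm, mul_smul, ← map_smul Θ h, ← map_smul u h, ha,
      map_smul, map_smul, smul_comm h, hq, mul_smul, ha, mul_smul, smul_comm q]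

end

variable {ν : ℕ} {I : Ideal (Sn ν)} {A B : GrS ν}

theorem cmp_hg_smul {g : Sn ν} {a b : ℤ} (hg : Hg (2 * (b - a)) g) (t : Tot A) :
    cmp A b (g • t) = act A g a b (cmp A a t) := by
  obtain ⟨s, hs⟩ := exists_sum t
  rw [← hs, Finset.smul_sum, map_sum, map_sum, map_sum]
  refine Finset.sum_congr rfl fun c _ => ?_
  rw [cmp_smul_sgl]
  by_cases h : a = c
  · subst h
    rw [cmp_sgl]
  · rw [cmp_sgl_ne h, act_eq_zero_of_hg A hg (by lia), map_zero]
    rfl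

/-- the component of degree `d` of a linear map -/
noncomputable def hc (F : Tot A →ₗ[Sn ν] Tot B) (d : ℤ) : A ⟶ (twS d).obj B where
  app a := ModuleCat.ofHom
    { toFun := fun x => cmp B (a.deg + d) (F (sgl A a.deg x))
      map_add' := fun x y => by rw [map_add, map_add, map_add]; rfl
      map_smul' := fun c x => by rw [sgl_smul, map_smul, cmp_C]; rfl }
  naturality a b μ := by
    ext x
    have h : a.deg + d + (μ.1.degree : ℤ) = b.deg + d := by have := μ.2; lia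
    have h1 := cmp_hg_smul (hga_monomial 1 (by lia) : Hg (2 * (b.deg + d - (a.deg + d)))
      (monomial μ.1 1 : Sn ν)) (F (sgl A a.deg x))
    rw [← map_smul, monomial_smul_sgl μ.1 μ.2, act_monomial, one_smul, mon_of_eq B μ.1 h] at h1
    exact h1

theorem pow_smul_mem {Q Q' : Submodule (Sn ν) (Tot A)} (hQ : Grd Q)
    (h : ∃ n : ℤ, ∀ a ≥ n, ∀ x, sgl A a x ∈ Q → sgl A a x ∈ Q') (i : Fin ν) {t : Tot A}
    (ht : t ∈ Q) : ∃ r : ℕ, (X i ^ r : Sn ν) • t ∈ Q' := by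
  obtain ⟨n, hn⟩ := h
  obtain ⟨s, hs⟩ := exists_sum t
  obtain ⟨d, hd⟩ := s.finite_toSet.bddBelow
  refine ⟨(n - d).toNat, hs ▸ ?_⟩
  rw [Finset.smul_sum]
  refine Q'.sum_mem fun a ha => ?_
  have h1 := hg_smul_sgl (N := A) (a := a) (b := a + (n - d).toNat)
    (hg_X_pow i (n - d).toNat (by ring)) (cmp A a t)
  have h2 : d ≤ a := hd ha
  exact h1 ▸ hn _ (by lia) _ (h1 ▸ Q.smul_mem _ (hQ t ht a))

theorem loc_of_large [Module.Finite (Sn ν) (Tot A)] {Q Q' : Submodule (Sn ν) (Tot A)} (hQ : Grd Q)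
    (h : ∃ n : ℤ, ∀ a ≥ n, ∀ x, sgl A a x ∈ Q → sgl A a x ∈ Q') {v : Fin ν → ℂ} (hv : v ≠ 0) :
    ∃ c ∉ mv v, ∀ t ∈ Q, c • t ∈ Q' := by
  obtain ⟨i, hi⟩ := Function.ne_iff.1 hv
  refine P3.uni (mv_max v).isPrime (IsNoetherian.noetherian Q) fun t ht =>
    (pow_smul_mem hQ h i ht).elim fun r hr => ⟨_, ?_, hr⟩
  rw [mem_mv, map_pow, eval_X]
  exact pow_ne_zero _ hi

theorem tf_tot {L : GA I} (hT : Tf L) {g : Sn ν} {d : ℤ} (hg : Hg (2 * d) g) (h : g ∉ I)
    {t : Tot L.obj} (e : g • t = 0) : t = 0 := cmp_ext fun a => by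
  have h1 : Hg (2 * (a + d - a)) g := by rwa [add_sub_cancel_left]
  rw [map_zero]
  exact hT a (a + d) g _ h1 h (by rw [← cmp_hg_smul h1, e, map_zero])

variable [hI : Fact (IsHom I)]

theorem pow_unif {J : Ideal (Sn ν)} (hJ : I ≤ J) (h : ∀ v, Pt I v → ∃ c ∉ mv v, c ∈ J) :
    ∃ k : ℕ, ∀ i, (X i ^ k : Sn ν) ∈ J := by
  obtain ⟨k, hk⟩ := Ideal.exists_pow_le_of_le_radical_of_fg (I := idealOfVars (Fin ν) ℂ) (J := J)
    (Ideal.span_le.2 (by
      rintro _ ⟨j, rfl⟩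
      refine nst fun v hv => ?_
      rw [by_contra fun e : v ≠ 0 => (h v (pt_of e (hJ.trans hv))).elim fun c hc =>
        hc.1 (hv hc.2), eval_X]
      rfl)) (idealOfVars_fg _ _)
  exact ⟨k, fun i => hk (Ideal.pow_mem_pow (Ideal.subset_span (Set.mem_range_self i)) k)⟩

omit hI in
theorem gn1_tot {L : GA I} {v : Fin ν → ℂ} {a : ℤ} {s : L.obj.obj ⟨a⟩} {d : ℕ} {h : Sn ν}
    (G : Gn1 L v a s d h) : (∀ x : Tot L.obj, ∃ g : Sn ν, h • x = g • sgl _ a s) ∧
      ∀ g : Sn ν, g • sgl _ a s = 0 → g ∈ I := by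
  refine ⟨fun x => ?_, fun g hg => ?_⟩
  · obtain ⟨t, ht⟩ := exists_sum x
    choose g hg e using G.gen
    refine ⟨∑ b ∈ t, g b (cmp _ b x), ?_⟩
    conv_lhs => rw [← ht]
    rw [Finset.smul_sum, Finset.sum_smul]
    refine Finset.sum_congr rfl fun b _ => ?_
    rw [hg_smul_sgl (b := b + d) (by simpa using G.hg), e, hg_smul_sgl (hg b _)]
  · rw [← sum_hpart g]
    refine I.sum_mem fun n _ => G.ann (a + n) _ (by simpa using hga_hpart _ g) ?_
    have := act_hpart L.obj g a (a + n)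
    rw [add_sub_cancel_left] at this
    rw [this, ← cmp_smul_sgl, hg, map_zero]

/-- gluing -/
theorem e1_glue {N Z L : GA I} (hT : Tf L) {k : Fin ν} (hk : (X k : Sn ν) ∉ I) (hp : I.IsPrime)
    (j : N ⟶ Z) (ψ : N ⟶ L) (r : ℕ) (Ψ : Fin ν → Tot Z.obj →ₗ[Sn ν] Tot L.obj)
    (h1 : ∀ n, Ψ k (tL j.hom n) = (X k ^ r : Sn ν) • tL ψ.hom n)
    (h2 : ∀ i a x, cmp _ (a + r) ((X i ^ r : Sn ν) • Ψ k (sgl _ (a - r) x)) =
      cmp _ (a + r) ((X k ^ r : Sn ν) • Ψ i (sgl _ (a - r) x))) :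
    ∃ φ : (piI I).obj Z ⟶ (piI I).obj L, (piI I).map j ≫ φ = (piI I).map ψ := by
  let μ : L ⟶ (twA I r).obj L := (mulA I (hg_X_pow k r rfl)).app L
  let G : Z ⟶ (twA I r).obj L := ObjectProperty.homMk (hc (Ψ k) r)
  have hx : ∀ i (a : ℤ), Hg (2 * (a + r - a)) (X i ^ r : Sn ν) := fun i a => hg_X_pow i r (by ring)
  have : Mono μ := GA_mono_of_injective I μ fun a => (injective_iff_map_eq_zero _).2 fun x h =>
    hT a (a + r) _ x (hx k a) (fun e => hk (hp.mem_of_pow_mem r e)) h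
  have e1 : j ≫ G = ψ ≫ μ := ObjectProperty.hom_ext _ (by
    ext a x
    exact (congrArg (cmp _ (a.deg + r)) ((congrArg (Ψ k) (tL_sgl j.hom a.deg x).symm).trans
      (h1 _))).trans ((cmp_hg_smul (hx k a.deg) _).trans (by rw [tL_sgl, cmp_sgl]; rfl)))
  obtain ⟨n, hn⟩ := large (N := Z.obj) (Q := ⊤) (Q' := ⨆ i, LinearMap.range
    (LinearMap.lsmul (Sn ν) _ (X i ^ r))) (fun _ _ _ => trivial) fun v hv e => by
      obtain ⟨i, hi⟩ := Function.ne_iff.1 hv
      have := mem_mv.1 (e (x := X i ^ r) (Submodule.mem_colon.2 fun t _ =>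
        Submodule.mem_iSup_of_mem i ⟨t, rfl⟩))
      rw [map_pow, eval_X] at this
      exact pow_ne_zero _ hi this
  have e2 : Epi ((piI I).map (kernel.ι (G ≫ cokernel.π μ))) := by
    refine (ObjectProperty.SerreClassLocalization.epi_map_iff (piI I) (tors I) _).2
      ((epi_iff I _).2 ⟨n, fun a ha z => GA_exact_apply I (ShortComplex.exact_kernel _) a z ?_⟩)
    obtain ⟨q, hq, e⟩ := hn a ha (sgl _ a z) trivial
    rw [cmp_sgl] at e
    subst e
    suffices H : ∃ l, μ.hom.app ⟨a⟩ l = G.hom.app ⟨a⟩ (cmp _ a q) by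
      obtain ⟨l, hl⟩ := H
      exact (congrArg ((cokernel.π μ).hom.app ⟨a⟩) hl.symm).trans
        (congrArg (fun k : L ⟶ _ => k.hom.app ⟨a⟩ l) (cokernel.condition μ))
    refine Submodule.iSup_induction _ (motive := fun q =>
      ∃ l, μ.hom.app ⟨a⟩ l = G.hom.app ⟨a⟩ (cmp _ a q)) hq ?_ ⟨0, by simp⟩ ?_
    · rintro i _ ⟨t, rfl⟩
      have h3 : Hg (2 * (a - (a - r))) (X i ^ r : Sn ν) := hg_X_pow i r (by ring)
      refine ⟨_, ((cmp_hg_smul (hx k a) _).symm.trans (h2 i a (cmp _ (a - r) t)).symm).trans ?_⟩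
      rw [← map_smul, hg_smul_sgl h3, ← cmp_hg_smul h3]
      rfl
    · rintro x y ⟨l, hl⟩ ⟨l', hl'⟩
      exact ⟨l + l', by rw [map_add, map_add, map_add, hl, hl']⟩
  have e3 : (piI I).map G ≫ (piI I).map (cokernel.π μ) = 0 := by
    rw [← Functor.map_comp, ← cancel_epi ((piI I).map (kernel.ι (G ≫ cokernel.π μ))),
      ← Functor.map_comp, kernel.condition, Functor.map_zero, comp_zero]
  have : Mono ((ShortComplex.mk μ _ (cokernel.condition μ)).map (piI I)).f :=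
    inferInstanceAs (Mono ((piI I).map μ))
  obtain ⟨φ, hφ⟩ : ∃ φ : _ ⟶ (piI I).obj L, φ ≫ (piI I).map μ = (piI I).map G :=
    ((ShortComplex.exact_cokernel μ).map (piI I)).lift' ((piI I).map G) e3
  refine ⟨φ, (cancel_mono ((piI I).map μ)).1 ?_⟩
  rw [Category.assoc, hφ, ← Functor.map_comp, e1, Functor.map_comp]

theorem e1_core (hp : I.IsPrime) (hH : H1c I) {N Z L : GA I} (hL : Iv L) (hT : Tf L) (j : N ⟶ Z)
    (f : Z ⟶ L) (w : j ≫ f = 0) (hs : ((ShortComplex.mk j f w).map (piI I)).ShortExact)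
    (ψ : N ⟶ L) : ∃ φ : (piI I).obj Z ⟶ (piI I).obj L, (piI I).map j ≫ φ = (piI I).map ψ := by
  by_cases h0 : ∃ v, Pt I v
  swap
  · obtain ⟨n, hn⟩ := large (N := L.obj) (Q := ⊤) (Q' := ⊥) (fun _ _ _ => trivial) fun v hv =>
      not_le_of _ _ hv fun h => absurd ⟨v, h⟩ h0
    refine ⟨0, ((exL_isZero_iff L).2 ⟨n, fun a ha => subsingleton_of_forall_eq 0 fun x => ?_⟩).eq_of_tgt
      _ _⟩
    obtain ⟨_, rfl, e⟩ := hn a ha (sgl _ a x) trivial
    rw [← cmp_sgl a x, ← e, map_zero]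
  obtain ⟨v₀, h0⟩ := h0
  obtain ⟨k, hk⟩ := Function.ne_iff.1 h0.1
  have hk' : (X k : Sn ν) ∉ I := fun e => hk ((eval_X k).symm.trans (Pt.le h0 e))
  obtain ⟨n₁, h1⟩ := (mono_iff I j).1
    ((ObjectProperty.SerreClassLocalization.mono_map_iff (piI I) (tors I) j).1 hs.mono_f)
  obtain ⟨n₂, h2⟩ := (exL_iff w).1 hs.exact
  obtain ⟨n₃, h3⟩ := (epi_iff I f).1
    ((ObjectProperty.SerreClassLocalization.epi_map_iff (piI I) (tors I) f).1 hs.epi_g)
  have key := fun v (hv : Pt I v) => (hL v hv).elim fun a h => h.elim fun s h => h.elim fun d h =>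
    h.elim fun h G => e1_loc hp (mv_max v).isPrime (Pt.le hv) (j := tL j.hom) (f := tL f.hom)
      (ψ := tL ψ.hom) (tL_tL w) (fun t ht => by
        obtain ⟨r, hr⟩ := pow_smul_mem (Q' := ⊥) (grd_ker j.hom) ⟨n₁, fun a ha x hx => by
          rw [h1 a ha (a₁ := x) (a₂ := 0) (by
            rw [map_zero, ← cmp_sgl a (j.hom.app ⟨a⟩ x), ← tL_sgl, LinearMap.mem_ker.1 hx,
              map_zero]), map_zero]
          exact zero_mem _⟩ k ht
        exact tf_tot hT (hg_X_pow k r rfl) (fun e => hk' (hp.mem_of_pow_mem r e))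
          (by rw [← map_smul, (Submodule.mem_bot _).1 hr, map_zero]))
      (fun _ => killGA Z) (fun _ => killGA L) G.ne (gn1_tot G).1 (gn1_tot G).2
      (loc_of_large (Q := ⊤) (Q' := LinearMap.range (tL f.hom)) (fun _ _ _ => trivial)
        ⟨n₃, fun a ha x _ => (h3 a ha x).elim fun y hy => ⟨sgl _ a y, by rw [tL_sgl, hy]⟩⟩ hv.1)
      (loc_of_large (Q' := LinearMap.range (tL j.hom)) (grd_ker _) ⟨n₂, fun a ha x hx => (h2 a ha x (by
        rw [← cmp_sgl a (f.hom.app ⟨a⟩ x), ← tL_sgl, LinearMap.mem_ker.1 hx, map_zero])).elim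
          fun y hy => ⟨sgl _ a y, by rw [tL_sgl, hy]⟩⟩ hv.1)
  obtain ⟨p, hp1⟩ := pow_unif (I := I) (J :=
    { carrier := {c | ∃ F : Tot Z.obj →ₗ[Sn ν] Tot L.obj, ∀ n, F (tL j.hom n) = c • tL ψ.hom n}
      zero_mem' := ⟨0, fun n => (zero_smul _ _).symm⟩
      add_mem' := fun ⟨F, h⟩ ⟨F', h'⟩ => ⟨F + F', fun n => by
        rw [LinearMap.add_apply, h, h', add_smul]⟩
      smul_mem' := fun c _ ⟨F, h⟩ => ⟨c • F, fun n => by
        rw [LinearMap.smul_apply, h, smul_eq_mul, mul_smul]⟩ })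
    (fun c hc => ⟨0, fun n => (killGA L hc _).symm⟩) fun v hv => (key v hv).1
  obtain ⟨q, hq1⟩ := pow_unif (I := I) (J :=
    { carrier := {c | ∀ Θ : Tot Z.obj →ₗ[Sn ν] Tot L.obj, (∀ n, Θ (tL j.hom n) = 0) →
        ∃ p : Sn ν, ∀ z, c • Θ z = p • tL f.hom z}
      zero_mem' := fun _ _ => ⟨0, fun z => by rw [zero_smul, zero_smul]⟩
      add_mem' := fun h h' Θ e => (h Θ e).elim fun p h => (h' Θ e).elim fun p' h' =>
        ⟨p + p', fun z => by rw [add_smul, h, h', add_smul]⟩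
      smul_mem' := fun c _ h Θ e => (h Θ e).elim fun p h => ⟨c * p, fun z => by
        rw [smul_eq_mul, mul_smul, h, mul_smul]⟩ })
    (fun c hc Θ _ => ⟨0, fun z => by rw [killGA L hc, zero_smul]⟩) fun v hv => (key v hv).2.1
  choose F hF using hp1
  choose a ha using fun i l => hq1 i ((X l ^ q : Sn ν) • ((X i ^ p : Sn ν) • F l -
    (X l ^ p : Sn ν) • F i)) fun n => by
      simp only [LinearMap.smul_apply, LinearMap.sub_apply, hF]
      rw [smul_comm (X i ^ p : Sn ν), sub_self, smul_zero]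
  simp only [LinearMap.smul_apply, LinearMap.sub_apply] at ha
  obtain ⟨u, b, hb, hb'⟩ := hH (q + p) (fun i l => homogeneousComponent (2 * (q + p)) (a i l))
    (fun i l => homogeneousComponent_isHomogeneous _ _) fun i l m => by
      have h4 := ih I _ ((key v₀ h0).2.2 (X m ^ (q + p) * a i l + X i ^ (q + p) * a l m -
        X l ^ (q + p) * a i m) fun z => by
          simp only [sub_smul, add_smul, mul_smul, ← ha, pow_add]
          module) (2 * (q + p : ℕ) + 2 * (2 * (q + p) : ℕ))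
      rw [sub_eq_add_neg, ← neg_mul, hpart_add, hpart_add, hpart_mul (hg_X_pow m _ rfl),
        hpart_mul (hg_X_pow i _ rfl), hpart_mul (hga_neg (hg_X_pow l _ rfl))] at h4
      simpa only [add_sub_cancel_left, hpart_two_mul, neg_mul, ← sub_eq_add_neg] using h4
  refine e1_glue hT hk' hp j ψ (u + (q + p))
    (fun i => (X i ^ (u + q) : Sn ν) • F i - b i • tL f.hom) (fun n => ?_) fun i c x => ?_
  · simp only [LinearMap.smul_apply, LinearMap.sub_apply, hF, tL_tL w, smul_zero, sub_zero,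
      smul_smul, ← pow_add, add_assoc]
  · rw [← sub_eq_zero, ← map_sub]
    have h4 : ∀ z, (X i ^ (u + (q + p)) : Sn ν) • ((X k ^ (u + q) : Sn ν) • F k - b k • tL f.hom) z -
        (X k ^ (u + (q + p)) : Sn ν) • ((X i ^ (u + q) : Sn ν) • F i - b i • tL f.hom) z =
        ((X i * X k) ^ u * (a i k - homogeneousComponent (2 * (q + p)) (a i k)) : Sn ν) •
          tL f.hom z := fun z => by
      rw [← add_zero (_ • tL f.hom z), ← killGA L (hb' i k) (tL f.hom z)]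
      simp only [LinearMap.smul_apply, LinearMap.sub_apply, mul_sub, sub_smul, mul_smul, ← ha,
        pow_add, mul_pow]
      module
    have h5 : Hg (2 * (c - (u + (q + p) : ℕ) + (u + u : ℕ) - (c - (u + (q + p) : ℕ))))
        ((X i * X k) ^ u : Sn ν) := by
      rw [mul_pow]
      exact hga_mul' (hg_X_pow i u rfl) (hg_X_pow k u rfl) (by push_cast; ring)
    rw [h4, tL_sgl, cmp_smul_sgl, act_mul _ _ h5, act_sub, ← hpart_two_mul, ← act_hpart _ (a i k),
      show 2 * (c + (u + (q + p) : ℕ) - (c - (u + (q + p) : ℕ) + (u + u : ℕ))) =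
        2 * ((2 * (q + p) : ℕ) : ℤ) by push_cast; ring, sub_self, comp_zero]
    rfl

end Vale.Agent.P287T.Fm.La
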