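import Vale.Agent.P287Z.O.H409.Tri

/-!
# From representable units to an equivalence: the abstract argument
-/

set_option linter.unusedSectionVars false

open CategoryTheory Limits Pretriangulated Category

universe w v₁ v₂ u₁ u₂

namespace Vale.Agent.P287T.Fm

open Vale.Agent.P287Z.O.H409

section Hp

variable {𝒜 : Type u₁} {ℬ : Type u₂} [Category.{v₁} 𝒜] [Preadditive 𝒜] [HasZeroObject 𝒜]
  [HasBinaryBiproducts 𝒜] [Category.{v₂} ℬ] [Abelian ℬ] [HasDerivedCategory.{w} ℬ] (F : 𝒜 ⥤ ℬ)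
  [F.Additive]

/-- the functor on the homotopy category -/
noncomputable def endH : HomotopyCategory 𝒜 (ComplexShape.up ℤ) ⥤ DerivedCategory ℬ :=
  F.mapHomotopyCategory (ComplexShape.up ℤ) ⋙ DerivedCategory.Qh

noncomputable instance : (endH F).CommShift ℤ :=
  inferInstanceAs ((F.mapHomotopyCategory (ComplexShape.up ℤ) ⋙ DerivedCategory.Qh).CommShift ℤ)

instance : (endH F).IsTriangulated :=
  inferInstanceAs ((F.mapHomotopyCategory (ComplexShape.up ℤ) ⋙ DerivedCategory.Qh).IsTriangulated)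

/-- comparison -/
noncomputable def endI : HomotopyCategory.quotient 𝒜 (ComplexShape.up ℤ) ⋙ endH F ≅
    F.mapHomologicalComplex (ComplexShape.up ℤ) ⋙ DerivedCategory.Q :=
  (Functor.associator _ _ _).symm ≪≫
    Functor.isoWhiskerRight (F.mapHomotopyCategoryFactors (ComplexShape.up ℤ)) _ ≪≫
    Functor.associator _ _ _ ≪≫ Functor.isoWhiskerLeft _ (DerivedCategory.quotientCompQhIso ℬ)

end Hp

variable {K : Type u₁} {D : Type u₂} [Category.{v₁} K] [Category.{v₂} D] [Preadditive K]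
  [Preadditive D] [HasZeroObject K] [HasZeroObject D] [HasShift K ℤ] [HasShift D ℤ]
  [∀ n : ℤ, (shiftFunctor K n).Additive] [∀ n : ℤ, (shiftFunctor D n).Additive]
  [Pretriangulated K] [Pretriangulated D]

/-- An idempotent complete triangulated subcategory with a weak Serre duality. -/
structure EndC (M : K → Prop) : Prop where
  iso : ∀ {X Y : K}, (X ≅ Y) → M X → M Y
  shift : ∀ {X : K} (n : ℤ), M X → M (X⟦n⟧)
  cone : ∀ {X Y : K} (φ : X ⟶ Y), M X → M Y → ∃ (C : K) (g : Y ⟶ C) (h : C ⟶ X⟦(1 : ℤ)⟧),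
    M C ∧ Triangle.mk φ g h ∈ distTriang K
  idem : ∀ {X : K} (e : X ⟶ X), M X → e ≫ e = e → ∃ (X' : K) (i : X' ⟶ X) (r : X ⟶ X'),
    M X' ∧ i ≫ r = 𝟙 _ ∧ r ≫ i = e
  cy : ∀ {X Y : K}, M X → M Y → (∀ f : X ⟶ Y⟦(2 : ℤ)⟧, f = 0) → ∀ g : Y ⟶ X, g = 0

variable (F : K ⥤ D) (M : K → Prop)

/-- `F` is bijective on all maps out of `G`. -/
def EndT (G : K) : Prop := M G ∧ ∀ E, M E → Inj F G E ∧ Sur F G E

/-- The image of the good objects. -/
def EndI (Y : D) : Prop := ∃ G, EndT F M G ∧ Nonempty (F.obj G ≅ Y)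

variable {F M} [F.CommShift ℤ] [F.IsTriangulated] (h : EndC M)

include h

theorem EndC.tIso {X Y : K} (e : X ≅ Y) (t : EndT F M X) : EndT F M Y :=
  ⟨h.iso e t.1, fun E hE => ⟨(t.2 E hE).1.iso e (.refl _), (t.2 E hE).2.iso e (.refl _)⟩⟩

theorem EndC.tShift {X : K} (n : ℤ) (t : EndT F M X) : EndT F M (X⟦n⟧) :=
  ⟨h.shift n t.1, fun _ hE =>
    ⟨(t.2 _ (h.shift (-n) hE)).1.shiftl, (t.2 _ (h.shift (-n) hE)).2.shiftl⟩⟩

theorem EndC.tExt {T : Triangle K} (hT : T ∈ distTriang K) (h2 : M T.obj₂)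
    (t1 : EndT F M T.obj₁) (t3 : EndT F M T.obj₃) : EndT F M T.obj₂ :=
  ⟨h2, fun E hE => ⟨inj_mid hT (t1.2 E hE).1 (t3.2 E hE).1 ((h.tShift 1 t1).2 E hE).2,
    sur_mid hT (t1.2 E hE).2 ((h.tShift (-1) t3).2 E hE).1 (t3.2 E hE).2⟩⟩

theorem EndC.tCone {T : Triangle K} (hT : T ∈ distTriang K) (h3 : M T.obj₃)
    (t1 : EndT F M T.obj₁) (t2 : EndT F M T.obj₂) : EndT F M T.obj₃ :=
  h.tExt (rot_of_distTriang _ hT) h3 t2 (h.tShift 1 t1)

omit h in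
theorem EndT.retract {X Y : K} (t : EndT F M Y) (hX : M X) (i : X ⟶ Y) (r : Y ⟶ X)
    (e : i ≫ r = 𝟙 X) : EndT F M X := by
  refine ⟨hX, fun E hE => ⟨fun f hf => ?_, fun g => ?_⟩⟩
  · have h1 : r ≫ f = 0 := (t.2 E hE).1 _ (by rw [F.map_comp, hf, comp_zero])
    rw [← id_comp f, ← e, assoc, h1, comp_zero]
  · obtain ⟨f, hf⟩ := (t.2 E hE).2 (F.map r ≫ g)
    exact ⟨i ≫ f, by rw [F.map_comp, hf, ← F.map_comp_assoc, e, F.map_id, id_comp]⟩

theorem EndC.iShift {Y : D} (n : ℤ) (t : EndI F M Y) : EndI F M (Y⟦n⟧) := by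
  obtain ⟨G, t, ⟨e⟩⟩ := t
  exact ⟨_, h.tShift n t, ⟨(F.commShiftIso n).app G ≪≫ (shiftFunctor D n).mapIso e⟩⟩

theorem EndC.iCone {T : Triangle D} (hT : T ∈ distTriang D) (t1 : EndI F M T.obj₁)
    (t2 : EndI F M T.obj₂) : EndI F M T.obj₃ := by
  obtain ⟨G, t1, ⟨e1⟩⟩ := t1
  obtain ⟨G', t2, ⟨e2⟩⟩ := t2
  obtain ⟨φ, hφ⟩ := (t1.2 G' t2.1).2 (e1.hom ≫ T.mor₁ ≫ e2.inv)
  obtain ⟨C, g, k, hC, hd⟩ := h.cone φ t1.1 t2.1
  refine ⟨C, h.tCone hd hC t1 t2, ⟨Triangle.π₃.mapIso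
    (isoTriangleOfIso₁₂ _ _ (F.map_distinguished _ hd) hT e1 e2 ?_)⟩⟩
  change F.map φ ≫ e2.hom = e1.hom ≫ T.mor₁
  rw [hφ, assoc, assoc, e2.inv_hom_id, comp_id]

theorem EndC.iExt (T : Triangle D) (hT : T ∈ distTriang D) (t1 : EndI F M T.obj₁)
    (t3 : EndI F M T.obj₃) : EndI F M T.obj₂ :=
  h.iCone (inv_rot_of_distTriang _ hT) (h.iShift (-1) t3) t1

theorem EndC.iZero {Y : D} (t : EndI F M Y) (X : D) (hX : IsZero X) : EndI F M X := by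
  obtain ⟨G, t, ⟨e⟩⟩ := h.iCone (contractible_distinguished Y) t t
  exact ⟨G, t, ⟨e ≪≫ (isZero_zero D).iso hX⟩⟩

theorem EndC.iRetract (X Y : D) (i : X ⟶ Y) (r : Y ⟶ X) (e : i ≫ r = 𝟙 X) (t : EndI F M Y) :
    EndI F M X := by
  obtain ⟨G, t, ⟨j⟩⟩ := t
  obtain ⟨ε, hε⟩ := (t.2 G t.1).2 (j.hom ≫ r ≫ i ≫ j.inv)
  have h1 : ε ≫ ε = ε := ((t.2 G t.1).1.bij (t.2 G t.1).2).1 (by
    change F.map (ε ≫ ε) = F.map ε
    rw [F.map_comp, hε]
    simp [reassoc_of% e])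
  obtain ⟨G', i', r', hG, h2, h3⟩ := h.idem ε t.1 h1
  have h4 : F.map r' ≫ F.map i' = j.hom ≫ r ≫ i ≫ j.inv := by rw [← F.map_comp, h3, hε]
  have h5 : F.map i' ≫ F.map r' = 𝟙 _ := by rw [← F.map_comp, h2, F.map_id]
  refine ⟨G', t.retract hG i' r' h2, ⟨⟨F.map i' ≫ j.hom ≫ r, i ≫ j.inv ≫ F.map r', ?_, ?_⟩⟩⟩
  · simp only [assoc]
    rw [← reassoc_of% h4, reassoc_of% h5, h5]
  · simp only [assoc]
    rw [reassoc_of% h4]
    simp [e]

/-- Objects killed by `F` are orthogonal to the good objects. -/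
theorem EndC.orth {C G : K} (hC : M C) (h0 : IsZero (F.obj C)) (t : EndT F M G) (g : C ⟶ G) :
    g = 0 :=
  h.cy t.1 hC (fun f => (t.2 _ (h.shift 2 hC)).1 f
    ((((shiftFunctor D (2 : ℤ)).map_isZero h0).of_iso ((F.commShiftIso 2).app C)).eq_of_tgt _ _)) g

/-- An object whose image is good splits into a good object and an object killed by `F`. -/
theorem EndC.split {E : K} (hE : M E) (t : EndI F M (F.obj E)) :
    ∃ (C : K) (g : E ⟶ C) (s : C ⟶ E), M C ∧ IsZero (F.obj C) ∧ s ≫ g = 𝟙 C ∧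
      (IsZero C → EndT F M E) := by
  obtain ⟨G, t, ⟨e⟩⟩ := t
  obtain ⟨φ, hφ⟩ := (t.2 E hE).2 e.hom
  obtain ⟨C, g, k, hC, hd⟩ := h.cone φ t.1 hE
  have h0 : IsZero (F.obj C) :=
    Triangle.isZero₃_of_isIso₁ _ (F.map_distinguished _ hd) (by
      change IsIso (F.map φ)
      rw [hφ]
      infer_instance)
  obtain ⟨s, hs⟩ := Triangle.coyoneda_exact₃ _ hd (𝟙 C) (h.orth hC h0 (h.tShift 1 t) _)
  refine ⟨C, g, s, hC, h0, hs.symm, fun hz => ?_⟩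
  have : IsIso φ := (Triangle.isZero₃_iff_isIso₁ _ hd).1 hz
  exact h.tIso (asIso φ) t

/-- **The abstract theorem.** -/
theorem EndC.main (κ : ℤ → K) (hκ : ∀ c, M (κ c))
    (det : ∀ C, M C → (∀ c (f : C ⟶ κ c), f = 0) → IsZero C)
    (ind : ∀ c (e : κ c ⟶ κ c), e ≫ e = e → e = 0 ∨ e = 𝟙 _)
    (lnk : ∀ c, ∃ f : κ c ⟶ κ (c + 1), f ≠ 0) (img : ∀ E, M E → EndI F M (F.obj E))
    {G : K} (t : EndT F M G) (nz : ¬ IsZero (F.obj G)) (E : K) (hE : M E) : EndT F M E := by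
  have h1 : ∀ c, EndT F M (κ c) ∨ IsZero (F.obj (κ c)) := fun c => by
    obtain ⟨C, g, s, -, h0, hs, hz⟩ := h.split (hκ c) (img _ (hκ c))
    rcases ind c (g ≫ s) (by rw [assoc, reassoc_of% hs]) with e | e
    · refine Or.inl (hz ((IsZero.iff_id_eq_zero C).2 ?_))
      rw [← id_comp (𝟙 C), ← hs, assoc, reassoc_of% e, zero_comp, comp_zero]
    · refine Or.inr ((IsZero.iff_id_eq_zero _).2 ?_)
      rw [← F.map_id, ← e, F.map_comp, h0.eq_of_src (F.map s) 0, comp_zero]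
  have h2 : ∀ c, EndT F M (κ c) ↔ EndT F M (κ (c + 1)) := fun c => by
    obtain ⟨f, hf⟩ := lnk c
    exact ⟨fun a => (h1 _).resolve_right fun z => hf ((a.2 _ (hκ _)).1 f (z.eq_of_tgt _ _)),
      fun a => (h1 _).resolve_right fun z => hf (h.orth (hκ _) z a f)⟩
  have h3 : ∃ c, EndT F M (κ c) := by
    by_contra hn
    exact nz (F.map_isZero (det G t.1 fun c f => (t.2 _ (hκ c)).1 f
      (((h1 c).resolve_left fun a => hn ⟨c, a⟩).eq_of_tgt _ _)))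
  obtain ⟨c₀, h3⟩ := h3
  have h4 : ∀ c, EndT F M (κ c) := fun c => Int.inductionOn' c c₀ h3 (fun k _ a => (h2 k).1 a)
    fun k _ a => (h2 (k - 1)).2 (by rwa [sub_add_cancel])
  obtain ⟨C, g, s, hC, h0, -, hz⟩ := h.split hE (img E hE)
  exact hz (det C hC fun c f => h.orth hC h0 (h4 c) f)

end Vale.Agent.P287T.Fm
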