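import Vale.Agent.P287T.Fm.St
import Vale.Agent.P287T.Fm.End0

/-!
# From the units to the equivalence
-/

set_option linter.unusedSectionVars false

open CategoryTheory Limits MvPolynomial Pretriangulated

universe w

namespace Vale.Agent.P287T.Fm

open Vale.Agent.P287Z Vale.Agent.P287Z.O.V Vale.Agent.P287T.Cy Vale.Agent.P287Z.O.H409

variable {W : S6} [hW : Fact (W.IsHomogeneous 3)] {m n l : ℕ}

variable (W) in
/-- the functor to the homotopy category -/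
noncomputable abbrev endQ := HomotopyCategory.quotient (O.L.GA W) (ComplexShape.up ℤ)

/-- the object of a matrix factorization -/
noncomputable abbrev endO (E : GMF W n) := (endQ W).obj (O.L.TT E)

variable {E : GMF W m} {F : GMF W n} {G : GMF W l} {f g : Matrix (Fin n) (Fin m) S6}

/-- the map of a closed matrix -/
noncomputable def endM (hf : Cl E F f) : endO E ⟶ endO F := (endQ W).map (O.L.Tf hf fun _ => True)

theorem endM_one (h : Cl E E 1) : endM h = 𝟙 _ := by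
  rw [endM, O.L.Tf_one]
  exact (endQ W).map_id _

theorem endM_comp (hf : Cl E F f) {g : Matrix (Fin l) (Fin n) S6} (hg : Cl F G g) :
    endM hf ≫ endM hg = endM (O.L.cl_mul hf hg) := by
  rw [endM, endM, endM, ← Functor.map_comp, O.L.Tf_comp]

theorem endM_sub (hf : Cl E F f) (hg : Cl E F g) :
    endM (O.L.cl_sub hf hg) = endM hf - endM hg := by
  have h1 : Cl E F (f - g + g) := by rwa [sub_add_cancel]
  have h2 : endM h1 = endM (O.L.cl_sub hf hg) + endM hg := by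
    rw [endM, O.H962.Tf_add (O.L.cl_sub hf hg) hg]
    exact (endQ W).map_add
  rw [eq_sub_iff_add_eq, ← h2]
  simp only [sub_add_cancel]

variable (h0 : W ≠ 0)
include h0

theorem endM_sur (φ : endO E ⟶ endO F) : ∃ f, ∃ hf : Cl E F f, endM hf = φ := by
  obtain ⟨ψ, rfl⟩ := (endQ W).map_surjective φ
  obtain ⟨f, hf, ⟨h⟩⟩ := (O.H319.eisSt (O.L.hg_ten_of_isHomogeneous W hW.out) h0 E F).1 ψ
  exact ⟨f, hf, (HomotopyCategory.eq_of_homotopy _ _ h).symm⟩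

theorem endM_zero (hf : Cl E F f) : endM hf = 0 ↔ Nh E F f := by
  rw [← (O.H319.eisSt (O.L.hg_ten_of_isHomogeneous W hW.out) h0 E F).2 f hf,
    ← (endQ W).map_zero]
  exact ⟨fun h => ⟨HomotopyCategory.homotopyOfEq _ _ h⟩,
    fun ⟨h⟩ => HomotopyCategory.eq_of_homotopy _ _ h⟩

theorem endM_eq (hf : Cl E F f) (hg : Cl E F g) : endM hf = endM hg ↔ Nh E F (f - g) := by
  rw [← endM_zero h0 (O.L.cl_sub hf hg), endM_sub hf hg, sub_eq_zero]

omit h0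

variable (W) in
/-- the objects that come from matrix factorizations -/
def EndF (X : HomotopyCategory (O.L.GA W) (ComplexShape.up ℤ)) : Prop :=
  ∃ (n : ℕ) (E : GMF W n), Nonempty (X ≅ endO E)

theorem endF_o (E : GMF W n) : EndF W (endO E) := ⟨n, E, ⟨.refl _⟩⟩

theorem end_sh {E E' : GMF W n} {k : ℤ} (hp : ∀ i, E'.p i = E.p i - 3 * k)
    (hd : E'.d = (k.negOnePow : ℤ) • E.d) : Nonempty (endO E' ≅ (endO E)⟦k⟧) := by
  obtain ⟨e⟩ := O.H962.T_shift (fun _ => True) hp hd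
  exact ⟨(endQ W).mapIso e ≪≫ ((endQ W).commShiftIso k).app _⟩

omit hW in
theorem end_sub (k : ℤ) : Subsingleton (Hm E F k) ↔
    ∀ f, Cl E (O.N.sh' F k) f → Nh E (O.N.sh' F k) f := by
  simp only [O.N.cl_iff, O.N.nh_iff]
  rw [Submodule.Quotient.subsingleton_iff, eq_top_iff]
  exact ⟨fun h f hf => h (x := ⟨f, hf⟩) trivial, fun h z _ => h z.1 z.2⟩

omit hW in
theorem end_sh0 (F : GMF W n) : O.N.sh' F 0 = F := by
  cases F
  simp [O.N.sh']

theorem endC (h0 : W ≠ 0) (hc : CY W) (hi : StIdem W) : EndC (EndF W) where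
  iso e := fun ⟨n, E, ⟨e'⟩⟩ => ⟨n, E, ⟨e.symm ≪≫ e'⟩⟩
  shift k := fun ⟨n, E, ⟨e⟩⟩ => ⟨n, O.H157.shG E k, ⟨(shiftFunctor _ k).mapIso e ≪≫
    (end_sh (fun _ => rfl) rfl).some.symm⟩⟩
  cone φ := fun ⟨m, E, ⟨e⟩⟩ ⟨n, F, ⟨e'⟩⟩ => by
    obtain ⟨f, hf, h⟩ := endM_sur h0 (e.inv ≫ φ ≫ e'.hom)
    obtain ⟨C, g, k, hd⟩ := distinguished_cocone_triangle φ
    have := O.H962.isIso_coneHom (G := O.H157.coneG E F f hf) hf rfl rfl fun _ => True
    refine ⟨C, g, k, ⟨_, O.H157.coneG E F f hf, ⟨Triangle.π₃.mapIso (isoTriangleOfIso₁₂ _ _ hd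
      (HomotopyCategory.mappingCone_triangleh_distinguished (O.L.Tf hf fun _ => True)) e e' ?_) ≪≫
      (endQ W).mapIso (@asIso _ _ _ _ _ this)⟩⟩, hd⟩
    change φ ≫ e'.hom = e.hom ≫ endM hf
    rw [h, e.hom_inv_id_assoc]
  idem ε := fun ⟨n, E, ⟨e⟩⟩ hε => by
    obtain ⟨f, hf, h⟩ := endM_sur h0 (e.inv ≫ ε ≫ e.hom)
    obtain ⟨m, E', i, r, h1, h2, h3, h4⟩ := hi E f hf ((endM_eq h0 (O.L.cl_mul hf hf) hf).1 (by
      rw [← endM_comp hf hf, h]
      simp [reassoc_of% hε]))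
    refine ⟨endO E', endM h1 ≫ e.inv, e.hom ≫ endM h2, endF_o E', ?_, ?_⟩
    · rw [Category.assoc, e.inv_hom_id_assoc, endM_comp,
        (endM_eq h0 _ (O.L.cl_one E')).2 h3, endM_one]
    · rw [Category.assoc, ← Category.assoc (endM h2), endM_comp, (endM_eq h0 _ hf).2 h4, h]
      simp
  cy := fun ⟨m, E, ⟨e⟩⟩ ⟨n, F, ⟨e'⟩⟩ h g => by
    obtain ⟨j⟩ := end_sh (E := F) (E' := O.N.sh' F 2) (k := 2) (fun _ => rfl) (by
      rw [Int.negOnePow_even 2 even_two]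
      simp [O.N.sh'])
    have h1 : Subsingleton (Hm E F 2) := (end_sub 2).2 fun f hf => (endM_zero h0 hf).1 (by
      have h2 := h (e.hom ≫ endM hf ≫ j.hom ≫ e'.inv⟦(2 : ℤ)⟧')
      rwa [Preadditive.IsIso.comp_left_eq_zero, Preadditive.IsIso.comp_right_eq_zero] at h2)
    have := (hc F E 0).1
    have h2 : Subsingleton (Hm F E 0) := Module.finrank_zero_iff.1
      ((hc F E 0).2.trans (Module.finrank_zero_of_subsingleton (M := Hm E F 2)))
    rw [end_sub, end_sh0] at h2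
    obtain ⟨f, hf, h3⟩ := endM_sur h0 (e'.inv ≫ g ≫ e.hom)
    rw [(endM_zero h0 hf).2 (h2 f hf), eq_comm, Preadditive.IsIso.comp_left_eq_zero,
      Preadditive.IsIso.comp_right_eq_zero] at h3
    exact h3

variable {ν : ℕ} {I : Ideal (Gr.Sn ν)} [Fact (IsHom I)]

omit hW in
theorem end_om {v : Fin ν → ℂ} (hv : Pt I v) (a : ℤ) : ¬ IsZero (Om I a) := by
  intro h
  obtain ⟨N, hN⟩ := (ObjectProperty.SerreClassLocalization.isZero_obj_iff (piI I)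
    (Gr.tors I) _).1 h
  obtain ⟨i, hi⟩ := Function.ne_iff.1 hv.1
  have h1 := hN (a + ((N - a).toNat : ℤ)) (by lia)
  have h2 : P294.V.Hg (2 * ((N - a).toNat : ℤ)) (X i ^ (N - a).toNat : Gr.Sn ν) :=
    Gr.hg_X_pow i _ rfl
  have h3 := (Gr.FrO.mk_eq_zero I).1 (@Subsingleton.elim _ h1 (Gr.FrO.mk I
    (fun _ => X i ^ (N - a).toNat) fun _ => by rwa [mul_add, add_sub_cancel_left]) 0) 0
  have h4 := (mem_ptI h2).1 (hv.2 h3)
  rw [map_pow, eval_X] at h4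
  exact pow_ne_zero _ hi h4

variable [HasDerivedCategory.{w} (P294Z.Coh (PI I))] {K : Ker W I}
  {H : HomotopyCategory (O.L.GA W) (ComplexShape.up ℤ) ⥤ DerivedCategory (P294Z.Coh (PI I))}
  (η : endQ W ⋙ H ≅ K.Q)

/-- comparison on objects -/
noncomputable def endJ (E : GMF W n) : H.obj (endO E) ≅ K.ob E := η.app (O.L.TT E)

theorem endJ_nat (hf : Cl E F f) :
    H.map (endM hf) ≫ (endJ η F).hom = (endJ η E).hom ≫ K.mp hf :=
  η.hom.naturality (X := O.L.TT E) (Y := O.L.TT F) (O.L.Tf hf fun _ => True)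

variable [H.CommShift ℤ] [H.IsTriangulated]

include h0 η

theorem end_inj : Inj H (endO E) (endO F) ↔ ∀ f (hf : Cl E F f), K.mp hf = 0 → Nh E F f := by
  refine ⟨fun h f hf h1 => (endM_zero h0 hf).1 (h _ ?_), fun h φ hφ => ?_⟩
  · rw [← cancel_mono (endJ η F).hom, endJ_nat, h1, comp_zero, zero_comp]
  · obtain ⟨f, hf, rfl⟩ := endM_sur h0 φ
    refine (endM_zero h0 hf).2 (h f hf ?_)
    rw [← cancel_epi (endJ η E).hom, ← endJ_nat, hφ, comp_zero, zero_comp]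

theorem end_sur : Sur H (endO E) (endO F) ↔
    ∀ g : K.ob E ⟶ K.ob F, ∃ f, ∃ hf : Cl E F f, K.mp hf = g := by
  refine ⟨fun h g => ?_, fun h g => ?_⟩
  · obtain ⟨φ, hφ⟩ := h ((endJ η E).hom ≫ g ≫ (endJ η F).inv)
    obtain ⟨f, hf, rfl⟩ := endM_sur h0 φ
    refine ⟨f, hf, ?_⟩
    rw [← cancel_epi (endJ η E).hom, ← endJ_nat, hφ]
    simp
  · obtain ⟨f, hf, h1⟩ := h ((endJ η E).inv ≫ g ≫ (endJ η F).hom)
    refine ⟨endM hf, ?_⟩
    rw [← cancel_mono (endJ η F).hom, endJ_nat, h1, Iso.hom_inv_id_assoc]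

theorem end_un {a : ℤ} (h : K.Un a G) : EndT H (EndF W) (endO G) :=
  ⟨endF_o G, fun _ ⟨_, E, ⟨e⟩⟩ => ⟨((end_inj h0 η).2 (h.2 E).2).iso (.refl _) e.symm,
    ((end_sur h0 η).2 (h.2 E).1).iso (.refl _) e.symm⟩⟩

theorem end_out (hi : StIdem W) (hk : StKap W) (hg : StGen I) (hc : CY W) (hs : Surf I) (m₀ : ℤ)
    (hb : ∀ {n : ℕ} (E : GMF W n),
      (DerivedCategory.TStructure.t (C := P294Z.Coh (PI I))).bounded (K.ob E))
    (hu : ∀ m ≥ m₀, ∃ (n : ℕ) (G : GMF W n), K.Un m G) : K.Out := by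
  have h := endC h0 hc hi
  obtain ⟨n₀, G₀, hG₀⟩ := hu m₀ le_rfl
  have i0 : EndI H (EndF W) _ := ⟨_, end_un h0 η hG₀, ⟨.refl _⟩⟩
  have gen := hg hs m₀ (EndI H (EndF W))
    ⟨fun X Y e ⟨G, t, ⟨j⟩⟩ => ⟨G, t, ⟨j ≪≫ e⟩⟩, h.iZero i0, fun _ k => h.iShift k, h.iExt⟩
    h.iRetract fun a ha => by
      obtain ⟨n, G, hG⟩ := hu a ha
      exact ⟨_, end_un h0 η hG, ⟨endJ η G ≪≫ hG.1.some.symm⟩⟩
  obtain ⟨r, κ, k1, k2, k3⟩ := hk
  have all := h.main (F := H) (fun c => endO (κ c)) (fun c => endF_o _)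
    (fun C ⟨_, E, ⟨e⟩⟩ hC => by
      refine IsZero.of_iso ((IsZero.iff_id_eq_zero _).2 ?_) e
      rw [← endM_one (O.L.cl_one E), endM_zero h0]
      refine k1 E fun c f hf => (endM_zero h0 hf).1 ?_
      rw [← cancel_epi e.hom, hC c (e.hom ≫ endM hf), comp_zero])
    (fun c ε hε => by
      obtain ⟨f, hf, rfl⟩ := endM_sur h0 ε
      rw [endM_comp, endM_eq h0] at hε
      rw [← endM_one (O.L.cl_one (κ c)), endM_zero h0, endM_eq h0]
      exact k2 c f hf hε)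
    (fun c => by
      obtain ⟨f, hf, h1⟩ := k3 c
      exact ⟨endM hf, fun h2 => h1 ((endM_zero h0 hf).1 h2)⟩)
    (fun X ⟨_, E, ⟨e⟩⟩ => by
      obtain ⟨G, t, ⟨j⟩⟩ := gen _ (hb E)
      exact ⟨G, t, ⟨j ≪≫ (endJ η E).symm ≪≫ H.mapIso e.symm⟩⟩)
    (end_un h0 η hG₀) (fun hz => by
      obtain ⟨v, hv⟩ := hs.ne
      refine end_om hv m₀ ((IsZero.iff_id_eq_zero _).2 ((sg I).map_injective ?_))
      exact (hz.of_iso (hG₀.1.some ≪≫ (endJ η G₀).symm)).eq_of_src _ _)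
  refine ⟨hb, fun E E' => (end_sur h0 η).1 ((all _ (endF_o E)).2 _ (endF_o E')).2,
    fun E E' f hf => ⟨(end_inj h0 η).1 ((all _ (endF_o E)).2 _ (endF_o E')).1 f hf, fun h1 => ?_⟩,
    fun Y hY => ?_⟩
  · rw [← cancel_epi (endJ η E).hom, ← endJ_nat, (endM_zero h0 hf).2 h1, Functor.map_zero,
      comp_zero, zero_comp]
  · obtain ⟨G, ⟨⟨n, E, ⟨e⟩⟩, -⟩, ⟨j⟩⟩ := gen Y hY
    exact ⟨n, E, ⟨(endJ η E).symm ≪≫ H.mapIso e.symm ≪≫ j⟩⟩

omit η in
/-- **step END** -/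
theorem stEnd (hi : StIdem W) (hk : StKap W) (hg : StGen I) : StEnd W I :=
  fun hc hs K m₀ hb hu => end_out h0 (H := endH K.F) (endI K.F) hi hk hg hc hs m₀ hb hu

end Vale.Agent.P287T.Fm
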