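import Vale.Agent.P287T.Fm.St

/-!
# An abstract criterion for an exact functor to be an equivalence
-/

set_option linter.unusedSectionVars false

open CategoryTheory Limits Pretriangulated

universe v u v' u'

namespace Vale.Agent.P287T.Fm.En

variable {𝒦 : Type u} [Category.{v} 𝒦] [Preadditive 𝒦] [HasZeroObject 𝒦] [HasShift 𝒦 ℤ]
  [∀ n : ℤ, (shiftFunctor 𝒦 n).Additive] [Pretriangulated 𝒦]
  {𝒟 : Type u'} [Category.{v'} 𝒟] [Preadditive 𝒟] [HasZeroObject 𝒟] [HasShift 𝒟 ℤ]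
  [∀ n : ℤ, (shiftFunctor 𝒟 n).Additive] [Pretriangulated 𝒟]

theorem tri_ext₃ {P : 𝒦 → Prop} (h : TriC P) (T : Triangle 𝒦) (hT : T ∈ distTriang 𝒦)
    (h1 : P T.obj₁) (h2 : P T.obj₂) : P T.obj₃ :=
  h.ext₂ _ (rot_of_distTriang T hT) h2 (h.shift _ 1 h1)

section

variable {X Y Z E : 𝒦} {a : X ⟶ Y} {b : Y ⟶ Z} {c : Z ⟶ X⟦(1 : ℤ)⟧}
  (h : Triangle.mk a b c ∈ distTriang 𝒦)

include h

theorem ex2 (f : Y ⟶ E) (hf : a ≫ f = 0) : ∃ g : Z ⟶ E, f = b ≫ g :=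
  Triangle.yoneda_exact₂ _ h f hf

theorem ex3 (f : Z ⟶ E) (hf : b ≫ f = 0) : ∃ g : X⟦(1 : ℤ)⟧ ⟶ E, f = c ≫ g :=
  Triangle.yoneda_exact₃ _ h f hf

theorem ex1 : ∃ t : Z⟦(-1 : ℤ)⟧ ⟶ X, t ≫ a = 0 ∧ (c = 0 → t = 0) ∧
    ∀ (E : 𝒦) (f : X ⟶ E), t ≫ f = 0 → ∃ g : Y ⟶ E, f = a ≫ g := by
  refine ⟨(Triangle.mk a b c).invRotate.mor₁,
    comp_distTriang_mor_zero₁₂ _ (inv_rot_of_distTriang _ h), fun hc => ?_,
    fun E f hf => Triangle.yoneda_exact₂ _ (inv_rot_of_distTriang _ h) f hf⟩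
  subst hc
  change -(shiftFunctor 𝒦 (-1 : ℤ)).map (0 : Z ⟶ X⟦(1 : ℤ)⟧) ≫ _ = 0
  rw [Functor.map_zero, neg_eq_zero]
  exact zero_comp

end

/-- the properties of the class of objects which are used -/
structure Dat (P : 𝒦 → Prop) : Prop where
  tri : TriC P
  idem : ∀ X, P X → ∀ e : X ⟶ X, e ≫ e = e →
    ∃ (Y : 𝒦) (i : Y ⟶ X) (r : X ⟶ Y), P Y ∧ i ≫ r = 𝟙 Y ∧ r ≫ i = e
  cy : ∀ X Y, P X → P Y → (∀ f : X⟦(-2 : ℤ)⟧ ⟶ Y, f = 0) → ∀ g : Y ⟶ X, g = 0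
  kap : ∃ κ : ℤ → 𝒦, (∀ c, P (κ c)) ∧ (∀ C, P C → (∀ c (f : C ⟶ κ c), f = 0) → IsZero C) ∧
    (∀ c (e : κ c ⟶ κ c), e ≫ e = e → e = 0 ∨ e = 𝟙 _) ∧ ∀ c, ∃ f : κ c ⟶ κ (c + 1), f ≠ 0

variable (P : 𝒦 → Prop) (Ψ : 𝒦 ⥤ 𝒟)

/-- the objects on which the functor is fully faithful -/
structure Good (G : 𝒦) : Prop where
  mem : P G
  sur : ∀ E, P E → ∀ g : Ψ.obj G ⟶ Ψ.obj E, ∃ f, Ψ.map f = g
  inj : ∀ E, P E → ∀ f : G ⟶ E, Ψ.map f = 0 → f = 0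

/-- the image of the good objects -/
def Im (Y : 𝒟) : Prop := ∃ G, Good P Ψ G ∧ Nonempty (Ψ.obj G ≅ Y)

variable {P Ψ} [Ψ.CommShift ℤ] [Ψ.IsTriangulated]

theorem Good.ret {G G' : 𝒦} (h : Good P Ψ G) (h' : P G') (i : G' ⟶ G) (r : G ⟶ G')
    (hi : i ≫ r = 𝟙 _) : Good P Ψ G' where
  mem := h'
  sur E hE g := by
    obtain ⟨f, hf⟩ := h.sur E hE (Ψ.map r ≫ g)
    exact ⟨i ≫ f, by rw [Ψ.map_comp, hf, ← Category.assoc, ← Ψ.map_comp, hi, Ψ.map_id,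
      Category.id_comp]⟩
  inj E hE f hf := by
    have h1 := h.inj E hE (r ≫ f) (by rw [Ψ.map_comp, hf, comp_zero])
    rw [← Category.id_comp f, ← hi, Category.assoc, h1, comp_zero]

theorem Good.shift (hP : TriC P) {G : 𝒦} (h : Good P Ψ G) (n : ℤ) : Good P Ψ (G⟦n⟧) := by
  have key : ∀ E, ∃ E', (P E → P E') ∧ Nonempty (E'⟦n⟧ ≅ E) := fun E =>
    ⟨E⟦-n⟧, fun hE => hP.shift _ _ hE, ⟨(shiftEquiv 𝒦 n).counitIso.app E⟩⟩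
  refine ⟨hP.shift _ _ h.mem, fun E hE g => ?_, fun E hE f hf => ?_⟩
  · obtain ⟨E', hE', ⟨e⟩⟩ := key E
    obtain ⟨g', hg'⟩ := (shiftFunctor 𝒟 n).map_surjective
      ((Ψ.commShiftIso n).inv.app G ≫ g ≫ Ψ.map e.inv ≫ (Ψ.commShiftIso n).hom.app E')
    obtain ⟨f, rfl⟩ := h.sur E' (hE' hE) g'
    refine ⟨f⟦n⟧' ≫ e.hom, ?_⟩
    have h1 := (Ψ.commShiftIso n).hom.naturality f
    dsimp at h1
    rw [hg', Iso.hom_inv_id_app_assoc, ← Category.assoc, cancel_mono] at h1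
    rw [Ψ.map_comp, h1, Category.assoc, ← Ψ.map_comp, e.inv_hom_id, Ψ.map_id, Category.comp_id]
  · obtain ⟨E', hE', ⟨e⟩⟩ := key E
    obtain ⟨f', hf'⟩ := (shiftFunctor 𝒦 n).map_surjective (f ≫ e.inv)
    have h1 := (Ψ.commShiftIso n).hom.naturality f'
    dsimp at h1
    rw [hf', Ψ.map_comp, hf, zero_comp, zero_comp, eq_comm] at h1
    have h2 : (Ψ.map f')⟦n⟧' = 0 := by
      rw [← cancel_epi ((Ψ.commShiftIso n).hom.app G), h1, comp_zero]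
    have h3 : f' = 0 := h.inj E' (hE' hE) f' ((shiftFunctor 𝒟 n).map_injective
      (by rw [h2, Functor.map_zero]))
    rw [← cancel_mono e.inv, ← hf', h3, Functor.map_zero, zero_comp]

theorem Good.ext (hP : TriC P) {X Y Z : 𝒦} {u : X ⟶ Y} {v : Y ⟶ Z} {w : Z ⟶ X⟦(1 : ℤ)⟧}
    (hT : Triangle.mk u v w ∈ distTriang 𝒦) (h1 : Good P Ψ X) (h3 : Good P Ψ Z) :
    Good P Ψ Y := by
  have hT' : Triangle.mk (Ψ.map u) (Ψ.map v) (Ψ.map w ≫ (Ψ.commShiftIso (1 : ℤ)).hom.app X) ∈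
    distTriang 𝒟 := Ψ.map_distinguished _ hT
  refine ⟨hP.ext₂ _ hT h1.mem h3.mem, fun E hE g => ?_, fun E hE f hf => ?_⟩
  · obtain ⟨a, ha⟩ := h1.sur E hE (Ψ.map u ≫ g)
    obtain ⟨t, h5, -, ht⟩ := ex1 hT
    obtain ⟨b, hb⟩ := ht E a ((h3.shift hP (-1)).inj E hE _ (by
      rw [Ψ.map_comp, ha, ← Category.assoc, ← Ψ.map_comp, h5, Ψ.map_zero, zero_comp]))
    obtain ⟨c', hc'⟩ := ex2 hT' (g - Ψ.map b) (by
      rw [Preadditive.comp_sub, ← ha, hb, Ψ.map_comp, sub_self])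
    obtain ⟨c, hc⟩ := h3.sur E hE c'
    refine ⟨b + v ≫ c, ?_⟩
    rw [Ψ.map_add, Ψ.map_comp, hc, ← hc', add_sub_cancel]
  · have h4 : u ≫ f = 0 := h1.inj E hE _ (by rw [Ψ.map_comp, hf, comp_zero])
    obtain ⟨g, rfl⟩ := ex2 hT f h4
    obtain ⟨k', hk'⟩ := ex3 hT' (Ψ.map g) ((Ψ.map_comp _ _).symm.trans hf)
    obtain ⟨k, hk⟩ := (h1.shift hP 1).sur E hE ((Ψ.commShiftIso (1 : ℤ)).hom.app X ≫ k')
    have h5 : g - w ≫ k = 0 := by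
      refine h3.inj E hE _ ?_
      rw [Ψ.map_sub, Ψ.map_comp, hk, hk', Category.assoc, sub_self]
    have h6 : v ≫ w = 0 := comp_distTriang_mor_zero₂₃ _ hT
    rw [sub_eq_zero.1 h5, ← Category.assoc, h6, zero_comp]

theorem good_zero (hP : TriC P) {G : 𝒦} (h : IsZero G) : Good P Ψ G :=
  ⟨hP.zero _ h, fun _ _ _ => ⟨0, (Ψ.map_isZero h).eq_of_src _ _⟩, fun _ _ _ _ => h.eq_of_src _ _⟩

theorem im_tri (hP : TriC P) : TriC (Im P Ψ) where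
  iso X Y e := fun ⟨G, hG, ⟨j⟩⟩ => ⟨G, hG, ⟨j ≪≫ e⟩⟩
  zero X hX := ⟨_, good_zero hP (isZero_zero 𝒦), ⟨(Ψ.map_isZero (isZero_zero 𝒦)).iso hX⟩⟩
  shift X n := fun ⟨G, hG, ⟨j⟩⟩ =>
    ⟨G⟦n⟧, hG.shift hP n, ⟨(Ψ.commShiftIso n).app G ≪≫ (shiftFunctor 𝒟 n).mapIso j⟩⟩
  ext₂ T hT := fun ⟨G₁, h1, ⟨j₁⟩⟩ ⟨G₃, h3, ⟨j₃⟩⟩ => by
    obtain ⟨w, hw⟩ := h3.sur _ (hP.shift _ 1 h1.mem)
      (j₃.hom ≫ T.mor₃ ≫ j₁.inv⟦(1 : ℤ)⟧' ≫ (Ψ.commShiftIso (1 : ℤ)).inv.app G₁)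
    obtain ⟨G₂, a, b, hab⟩ := distinguished_cocone_triangle₂ w
    refine ⟨G₂, Good.ext hP hab h1 h3, ⟨Triangle.π₂.mapIso
      (isoTriangleOfIso₁₃ _ T (Ψ.map_distinguished _ hab) hT j₁ j₃ ?_)⟩⟩
    change (Ψ.map w ≫ (Ψ.commShiftIso (1 : ℤ)).hom.app G₁) ≫ j₁.hom⟦(1 : ℤ)⟧' = _
    rw [hw]
    simp only [Category.assoc, Iso.inv_hom_id_app_assoc, ← Functor.map_comp, j₁.inv_hom_id]
    rw [(shiftFunctor 𝒟 (1 : ℤ)).map_id, Category.comp_id]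
    rfl

theorem im_ret (hP : Dat P) (X Y : 𝒟) (i : X ⟶ Y) (r : Y ⟶ X) (h : i ≫ r = 𝟙 X)
    (hY : Im P Ψ Y) : Im P Ψ X := by
  obtain ⟨G, hG, ⟨j⟩⟩ := hY
  obtain ⟨e, he⟩ := hG.sur G hG.mem (j.hom ≫ r ≫ i ≫ j.inv)
  have h1 : e ≫ e = e := by
    rw [← sub_eq_zero]
    refine hG.inj G hG.mem _ ?_
    rw [Ψ.map_sub, Ψ.map_comp, he, sub_eq_zero]
    simp only [Category.assoc, j.inv_hom_id_assoc, reassoc_of% h]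
  obtain ⟨G', a, b, hG', hab, hba⟩ := hP.idem G hG.mem e h1
  have h2 : Ψ.map b ≫ Ψ.map a = j.hom ≫ r ≫ i ≫ j.inv := by rw [← Ψ.map_comp, hba, he]
  have h3 : Ψ.map a ≫ Ψ.map b = 𝟙 _ := by rw [← Ψ.map_comp, hab, Ψ.map_id]
  refine ⟨G', hG.ret hG' a b hab,
    ⟨⟨Ψ.map a ≫ j.hom ≫ r, i ≫ j.inv ≫ Ψ.map b, ?_, ?_⟩⟩⟩
  · calc _ = Ψ.map a ≫ (j.hom ≫ r ≫ i ≫ j.inv) ≫ Ψ.map b := by simp only [Category.assoc]
      _ = 𝟙 _ := by rw [← h2, Category.assoc, h3, Category.comp_id, h3]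
  · simp only [Category.assoc, reassoc_of% h2, j.inv_hom_id_assoc, reassoc_of% h, h]

theorem Good.to_ker {G C : 𝒦} (hG : Good P Ψ G) (hC : P C) (h0 : IsZero (Ψ.obj C)) (f : G ⟶ C) :
    f = 0 := hG.inj C hC f (h0.eq_of_tgt _ _)

theorem Good.of_ker (hP : Dat P) {G C : 𝒦} (hG : Good P Ψ G) (hC : P C)
    (h0 : IsZero (Ψ.obj C)) (f : C ⟶ G) : f = 0 :=
  hP.cy G C hG.mem hC ((hG.shift hP.tri (-2)).to_ker hC h0) f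

theorem exists_tri (hP : TriC P) {E : 𝒦} (hE : P E) (h : Im P Ψ (Ψ.obj E)) :
    ∃ (G C : 𝒦) (a : G ⟶ E) (b : E ⟶ C) (c : C ⟶ G⟦(1 : ℤ)⟧), Triangle.mk a b c ∈ distTriang 𝒦 ∧
      Good P Ψ G ∧ P C ∧ IsZero (Ψ.obj C) ∧ IsIso (Ψ.map a) := by
  obtain ⟨G, hG, ⟨j⟩⟩ := h
  obtain ⟨a, ha⟩ := hG.sur E hE j.hom
  obtain ⟨C, b, c, hT⟩ := distinguished_cocone_triangle a
  have h1 : IsIso (Ψ.map a) := by rw [ha]; infer_instance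
  exact ⟨G, C, a, b, c, hT, hG, tri_ext₃ hP _ hT hG.mem hE,
    Triangle.isZero₃_of_isIso₁ _ (Ψ.map_distinguished _ hT) h1, h1⟩

theorem good_or (hP : Dat P) {E : 𝒦} (hE : P E) (h : Im P Ψ (Ψ.obj E))
    (hi : ∀ e : E ⟶ E, e ≫ e = e → e = 0 ∨ e = 𝟙 _) : Good P Ψ E ∨ IsZero (Ψ.obj E) := by
  obtain ⟨G, C, a, b, c, hT, hG, hC, h0, ha⟩ := exists_tri hP.tri hE h
  have h1 : c = 0 := (hG.shift hP.tri 1).of_ker hP hC h0 c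
  obtain ⟨t, -, h4, ht⟩ := ex1 hT
  obtain ⟨r, hr⟩ := ht G (𝟙 G) (by rw [h4 h1, zero_comp])
  have hr' : a ≫ r = 𝟙 G := hr.symm
  rcases hi (r ≫ a) (by rw [Category.assoc, reassoc_of% hr']) with h2 | h2
  · right
    have h3 : a = 0 := by rw [← Category.id_comp a, ← hr', Category.assoc, h2, comp_zero]
    rw [IsZero.iff_id_eq_zero, ← cancel_epi (Ψ.map a), h3, Ψ.map_zero, zero_comp, zero_comp]
  · exact Or.inl (hG.ret hE r a h2)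

/-- **the criterion** -/
theorem all_good (hP : Dat P) (h : ∀ E, P E → Im P Ψ (Ψ.obj E))
    (hne : ∃ G, Good P Ψ G ∧ ¬ IsZero (Ψ.obj G)) {E : 𝒦} (hE : P E) : Good P Ψ E := by
  obtain ⟨κ, h1, h2, h3, h4⟩ := hP.kap
  have h5 := fun c => good_or hP (h1 c) (h _ (h1 c)) (h3 c)
  have h6 : ∀ c, Good P Ψ (κ c) ↔ Good P Ψ (κ (c + 1)) := fun c => by
    obtain ⟨f, hf⟩ := h4 c
    exact ⟨fun hc => (h5 _).resolve_right fun h0 => hf (hc.to_ker (h1 _) h0 f),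
      fun hc => (h5 _).resolve_right fun h0 => hf (hc.of_ker hP (h1 _) h0 f)⟩
  have h7 : ∀ c, Good P Ψ (κ c) ↔ Good P Ψ (κ 0) := fun c => by
    induction c using Int.induction_on with
    | zero => rfl
    | succ n ih => exact (h6 n).symm.trans ih
    | pred n ih =>
      refine (h6 _).trans ?_
      rwa [sub_add_cancel]
  have h8 : Good P Ψ (κ 0) := by
    by_contra h0
    obtain ⟨G, hG, hG0⟩ := hne
    exact hG0 (Ψ.map_isZero (h2 G hG.mem fun c f => hG.to_ker (h1 c)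
      ((h5 c).resolve_left fun hc => h0 ((h7 c).1 hc)) f))
  obtain ⟨G, C, a, b, c, hT, hG, hC, h0, -⟩ := exists_tri hP.tri hE (h E hE)
  have h9 : IsIso a := (Triangle.isZero₃_iff_isIso₁ _ hT).1
    (h2 C hC fun c f => ((h7 c).2 h8).of_ker hP hC h0 f)
  exact hG.ret hE (inv a) a (IsIso.inv_hom_id a)

end Vale.Agent.P287T.Fm.En
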