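import Mathlib.LinearAlgebra.Matrix.Charpoly.LinearMap
import Mathlib.RingTheory.Nakayama
import Mathlib.RingTheory.Ideal.Quotient.Operations
import Mathlib.Algebra.Module.Torsion.Basic
import Mathlib.LinearAlgebra.Basis.VectorSpace

/-!
# Modules which are free near a point: splittings and the Koszul argument
-/

open Polynomial

namespace Vale.Agent.P287T.Fm

variable {S : Type} [CommRing S] {I m : Ideal S} {A B M M₀ M₁ M₂ M₃ : Type}
  [AddCommGroup A] [Module S A] [AddCommGroup B] [Module S B] [AddCommGroup M] [Module S M]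
  [AddCommGroup M₀] [Module S M₀] [AddCommGroup M₁] [Module S M₁] [AddCommGroup M₂] [Module S M₂]
  [AddCommGroup M₃] [Module S M₃]

/-- `M` is a free module over `S / I` near the point `m` -/
structure LFr (I m : Ideal S) (M : Type) [AddCommGroup M] [Module S M] : Prop where
  kill : ∀ a ∈ I, ∀ x : M, a • x = 0
  ex : ∃ (ρ : ℕ) (n : Fin ρ → M) (g : S), g ∉ m ∧ (∀ x, ∃ b : Fin ρ → S, g • x = ∑ j, b j • n j) ∧
    ∀ b : Fin ρ → S, ∑ j, b j • n j = 0 → ∀ j, b j ∈ I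

theorem LFr.lift (h : LFr I m M) (hA : ∀ a ∈ I, ∀ x : A, a • x = 0) (p : A →ₗ[S] B)
    (u : M →ₗ[S] B) (hu : ∀ x, ∃ a, p a = u x) :
    ∃ g ∉ m, ∃ w : M →ₗ[S] A, ∀ x, p (w x) = g • u x := by
  obtain ⟨ρ, n, g, hg, h1, h2⟩ := h.ex
  choose a ha using hu
  choose b hb using h1
  have key : ∀ x (c : Fin ρ → S), g • x = ∑ j, c j • n j →
      ∑ j, b x j • a (n j) = ∑ j, c j • a (n j) := fun x c hc => by
    rw [← sub_eq_zero, ← Finset.sum_sub_distrib]
    refine Finset.sum_eq_zero fun j _ => ?_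
    rw [← sub_smul]
    refine hA _ (h2 (fun j => b x j - c j) ?_ j) _
    simp only [sub_smul, Finset.sum_sub_distrib, ← hb, ← hc, sub_self]
  refine ⟨g, hg, ⟨⟨fun x => ∑ j, b x j • a (n j), fun x y => ?_⟩, fun c x => ?_⟩, fun x => ?_⟩
  · rw [key (x + y) (fun j => b x j + b y j)
      (by rw [smul_add, hb, hb]; simp only [add_smul, Finset.sum_add_distrib])]
    simp only [add_smul, Finset.sum_add_distrib]
  · refine (key (c • x) (fun j => c * b x j)
      (by rw [smul_comm, hb, Finset.smul_sum]; simp only [mul_smul])).trans ?_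
    simp only [RingHom.id_apply, Finset.smul_sum, mul_smul]
  · change p (∑ j, b x j • a (n j)) = _
    rw [← map_smul, hb]
    simp only [map_sum, map_smul, ha]

theorem inv_of_cong [Module.Finite S M] (hm : m.IsPrime) (φ : M →ₗ[S] M) {g : S} (hg : g ∉ m)
    (h : ∀ x, g • x - φ x ∈ (m • ⊤ : Submodule S M)) :
    ∃ c ∉ m, ∃ ψ : M →ₗ[S] M, ∀ x, ψ (φ x) = c • x := by
  obtain ⟨p, h1, -, h2, h3⟩ :=
    LinearMap.exists_monic_and_natDegree_eq_and_coeff_mem_pow_and_aeval_eq_zero S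
      (algebraMap S (Module.End S M) g - φ) m (by rintro _ ⟨x, rfl⟩; exact h x)
  have h4 : aeval φ (p.comp (C g - X)) = 0 := by
    rw [aeval_comp, map_sub, aeval_C, aeval_X, h3]
  refine ⟨p.eval g, fun h5 => hg ?_, -aeval φ (divX (p.comp (C g - X))), fun x => ?_⟩
  · rw [h1.as_sum, eval_add, eval_finsetSum] at h5
    have h6 := (add_mem_cancel_right (Ideal.sum_mem m fun k hk => ?_)).1 h5
    · rw [eval_pow, eval_X] at h6
      exact hm.mem_of_pow_mem _ h6
    · rw [eval_mul, eval_C]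
      exact Ideal.mul_mem_right _ _ (Ideal.pow_le_self
        (Nat.sub_ne_zero_of_lt (Finset.mem_range.1 hk)) (h2 k))
  · rw [← divX_mul_X_add (p.comp (C g - X)), map_add, map_mul, aeval_X, aeval_C,
      coeff_zero_eq_eval_zero, eval_comp, eval_sub, eval_C, eval_X, sub_zero] at h4
    exact neg_eq_of_add_eq_zero_right (congrArg (fun l : Module.End S M => l x) h4)

theorem split_inj [Module.Finite S A] (hm : m.IsMaximal) (hA : ∀ a ∈ I, ∀ x : A, a • x = 0)
    (h : LFr I m M) (g : A →ₗ[S] M)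
    (hg : ∀ x, g x ∈ (m • ⊤ : Submodule S M) → x ∈ (m • ⊤ : Submodule S A)) :
    ∃ c ∉ m, ∃ l : M →ₗ[S] A, ∀ x, l (g x) = c • x := by
  let _ := Ideal.Quotient.field m
  let g' : (A ⧸ (m • ⊤ : Submodule S A)) →ₗ[S] M ⧸ (m • ⊤ : Submodule S M) :=
    Submodule.mapQ _ _ g (Submodule.map_le_iff_le_comap.1 (by
      rw [Submodule.map_smul'']; exact Submodule.smul_mono le_rfl le_top))
  obtain ⟨l, hl⟩ := (g'.extendScalarsOfSurjective (S := S ⧸ m)
    Ideal.Quotient.mk_surjective).exists_leftInverse_of_injective (LinearMap.ker_eq_bot'.2 (by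
      intro x hx
      obtain ⟨x, rfl⟩ := Submodule.mkQ_surjective _ x
      exact (Submodule.Quotient.mk_eq_zero _).2 (hg x ((Submodule.Quotient.mk_eq_zero _).1 hx))))
  obtain ⟨c, hc, r, hr⟩ := h.lift hA (Submodule.mkQ _) (l.restrictScalars S ∘ₗ Submodule.mkQ _)
    fun x => Submodule.mkQ_surjective _ _
  obtain ⟨c', hc', ψ, hψ⟩ := inv_of_cong hm.isPrime (r ∘ₗ g) hc fun x => by
    refine (Submodule.Quotient.eq _).1 (Eq.trans ?_ (hr (g x)).symm)
    exact congrArg (c • ·) (congrArg (fun l => l (Submodule.Quotient.mk x)) hl).symm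
  exact ⟨c', hc', ψ ∘ₗ r, hψ⟩

theorem nm_mul (hm : m.IsPrime) {a b : S} (ha : a ∉ m) (hb : b ∉ m) : a * b ∉ m :=
  fun h => (hm.mem_or_mem h).elim ha hb

/-- a complex which is exact in the fibre is contractible near the point -/
theorem qc [Module.Finite S M₂] (hm : m.IsMaximal) (h1 : ∀ a ∈ I, ∀ x : M₁, a • x = 0)
    (h2 : LFr I m M₂) (h3 : LFr I m M₃) {f : M₁ →ₗ[S] M₂} {g : M₂ →ₗ[S] M₃}
    (h0 : ∀ x, g (f x) = 0) (hx : ∀ x, g x ∈ (m • ⊤ : Submodule S M₃) →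
      ∃ y, x - f y ∈ (m • ⊤ : Submodule S M₂)) :
    ∃ h ∉ m, ∃ (r : M₃ →ₗ[S] M₂) (s : M₂ →ₗ[S] M₁), ∀ x, h • x = r (g x) + f (s x) := by
  obtain ⟨c, hc, l, hl⟩ := split_inj (A := M₂ ⧸ LinearMap.range f) hm (fun a ha x => by
      obtain ⟨x, rfl⟩ := Submodule.mkQ_surjective _ x
      rw [← map_smul, h2.kill a ha, map_zero]) h3
    (Submodule.liftQ _ g (by rintro _ ⟨x, rfl⟩; exact h0 x)) fun x hx' => by
      obtain ⟨x, rfl⟩ := Submodule.mkQ_surjective _ x
      obtain ⟨y, hy⟩ := hx x hx'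
      have h4 := Submodule.mem_map_of_mem (f := (LinearMap.range f).mkQ) hy
      rw [Submodule.map_smul'', map_sub, show (LinearMap.range f).mkQ (f y) = 0 from
        (Submodule.Quotient.mk_eq_zero _).2 (LinearMap.mem_range_self f y), sub_zero] at h4
      exact Submodule.smul_mono le_rfl le_top h4
  obtain ⟨c1, hc1, r, hr⟩ := h3.lift h2.kill (Submodule.mkQ _) l fun x =>
    Submodule.mkQ_surjective _ _
  obtain ⟨c2, hc2, s, hs⟩ := h2.lift h1 f ((c1 * c) • LinearMap.id - r ∘ₗ g) fun x =>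
    (Submodule.Quotient.eq (LinearMap.range f)).1 (Eq.trans (by
      rw [← smul_smul]; exact congrArg (c1 • ·) (hl (Submodule.Quotient.mk x)).symm)
      (hr (g x)).symm)
  refine ⟨c2 * (c1 * c), nm_mul hm.isPrime hc2 (nm_mul hm.isPrime hc1 hc), c2 • r, s, fun x => ?_⟩
  rw [hs, LinearMap.smul_apply, ← smul_add, mul_smul]
  exact congrArg _ (add_sub_cancel _ _).symm

/-- `t` is not a zero divisor modulo `s` near the point -/
def Rg (I m : Ideal S) (s t : S) : Prop :=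
  ∀ a b, t * a - s * b ∈ I → ∃ h ∉ m, ∃ a', h * a - s * a' ∈ I

theorem Rg.pow_right (hm : m.IsPrime) {s t : S} (h : Rg I m s t) (n : ℕ) : Rg I m s (t ^ n) := by
  induction n with
  | zero => exact fun a b e => ⟨1, (Ideal.ne_top_iff_one m).1 hm.ne_top, b, by rwa [pow_zero] at e⟩
  | succ n ih =>
    intro a b e
    obtain ⟨c, hc, a', e'⟩ := h (t ^ n * a) b (by rwa [← mul_assoc, ← pow_succ'])
    obtain ⟨c', hc', a'', e''⟩ := ih (c * a) a' (by rwa [mul_left_comm])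
    exact ⟨c' * c, nm_mul hm hc' hc, a'', by rwa [mul_assoc]⟩

theorem Rg.pow_left (hI : I.IsPrime) (hm : m.IsPrime) {s t : S} (hs : s ∉ I) (h : Rg I m s t)
    (n : ℕ) : Rg I m (s ^ n) t := by
  induction n with
  | zero =>
    exact fun a b _ => ⟨1, (Ideal.ne_top_iff_one m).1 hm.ne_top, a, by simp⟩
  | succ n ih =>
    intro a b e
    obtain ⟨c, hc, a', e'⟩ := h a (s ^ n * b) (by rwa [← mul_assoc, ← pow_succ'])
    obtain ⟨c', hc', a'', e''⟩ := ih a' (c * b) ((hI.mem_or_mem (x := s) (by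
      have := sub_mem (I.mul_mem_left c e) (I.mul_mem_left t e')
      refine (congrArg (· ∈ I) ?_).mp this
      ring)).resolve_left hs)
    refine ⟨c' * c, nm_mul hm hc' hc, a'', ?_⟩
    refine (congrArg (· ∈ I) ?_).mp (add_mem (I.mul_mem_left c' e') (I.mul_mem_left s e''))
    ring

theorem LFr.tf (h : LFr I m M) (hI : I.IsPrime) {s : S} (hs : s ∉ I) {x : M} (e : s • x = 0) :
    ∃ c ∉ m, c • x = 0 := by
  obtain ⟨ρ, n, g, hg, h1, h2⟩ := h.ex
  obtain ⟨b, hb⟩ := h1 x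
  refine ⟨g, hg, hb.trans (Finset.sum_eq_zero fun j _ => h.kill _ ((hI.mem_or_mem (h2
    (fun j => s * b j) ?_ j)).resolve_left hs) _)⟩
  simp only [mul_smul, ← Finset.smul_sum, ← hb]
  rw [smul_comm, e, smul_zero]

theorem LFr.rg (h : LFr I m M) (hm : m.IsPrime) {s t : S} (r : Rg I m s t) {x y : M}
    (e : t • x = s • y) : ∃ c ∉ m, ∃ x', c • x = s • x' := by
  obtain ⟨ρ, n, g, hg, h1, h2⟩ := h.ex
  obtain ⟨a, ha⟩ := h1 x
  obtain ⟨b, hb⟩ := h1 y
  choose c hc a' h3 using fun j => r _ _ (h2 (fun j => t * a j - s * b j) (by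
    simp only [sub_smul, mul_smul, Finset.sum_sub_distrib, ← Finset.smul_sum, ← ha, ← hb]
    rw [smul_comm, e, smul_comm, sub_self]) j)
  refine ⟨(∏ j, c j) * g, nm_mul hm (fun h4 => ?_) hg,
    ∑ j, ((∏ i ∈ Finset.univ.erase j, c i) * a' j) • n j, ?_⟩
  · obtain ⟨j, -, h5⟩ := (hm.prod_mem_iff).1 h4
    exact hc j h5
  · rw [mul_smul, ha, Finset.smul_sum, Finset.smul_sum]
    refine Finset.sum_congr rfl fun j _ => ?_
    rw [smul_smul, smul_smul, ← sub_eq_zero, ← sub_smul,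
      ← Finset.prod_erase_mul _ _ (Finset.mem_univ j)]
    refine h.kill _ ((congrArg (· ∈ I) ?_).mp
      (I.mul_mem_left (∏ i ∈ Finset.univ.erase j, c i) (h3 j))) _
    ring

section koszul

variable (hI : I.IsPrime) (hm : m.IsPrime) {f : A →ₗ[S] M₀} {d₀ : M₀ →ₗ[S] M₁}
  {c : S} (hc : c ∉ m) {r : M₀ →ₗ[S] A} (hr : ∀ x, c • f x = f (r (f x))) (h0 : LFr I m M₀)
include hI hm hc hr h0

theorem kos0 {s : S} (hs : s ∉ I) {x : M₀} {y : A} (e : s • x = f y) :
    ∃ h ∉ m, ∃ y, h • x = f y := by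
  obtain ⟨h, hh, h1⟩ := h0.tf hI hs (x := c • x - f (r x)) (by
    rw [smul_sub, smul_comm, ← map_smul, ← map_smul, e, hr, sub_self])
  refine ⟨h * c, nm_mul hm hh hc, h • r x, ?_⟩
  rwa [map_smul, mul_smul, ← sub_eq_zero, ← smul_sub]

theorem kos1 (h1 : LFr I m M₁) (hd : ∀ x, d₀ (f x) = 0)
    (hx : ∀ x, d₀ x = 0 → ∃ h ∉ m, ∃ y, h • x = f y) {s t : S} (hs : s ∉ I) (hst : Rg I m s t)
    {z : M₁} {a b : M₀} (ha : s • z = d₀ a) (hb : t • z = d₀ b) : ∃ h ∉ m, ∃ y, h • z = d₀ y := by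
  obtain ⟨c1, hc1, y, e1⟩ := hx (t • a - s • b) (by
    rw [map_sub, map_smul, map_smul, ← ha, ← hb, smul_comm, sub_self])
  let e : M₀ →ₗ[S] M₀ := c • LinearMap.id - f ∘ₗ r
  have e2 : e (c1 • (t • a - s • b)) = 0 := by
    rw [e1]
    exact sub_eq_zero.2 (hr y)
  obtain ⟨c2, hc2, a', e3⟩ := h0.rg hm hst (x := c1 • e a) (y := c1 • e b) (by
    rw [map_smul, map_sub, map_smul, map_smul, smul_sub, sub_eq_zero] at e2
    rwa [smul_comm t, smul_comm s])
  have e4 : d₀ (e a) = c • s • z := by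
    rw [ha, ← map_smul]
    exact (map_sub d₀ _ _).trans (by rw [LinearMap.comp_apply, hd, sub_zero]; rfl)
  obtain ⟨c3, hc3, e5⟩ := h1.tf hI hs (x := (c2 * c1 * c) • z - d₀ a') (by
    rw [smul_sub, ← map_smul, ← e3, map_smul, map_smul, e4, smul_comm s, mul_smul, mul_smul,
      sub_self])
  refine ⟨c3 * (c2 * c1 * c), nm_mul hm hc3 (nm_mul hm (nm_mul hm hc2 hc1) hc), c3 • a', ?_⟩
  rwa [map_smul, mul_smul, ← sub_eq_zero, ← smul_sub]

end koszul

theorem unit_mem (hm : m.IsMaximal) {N : Submodule S M} {h : S} (hh : h ∉ m) {x : M}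
    (hx : ∀ a ∈ m, a • x ∈ N) (e : h • x ∈ N) : x ∈ N := by
  obtain ⟨y, a, ha, h1⟩ := hm.exists_inv hh
  rw [← one_smul S x, ← h1, add_smul, mul_smul]
  exact add_mem (N.smul_mem _ e) (hx a ha)

section top

variable (hm : m.IsMaximal) {f : M₁ →ₗ[S] M₂} {g : M₂ →ₗ[S] M₃} (h0 : ∀ x, g (f x) = 0)
  {c : S} (hc : c ∉ m) {σ : M₃ →ₗ[S] M₂} (hσ : ∀ x, c • g x = g (σ (g x)))
include hσ

theorem top_mem {𝔞 : Ideal S} {x : M₂} (hx : g x = 0) (h : x ∈ (𝔞 • ⊤ : Submodule S M₂)) :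
    c • x ∈ 𝔞 • LinearMap.ker g := by
  let π : M₂ →ₗ[S] M₂ := c • LinearMap.id - σ ∘ₗ g
  have h1 := Submodule.mem_map_of_mem (f := π) h
  rw [Submodule.map_smul''] at h1
  have h2 : π x = c • x := by
    change c • x - σ (g x) = _
    rw [hx, map_zero, sub_zero]
  refine h2 ▸ Submodule.smul_mono le_rfl ?_ h1
  rintro _ ⟨y, -, rfl⟩
  change g (c • y - σ (g y)) = 0
  rw [map_sub, map_smul, hσ, sub_self]

include hm hc

theorem top_cycle {z : M₂} (hz : g z ∈ (m • ⊤ : Submodule S M₃))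
    (hn : z ∉ LinearMap.range f ⊔ m • ⊤) : ∃ x, g x = 0 ∧ x ∉ LinearMap.range f ⊔ m • ⊤ := by
  refine ⟨c • z - σ (g z), by rw [map_sub, map_smul, hσ, sub_self], fun h => hn ?_⟩
  refine unit_mem hm hc (fun a ha => Submodule.mem_sup_right (Submodule.smul_mem_smul ha trivial))
    ?_
  have h1 := Submodule.mem_map_of_mem (f := σ) hz
  rw [Submodule.map_smul''] at h1
  rw [← sub_add_cancel (c • z) (σ (g z))]
  exact add_mem h (Submodule.mem_sup_right (Submodule.smul_mono le_rfl le_top h1))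

include h0

theorem top_gen [IsNoetherian S M₂] {z x : M₂} (hx : g x = 0) (hn : x ∉ LinearMap.range f ⊔ m • ⊤)
    (hz : ∀ w, g w = 0 → ∃ a : S, w - a • z ∈ LinearMap.range f ⊔ m • ⊤) :
    ∃ h ∉ m, ∀ w, g w = 0 → ∃ (a : S) (y : M₁), h • w = a • x + f y := by
  obtain ⟨a, ha⟩ := hz x hx
  have hk : ∀ b ∈ m, ∀ w, b • w ∈ LinearMap.range f ⊔ m • ⊤ := fun b hb w =>
    Submodule.mem_sup_right (Submodule.smul_mem_smul hb trivial)
  obtain ⟨a', b, hb, h1⟩ := hm.exists_inv (x := a) fun h => hn (by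
    rw [← sub_add_cancel x (a • z)]
    exact add_mem ha (hk a h z))
  obtain ⟨h, h2, h3⟩ := Submodule.exists_sub_one_mem_and_smul_le_of_fg_of_le_sup (I := m)
    (N := Submodule.span S {x} ⊔ LinearMap.range f) (IsNoetherian.noetherian (LinearMap.ker g))
    le_rfl fun w hw => by
      obtain ⟨a1, h4⟩ := hz w hw
      have h5 : w - (a1 * a') • x ∈ LinearMap.range f ⊔ m • ⊤ := by
        have e : w - (a1 * a') • x = w - a1 • z - (a1 * a') • (x - a • z) + b • a1 • z := by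
          rw [eq_sub_of_add_eq' h1]
          module
        rw [e]
        exact add_mem (sub_mem h4 (Submodule.smul_mem _ _ ha)) (hk b hb _)
      obtain ⟨_, ⟨y, rfl⟩, u, hu, e⟩ := Submodule.mem_sup.1 h5
      have h6 : g u = 0 := by
        rw [eq_sub_of_add_eq' e, map_sub, map_sub, map_smul, hx, h0, LinearMap.mem_ker.1 hw,
          smul_zero, sub_zero, sub_zero]
      rw [eq_add_of_sub_eq e.symm]
      refine add_mem (add_mem (Submodule.mem_sup_left (Submodule.mem_sup_right ⟨y, rfl⟩))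
        (Submodule.mem_sup_right ?_)) (Submodule.mem_sup_left (Submodule.mem_sup_left
          (Submodule.smul_mem _ _ (Submodule.mem_span_singleton_self x))))
      exact unit_mem hm hc (fun a ha => Submodule.smul_mem_smul ha h6) (top_mem hσ h6 hu)
  refine ⟨h, fun h4 => hm.ne_top ((Ideal.eq_top_iff_one m).2 ?_), fun w hw => ?_⟩
  · simpa using sub_mem h4 h2
  · obtain ⟨_, hp, _, ⟨y, rfl⟩, e⟩ := Submodule.mem_sup.1
      (h3 (Submodule.smul_mem_pointwise_smul _ _ _ hw))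
    obtain ⟨a, rfl⟩ := Submodule.mem_span_singleton.1 hp
    exact ⟨a, y, e.symm⟩

theorem top_jet {x : M₂} (hx : g x = 0) {h : S} (hh : h ∉ m)
    (hg : ∀ w, g w = 0 → ∃ (a : S) (y : M₁), h • w = a • x + f y) {𝔞 : Ideal S} {k : S}
    (hk : k • x ∈ LinearMap.range f ⊔ 𝔞 • ⊤) :
    ∃ u ∉ m, ∃ α ∈ 𝔞, ∃ y, (u * k - α) • x = f y := by
  obtain ⟨_, ⟨y, rfl⟩, w, hw, e⟩ := Submodule.mem_sup.1 hk
  have h1 : g w = 0 := by
    rw [eq_sub_of_add_eq' e, map_sub, map_smul, hx, h0, smul_zero, sub_zero]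
  have h2 : ∀ w ∈ 𝔞 • LinearMap.ker g, ∃ α ∈ 𝔞, ∃ y, h • w = α • x + f y := fun w hw => by
    refine Submodule.smul_induction_on hw (fun a ha w hw => ?_) ?_
    · obtain ⟨b, y, e⟩ := hg w hw
      exact ⟨a * b, 𝔞.mul_mem_right _ ha, a • y, by
        rw [smul_comm, e, smul_add, map_smul, mul_smul]⟩
    · rintro w w' ⟨a, ha, y, e⟩ ⟨a', ha', y', e'⟩
      exact ⟨a + a', add_mem ha ha', y + y', by
        rw [smul_add, e, e', map_add, add_smul, add_add_add_comm]⟩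
  obtain ⟨α, hα, y', e'⟩ := h2 _ (top_mem hσ h1 hw)
  refine ⟨h * c, nm_mul hm.isPrime hh hc, α, hα, (h * c) • y + y', ?_⟩
  rw [sub_smul, mul_smul, ← e, map_add, map_smul, smul_add, mul_smul h c w, e']
  abel

end top

end Vale.Agent.P287T.Fm
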