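import Vale.Agent.P287T.Fm.Lfc
import Vale.Agent.P287T.Fm.Pt3a

/-!
# Modules with fibres of constant dimension are locally free; fibrewise exact complexes are exact
-/

open CategoryTheory Limits MvPolynomial

namespace Vale.Agent.P287T.Fm

open Vale.Agent.P287Z Vale.Agent.P287Z.Gr Vale.Agent.P294.V

variable {ν : ℕ}

namespace La

variable {N : GrS ν} {I : Ideal (Sn ν)}

/-- `L` identifies `ℂ^ρ` with the fibre of `M` at `v` -/
structure Fb {M : Type} [AddCommGroup M] [Module (Sn ν) M] (v : Fin ν → ℂ) {ρ : ℕ}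
    (L : M →+ (Fin ρ → ℂ)) : Prop where
  sur : Function.Surjective L
  ker : ∀ t, L t = 0 ↔ t ∈ (mv v • ⊤ : Submodule (Sn ν) M)
  smul : ∀ g t, L (g • t) = eval v g • L t

theorem fb_of_isQ {v : Fin ν → ℂ} {ρ : ℕ} {ev : ∀ m : ℤ, N.obj ⟨m⟩ →ₗ[ℂ] (Fin ρ → ℂ)}
    (h : IsQ N (mv v) ev) : ∃ L : Tot N →+ (Fin ρ → ℂ), Fb v L := by
  let L : Tot N →+ (Fin ρ → ℂ) :=
    ((DFinsupp.lsum ℂ ev : (Π₀ m : ℤ, N.obj ⟨m⟩) →ₗ[ℂ] (Fin ρ → ℂ)).toAddMonoidHom :)
  refine ⟨L, h.1, h.2, fun g t => ?_⟩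
  have h1 : L _ = 0 := (h.2 _).2 (sub_eval_mem v g t)
  rw [map_sub, sub_eq_zero] at h1
  exact h1.trans ((congrArg L (C_smul _ t)).trans (map_smul (DFinsupp.lsum ℂ ev) _ _))

section

variable {M : Type} [AddCommGroup M] [Module (Sn ν) M] {v : Fin ν → ℂ} {ρ : ℕ}
  {L : M →+ (Fin ρ → ℂ)}

theorem Fb.sum (h : Fb v L) {σ : ℕ} (n : Fin σ → M) (b : Fin σ → Sn ν) :
    L (∑ j, b j • n j) = Fintype.linearCombination ℂ (fun j => L (n j)) fun j => eval v (b j) := by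
  simp only [map_sum, h.smul, Fintype.linearCombination_apply]

theorem Fb.surj (h : Fb v L) {σ : ℕ} {n : Fin σ → M} {g : Sn ν} (hg : g ∉ mv v)
    (hn : ∀ x, ∃ b : Fin σ → Sn ν, g • x = ∑ j, b j • n j) :
    Function.Surjective (Fintype.linearCombination ℂ fun j => L (n j)) := fun y => by
  obtain ⟨t, ht⟩ := h.sur ((eval v g)⁻¹ • y)
  obtain ⟨b, hb⟩ := hn t
  exact ⟨_, by rw [← h.sum, ← hb, h.smul, ht, smul_inv_smul₀ hg]⟩

/-- a basis of the fibre generates the module near the point -/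
theorem Fb.gen [Module.Finite (Sn ν) M] (h : Fb v L) : ∃ (n : Fin ρ → M) (g : Sn ν), g ∉ mv v ∧
    (∀ x, ∃ b : Fin ρ → Sn ν, g • x = ∑ j, b j • n j) ∧
    ∀ b : Fin ρ → Sn ν, ∑ j, b j • n j ∈ (mv v • ⊤ : Submodule (Sn ν) M) → ∀ j, b j ∈ mv v := by
  choose n hn using fun j => h.sur (Pi.single j 1)
  have h1 : ∀ b : Fin ρ → Sn ν, L (∑ j, b j • n j) = fun j => eval v (b j) := fun b => by
    simp only [map_sum, h.smul, hn, ← Pi.single_smul, smul_eq_mul, mul_one, Finset.univ_sum_single]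
  obtain ⟨g, hg, h2⟩ := Submodule.exists_sub_one_mem_and_smul_le_of_fg_of_le_sup (I := mv v)
    (N := Submodule.span (Sn ν) (Set.range n)) (Module.Finite.fg_top (R := Sn ν) (M := M)) le_rfl
    fun x _ => by
      rw [← add_sub_cancel (∑ j, (C (L x j) : Sn ν) • n j) x]
      refine Submodule.add_mem_sup (Submodule.sum_mem _ fun j _ => Submodule.smul_mem _ _
        (Submodule.subset_span ⟨j, rfl⟩)) ((h.ker _).1 ?_)
      simp only [map_sub, h1, eval_C, sub_self]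
  refine ⟨n, g, fun h3 => ?_, fun x => ?_, fun b hb j => congrFun ((h1 b).symm.trans
    ((h.ker _).2 hb)) j⟩
  · simp [mem_mv.1 h3, mem_mv] at hg
  · obtain ⟨b, hb⟩ := (Submodule.mem_span_range_iff_exists_fun _).1
      (h2 (Submodule.smul_mem_pointwise_smul x g ⊤ trivial))
    exact ⟨b, hb.symm⟩

end

theorem Pt.le {v : Fin ν → ℂ} (h : Pt I v) : I ≤ mv v := h.2.trans (ptI_le v)

variable [hI : Fact (IsHom I)]

theorem pt_of {v : Fin ν → ℂ} (h0 : v ≠ 0) (h : I ≤ mv v) : Pt I v :=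
  ⟨h0, le_ptI (ih_iff.2 hI.out) h⟩

/-- a polynomial which vanishes near a point of the cone lies in the ideal -/
theorem mem_of_pts (hp : I.IsPrime) {v : Fin ν → ℂ} (hv : Pt I v) {g b : Sn ν} (hg : g ∉ mv v)
    (h : ∀ v', Pt I v' → g ∉ mv v' → b ∈ mv v') : b ∈ I := by
  obtain ⟨i, hi⟩ := Function.ne_iff.1 hv.1
  have h1 : g * X i * b ∈ I := hp.radical ▸ nst fun v' hv' => by
    rw [map_mul, map_mul, eval_X]
    by_cases e : v' = 0
    · simp [e]
    by_cases e' : g ∈ mv v'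
    · rw [mem_mv.1 e', zero_mul, zero_mul]
    · rw [mem_mv.1 (h v' (pt_of e hv') e'), mul_zero]
  refine (hp.mem_or_mem h1).resolve_left fun h2 => nm_mul (mv_max v).isPrime hg ?_ (Pt.le hv h2)
  rwa [mem_mv, eval_X]

/-- **locally free modules are free near every point** -/
theorem lfr (hp : I.IsPrime) {v : Fin ν → ℂ} (hv : Pt I v) (A : GA I) (h : LF I A.obj) :
    LFr I (mv v) (Tot A.obj) := by
  obtain ⟨ρ, h⟩ := h
  obtain ⟨L, hL⟩ := fb_of_isQ (h v hv).choose_spec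
  obtain ⟨n, g, hg, h1, -⟩ := hL.gen
  refine ⟨fun _ => killGA A, ρ, n, g, hg, h1, fun b hb j => mem_of_pts hp hv hg fun v' hv' hg' => ?_⟩
  obtain ⟨L', hL'⟩ := fb_of_isQ (h v' hv').choose_spec
  have h2 := LinearMap.injective_iff_surjective.2 (hL'.surj hg' h1)
  exact congrFun (h2 (((hL'.sum n b).symm.trans (by rw [hb, map_zero])).trans
    (map_zero _).symm)) j

theorem not_le_of {A : GA I} (Q Q' : Submodule (Sn ν) (Tot A.obj)) {v : Fin ν → ℂ} (h0 : v ≠ 0)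
    (h : Pt I v → ¬ Q'.colon Q ≤ mv v) : ¬ Q'.colon Q ≤ mv v := fun e =>
  h (pt_of h0 fun _ hg => e (Submodule.mem_colon.2 fun t _ => killGA A hg t ▸ zero_mem _)) e

/-- from local exactness to exactness in large degrees -/
theorem exl_of_loc {A B D : GA I} (f : A ⟶ B) (g : B ⟶ D)
    (h : ∀ v, Pt I v → ∃ c ∉ mv v, ∀ t, tL g.hom t = 0 → ∃ s, c • t = tL f.hom s) : ExL f g := by
  obtain ⟨n, hn⟩ := large (Q' := LinearMap.range (tL f.hom)) (grd_ker g.hom) fun v h0 =>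
    not_le_of _ _ h0 fun hv e => by
      obtain ⟨c, hc, h1⟩ := h v hv
      exact hc (e (Submodule.mem_colon.2 fun t ht => (h1 t ht).imp fun _ => Eq.symm))
  refine ⟨n, fun a ha x hx => ?_⟩
  obtain ⟨_, ⟨s, rfl⟩, e⟩ := hn a ha (sgl _ a x) (by rw [LinearMap.mem_ker, tL_sgl, hx, map_zero])
  exact ⟨_, e.trans (cmp_sgl a x)⟩

/-- local exactness at a point where the fibre is exact -/
theorem loc_ex (hp : I.IsPrime) {A B D : GA I} {f : A ⟶ B} {g : B ⟶ D} (w : f ≫ g = 0)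
    (hB : LF I B.obj) (hD : LF I D.obj) {v : Fin ν → ℂ} (hv : Pt I v) (h : FEx f g (mv v)) :
    ∃ c ∉ mv v, ∀ t, tL g.hom t = 0 → ∃ s, c • t = tL f.hom s := by
  obtain ⟨c, hc, r, s, e⟩ := qc (mv_max v) (fun _ => killGA A) (lfr hp hv B hB) (lfr hp hv D hD)
    (f := tL f.hom) (g := tL g.hom) (tL_tL w) h
  exact ⟨c, hc, fun t ht => ⟨s t, by rw [e, ht, map_zero, zero_add]⟩⟩

end La

theorem stExg (I : Ideal (Sn ν)) [Fact (IsHom I)] : StExg I := fun hp _ _ _ f g w hB hD h =>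
  La.exl_of_loc f g fun v hv => La.loc_ex hp w hB hD hv (h v hv)

end Vale.Agent.P287T.Fm
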