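import Vale.Agent.P287T.Fm.Cx

/-!
# Block FM, step FIB: the cohomology of the fibres
-/

open CategoryTheory Limits MvPolynomial

namespace Vale.Agent.P287T.Fm

open Vale.Agent.P287Z Vale.Agent.P287Z.O.V Vale.Agent.P287T.Cy

section

variable {U V₀ V₁ V₂ : Type} [AddCommGroup U] [Module ℂ U] [AddCommGroup V₀] [Module ℂ V₀]
  [AddCommGroup V₁] [Module ℂ V₁] [AddCommGroup V₂] [Module ℂ V₂] {Z B : Submodule ℂ U}
  {a : V₀ →ₗ[ℂ] V₁} {b : V₁ →ₗ[ℂ] V₂} {Φ : Z →ₗ[ℂ] V₁}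

/-- `Φ` identifies `Z / B` with the cohomology of `a`, `b` -/
structure FibI (B : Submodule ℂ U) (a : V₀ →ₗ[ℂ] V₁) (b : V₁ →ₗ[ℂ] V₂) (Φ : Z →ₗ[ℂ] V₁) :
    Prop where
  cyc : ∀ f, b (Φ f) = 0
  sur : ∀ z, b z = 0 → ∃ f y, z = Φ f + a y
  inj : ∀ f : Z, (∃ y, Φ f = a y) ↔ (f : U) ∈ B

theorem FibI.mk_eq (h : FibI B a b Φ) (f g : Z) :
    (Submodule.Quotient.mk f : T.HQ Z B) = Submodule.Quotient.mk g ↔ ∃ y, Φ f = Φ g + a y := by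
  rw [Submodule.Quotient.eq]
  refine Iff.trans (h.inj (f - g)).symm (exists_congr fun y => ?_)
  rw [map_sub, sub_eq_iff_eq_add']

theorem FibI.sub_iff (h : FibI B a b Φ) :
    (∀ z, b z = 0 → ∃ y, z = a y) ↔ Subsingleton (T.HQ Z B) := by
  refine ⟨fun h1 => T.hq_subsingleton fun f hf => (h.inj ⟨f, hf⟩).1 (h1 _ (h.cyc _)),
    fun h1 z hz => ?_⟩
  obtain ⟨f, y, rfl⟩ := h.sur z hz
  obtain ⟨y', h2⟩ := (h.mk_eq f 0).1 (Subsingleton.elim _ _)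
  exact ⟨y' + y, by rw [h2, map_zero, zero_add, map_add]⟩

theorem FibI.le_one (h : FibI B a b Φ)
    (h1 : ∃ z, b z = 0 ∧ ∀ z', b z' = 0 → ∃ (c : ℂ) (y : _), z' = c • z + a y) :
    Module.finrank ℂ (T.HQ Z B) ≤ 1 := by
  obtain ⟨z, hz, h1⟩ := h1
  obtain ⟨f, y, rfl⟩ := h.sur z hz
  refine finrank_le_one (Submodule.Quotient.mk f) fun x => ?_
  obtain ⟨g, rfl⟩ := Submodule.Quotient.mk_surjective _ x
  obtain ⟨c, y', h2⟩ := h1 _ (h.cyc g)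
  refine ⟨c, Eq.symm ((h.mk_eq g (c • f)).2 ⟨c • y + y', ?_⟩)⟩
  rw [h2, smul_add, map_add, map_smul, map_smul, add_assoc]

theorem FibI.gen (h : FibI B a b Φ) [Module.Finite ℂ (T.HQ Z B)]
    (h1 : Module.finrank ℂ (T.HQ Z B) ≤ 1) :
    ∃ z, b z = 0 ∧ ∀ z', b z' = 0 → ∃ (c : ℂ) (y : _), z' = c • z + a y := by
  obtain ⟨x, hx⟩ := finrank_le_one_iff.1 h1
  obtain ⟨f, rfl⟩ := Submodule.Quotient.mk_surjective _ x
  refine ⟨Φ f, h.cyc f, fun z hz => ?_⟩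
  obtain ⟨g, y, rfl⟩ := h.sur z hz
  obtain ⟨c, hc⟩ := hx (Submodule.Quotient.mk g)
  obtain ⟨y', h2⟩ := (h.mk_eq g (c • f)).1 hc.symm
  exact ⟨c, y' + y, by rw [h2, map_add, map_smul, add_assoc]⟩

end

variable {ν : ℕ} {W : S6} {I : Ideal (Gr.Sn ν)}

theorem fib_ten_lin (N : O.L.GrS) : haveI := ten_add (W := W) N; (ten W N).Linear ℂ :=
  haveI := ten_add (W := W) N
  { map_smul := fun {P Q} f c => by
      refine ModuleCat.hom_ext (LinearMap.ext fun φ => LinearMap.ext fun h => ?_)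
      exact (congrArg (show Module.Dual ℂ (P.obj ⟶ dgr N) from φ)
        (Linear.smul_comp _ _ _ c f.hom h)).trans
        (map_smul (show Module.Dual ℂ (P.obj ⟶ dgr N) from φ) c _) }

variable [Fact (W.IsHomogeneous 3)]

theorem fib_mX_smul {m n : ℕ} {E : GMF W m} {F : GMF W n} {k l : ℤ} (c : ℂ)
    {f : Matrix (Fin n) (Fin m) S6} (hf : O.H962.HgT E F k l f)
    (h : O.H962.HgT E F k l (c • f)) :
    O.H962.mX (fun _ => True) (c • f) h = c • O.H962.mX (fun _ => True) f hf := by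
  refine Eq.trans ?_ (O.H962.matA_smul W c _ (hf.mask fun _ => True)
    (fun i j => O.L.hga_smul c (hf.mask (fun _ => True) i j)))
  refine O.H962.matA_congr W _ _ _ _ fun i j _ => ?_
  rw [Matrix.smul_apply]
  unfold O.L.mask
  rw [if_pos ⟨trivial, trivial⟩, if_pos ⟨trivial, trivial⟩, Matrix.smul_apply, sub_self]
  exact dvd_zero _

/-- the image of the cycle `u` under closed maps -/
noncomputable def fibP (N : O.L.GA W) {m : ℕ} (G : GMF W m)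
    (u : (ten W N.obj).obj ((O.L.TT G).X 0)) {n : ℕ} (E : GMF W n) (k : ℤ) :
    ZZ G.p G.d E.p E.d (3 * k) →ₗ[ℂ] (ten W N.obj).obj ((O.L.TT E).X k) where
  toFun f := (ten W N.obj).map (fz G E k (mem_ZZ.1 f.2).1) u
  map_add' f g := by
    have := ten_add (W := W) N.obj
    exact congrArg (fun t : _ ⟶ (ten W N.obj).obj ((O.L.TT E).X k) => t u)
      ((congrArg (ten W N.obj).map (O.H962.mX_add _ (hgT_MM0 (mem_ZZ.1 f.2).1)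
        (hgT_MM0 (mem_ZZ.1 g.2).1))).trans (ten W N.obj).map_add)
  map_smul' c f := by
    have := ten_add (W := W) N.obj
    have := fib_ten_lin (W := W) N.obj
    exact congrArg (fun t : _ ⟶ (ten W N.obj).obj ((O.L.TT E).X k) => t u)
      ((congrArg (ten W N.obj).map (fib_mX_smul c (hgT_MM0 (mem_ZZ.1 f.2).1) _)).trans
        ((ten W N.obj).map_smul c _))

theorem fib_fz_d {m n : ℕ} (G : GMF W m) (E : GMF W n) (k : ℤ) {f : Matrix (Fin n) (Fin m) S6}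
    (hf : f ∈ ZZ G.p G.d E.p E.d (3 * k)) : fz G E k (mem_ZZ.1 hf).1 ≫ (O.L.TT E).d k (k + 1) =
      (O.L.TT G).d 0 1 ≫ fm G E 1 (k + 1)
        (by rw [show 3 * (k + 1) - 3 * 1 = 3 * k by ring]; exact (mem_ZZ.1 hf).1) := by
  rw [O.H962.T_dX _ E k (k + 1) rfl, O.H962.T_dX _ G 0 1 rfl, fz, fm, O.H962.mX_comp,
    O.H962.mX_comp]
  exact O.H962.mX_congr _ (mem_ZZ.1 hf).2 _ _

theorem Rep.fibI {N : O.L.GA W} {m : ℕ} {G : GMF W m} {u : (ten W N.obj).obj ((O.L.TT G).X 0)}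
    (h : Rep N G u) {n : ℕ} (E : GMF W n) (k : ℤ) : FibI (BB G.p G.d E.p E.d (3 * k))
      (dT N E (k - 1) k).hom (dT N E k (k + 1)).hom (fibP N G u E k) where
  cyc f := by
    have h1 := congrArg (fun t => (ten W N.obj).map t u) (fib_fz_d G E k f.2)
    simp only [Functor.map_comp, ModuleCat.comp_apply] at h1
    refine h1.trans ?_
    rw [show (ten W N.obj).map ((O.L.TT G).d 0 1) u = 0 from h.cyc, map_zero]
  sur z hz := by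
    obtain ⟨f, hf, y, h1⟩ := h.sur E k z hz
    exact ⟨⟨f, hf⟩, y, h1⟩
  inj f := h.inj E k f.1 f.2

/-- **step REP** -/
theorem fib_stRep : StRep W := fun _ _ _ _ h _ E k =>
  ⟨(h.fibI E k).sub_iff, (h.fibI E k).le_one⟩

section

variable {U V₀ V₁ V₂ : Type} [AddCommGroup U] [Module ℂ U] [AddCommGroup V₀] [Module ℂ V₀]
  [AddCommGroup V₁] [Module ℂ V₁] [AddCommGroup V₂] [Module ℂ V₂] {Z B : Submodule ℂ U}
  {a : V₀ →ₗ[ℂ] V₁} {b : V₁ →ₗ[ℂ] V₂} {Φ : Z →ₗ[ℂ] V₁}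

theorem fib_nat {M N : Gr.GrS ν} (f : M ⟶ N) (e₀ : ∀ m : ℤ, M.obj ⟨m⟩ →ₗ[ℂ] V₀)
    (e₁ : ∀ m : ℤ, N.obj ⟨m⟩ →ₗ[ℂ] V₁) (h : ∀ m x, e₁ m (f.app ⟨m⟩ x) = a (e₀ m x))
    (t : Π₀ m : ℤ, M.obj ⟨m⟩) :
    DFinsupp.lsum ℂ e₁ (totL f t) = a (DFinsupp.lsum ℂ e₀ t) := by
  induction t using DFinsupp.induction with
  | h0 => simp only [map_zero]
  | ha m x t _ _ ih =>
    rw [map_add, map_add, map_add, map_add, ih, totL, DFinsupp.mapRange.linearMap_apply,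
      DFinsupp.mapRange_single, DFinsupp.lsum_single, DFinsupp.lsum_single]
    exact congrArg (· + _) (h m x)

theorem FibI.fib (hI : FibI B a b Φ) {A₀ A₁ A₂ : Gr.GA I} (f : A₀ ⟶ A₁) (g : A₁ ⟶ A₂)
    {𝔞 : Ideal (Gr.Sn ν)} {e₀ : ∀ m : ℤ, A₀.obj.obj ⟨m⟩ →ₗ[ℂ] V₀}
    {e₁ : ∀ m : ℤ, A₁.obj.obj ⟨m⟩ →ₗ[ℂ] V₁} {e₂ : ∀ m : ℤ, A₂.obj.obj ⟨m⟩ →ₗ[ℂ] V₂}
    (h₀ : IsQ A₀.obj 𝔞 e₀) (h₁ : IsQ A₁.obj 𝔞 e₁) (h₂ : IsQ A₂.obj 𝔞 e₂)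
    (ha : ∀ m x, e₁ m (f.hom.app ⟨m⟩ x) = a (e₀ m x))
    (hb : ∀ m x, e₂ m (g.hom.app ⟨m⟩ x) = b (e₁ m x)) :
    (Subsingleton (T.HQ Z B) → FEx f g 𝔞) ∧ (FEx f g 𝔞 → Subsingleton (T.HQ Z B)) ∧
    (Module.Finite ℂ (T.HQ Z B) → Module.finrank ℂ (T.HQ Z B) ≤ 1 →
      ∃ z, InI _ 𝔞 (totL g.hom z) ∧ Sp f g 𝔞 z) := by
  have h3 := fib_nat f.hom e₀ e₁ ha
  have h4 := fib_nat g.hom e₁ e₂ hb
  refine ⟨fun h t ht => ?_, fun h => hI.sub_iff.1 fun z hz => ?_, fun h h' => ?_⟩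
  · obtain ⟨y, hy⟩ := hI.sub_iff.2 h _ ((h4 t).symm.trans ((h₂.2 _).2 ht))
    obtain ⟨s, rfl⟩ := h₀.1 y
    exact ⟨s, (h₁.2 _).1 (by rw [map_sub, h3, hy, sub_self])⟩
  · obtain ⟨t, rfl⟩ := h₁.1 z
    obtain ⟨s, hs⟩ := h t ((h₂.2 _).1 ((h4 t).trans hz))
    have h5 := (h₁.2 _).2 hs
    rw [map_sub, h3, sub_eq_zero] at h5
    exact ⟨_, h5⟩
  · obtain ⟨z, hz, h5⟩ := hI.gen h'
    obtain ⟨t, rfl⟩ := h₁.1 z
    refine ⟨t, (h₂.2 _).1 ((h4 t).trans hz), fun t' ht' => ?_⟩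
    obtain ⟨c, y, hy⟩ := h5 _ ((h4 t').symm.trans ((h₂.2 _).2 ht'))
    obtain ⟨s, rfl⟩ := h₀.1 y
    exact ⟨c, s, (h₁.2 _).1 (by rw [map_sub, map_sub, h3, hy, map_smul, add_sub_cancel_left,
      sub_self])⟩

end

theorem fib_quo (hQ : StQuo W I) (K : Ker W I) {𝔞 : Ideal (Gr.Sn ν)} {Q : O.L.GA W}
    {ev : ∀ m : ℤ, K.N.obj ⟨m⟩ ⟶ Q}
    (hev : ∀ e : ℤ, IsQ (NY K.N e) 𝔞 (fun m => ((ev m).hom.app ⟨e⟩).hom)) {n : ℕ} {q : Fin n → ℤ}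
    {P : O.L.GA W} (h : P = O.L.FrA W q) :
    IsQ (K.psi.obj P).obj 𝔞 (fun m => ((tenL W (ev m).hom).app P).hom) := by
  subst h
  exact hQ K 𝔞 Q ev hev q

omit [Fact (W.IsHomogeneous 3)] in
theorem fib_tenL (K : Ker W I) {Q : O.L.GA W} (ev : ∀ m : ℤ, K.N.obj ⟨m⟩ ⟶ Q) {P P' : O.L.GA W}
    (f : P ⟶ P') (m : ℤ) (x : (K.psi.obj P).obj.obj ⟨m⟩) :
    ((tenL W (ev m).hom).app P').hom ((K.psi.map f).hom.app ⟨m⟩ x) =
      ((ten W Q.obj).map f).hom (((tenL W (ev m).hom).app P).hom x) :=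
  congr($((tenL W (ev m).hom).naturality f) x)

/-- **step FIB** -/
theorem stFib (hH : StHst W) (hQ : StQuo W I) : StFib W I := by
  rintro K 𝔞 r U ⟨Q, ⟨ev, hev⟩, hS⟩ n E k
  obtain ⟨u, hu⟩ := hH Q U hS
  exact (cx_d K E (fun f g => (Subsingleton (Hm U E k) → FEx f g 𝔞) ∧
    (FEx f g 𝔞 → Subsingleton (Hm U E k)) ∧ (Module.Finite ℂ (Hm U E k) →
      Module.finrank ℂ (Hm U E k) ≤ 1 → ∃ z, InI _ 𝔞 (totL g.hom z) ∧ Sp f g 𝔞 z)) _ _ _).2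
    ((hu.fibI E k).fib _ _ (fib_quo hQ K hev (cx_tt E _)) (fib_quo hQ K hev (cx_tt E _))
      (fib_quo hQ K hev (cx_tt E _)) (fib_tenL K ev _) (fib_tenL K ev _))

end Vale.Agent.P287T.Fm
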