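import Vale.Agent.P287T.Fm.Hst

/-!
# Block FM, dimensions from a representing cycle; `CY W` implies `W ≠ 0`
-/

open CategoryTheory Limits MvPolynomial

namespace Vale.Agent.P287T.Fm

open Vale.Agent.P287Z Vale.Agent.P287Z.O.V Vale.Agent.P287T.Cy O.H962

namespace Hs

variable {W : S6} {m n : ℕ} [Fact (W.IsHomogeneous 3)] {N : O.L.GA W} {G : GMF W m}

theorem of_rep {u : TN N G 0} (h : Rep N G u) : RepA N G 0 u where
  cyc := cy_of rfl h.cyc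
  sur E k z hz := by
    obtain ⟨f, hf, y, e⟩ := h.sur E k z (hz _)
    exact ⟨f, hgT_MM0 (mem_ZZ.1 hf).1, (mem_ZZ.1 hf).2, k - 1, y, sub_eq_iff_eq_add'.2 e⟩
  inj E k f hf hc := by
    have h1 := h.inj E k f ⟨fun a b => hg_cast (hf a b) (by ring), hc⟩
    rw [mul_zero, sub_zero]
    exact ⟨fun h2 => h1.1 (h2.ex (sub_add_cancel k 1)), fun h2 => ⟨k - 1, h1.2 h2⟩⟩

variable {E : GMF W n} {j k : ℤ}

theorem tx_smul (c : ℂ) {f : Matrix (Fin n) (Fin m) S6} (hf : HgT G E j k f)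
    (h : HgT G E j k (c • f)) (z) : tx N (c • f) h z = c • tx N f hf z :=
  (congrArg (fun t => (ten W N.obj).map t z) ((mX_eq h (hgM_of h)).trans
    ((O.L.matA_smul W c (hgM_of hf) (hgM_of h)).trans
      (congrArg (c • ·) (mX_eq hf (hgM_of hf)).symm)))).trans (ten_map_smul c _ z)

theorem tx_sub {f g : Matrix (Fin n) (Fin m) S6} (hf : HgT G E j k f) (hg : HgT G E j k g) (z) :
    tx N (f - g) (hgT_sub hf hg) z = tx N f hf z - tx N g hg z := by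
  rw [eq_sub_iff_add_eq, ← tx_add]
  exact tx_congr (sub_add_cancel f g) _ _ _

theorem Bd.smul (c : ℂ) {z} (h : Bd N E k z) : Bd N E k (c • z) := by
  obtain ⟨j, y, rfl⟩ := h
  exact ⟨j, c • y, (map_smul _ _ _).symm⟩

theorem RepA.inj0 {u} (h : RepA N G 0 u) {f} (hf : f ∈ ZZ G.p G.d E.p E.d (3 * k)) :
    Bd N E k (tx N f (hgT_MM0 (mem_ZZ.1 hf).1) u) ↔ f ∈ BB G.p G.d E.p E.d (3 * k) := by
  have h1 := h.inj E k f (hgT_MM0 (mem_ZZ.1 hf).1) (mem_ZZ.1 hf).2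
  rwa [mul_zero, sub_zero] at h1

theorem RepA.sur0 {u} (h : RepA N G 0 u) {z} (hz : Cy N E k z) :
    ∃ f, ∃ hf : f ∈ ZZ G.p G.d E.p E.d (3 * k),
      Bd N E k (z - tx N f (hgT_MM0 (mem_ZZ.1 hf).1) u) := by
  obtain ⟨f, hf, hc, hb⟩ := h.sur E k z hz
  exact ⟨f, ⟨fun a b => hg_cast (hf a b) (by ring), hc⟩, hb⟩

theorem RepA.sub_iff {u} (h : RepA N G 0 u) :
    (∀ z, Cy N E k z → Bd N E k z) ↔ Subsingleton (Hm G E k) := by
  refine ⟨fun h1 => T.hq_subsingleton fun f hf => (h.inj0 hf).1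
    (h1 _ (h.cyc.tx _ (mem_ZZ.1 hf).2)), fun h1 z hz => ?_⟩
  obtain ⟨f, hf, hb⟩ := h.sur0 hz
  have h2 := (Submodule.Quotient.mk_eq_zero _).1
    (Subsingleton.elim (Submodule.Quotient.mk ⟨f, hf⟩ : Hm G E k) 0)
  have h3 := hb.add ((h.inj0 hf).2 h2)
  rwa [sub_add_cancel] at h3

theorem RepA.le_one {u} (h : RepA N G 0 u) {z} (hz : Cy N E k z)
    (h1 : ∀ z', Cy N E k z' → ∃ c : ℂ, Bd N E k (z' - c • z)) :
    Module.finrank ℂ (Hm G E k) ≤ 1 := by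
  obtain ⟨f, hf, hb⟩ := h.sur0 hz
  refine finrank_le_one (Submodule.Quotient.mk ⟨f, hf⟩) fun w => ?_
  obtain ⟨⟨g, hg⟩, rfl⟩ := Submodule.Quotient.mk_surjective _ w
  obtain ⟨c, hc⟩ := h1 _ (h.cyc.tx (hgT_MM0 (mem_ZZ.1 hg).1) (mem_ZZ.1 hg).2)
  refine ⟨c, ?_⟩
  rw [← Submodule.Quotient.mk_smul, eq_comm, Submodule.Quotient.eq]
  have h2 := Submodule.smul_mem _ c hf
  refine (h.inj0 (Submodule.sub_mem _ hg h2)).1 ?_
  have h3 := hc.add (hb.smul c)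
  rwa [smul_sub, sub_add_sub_cancel, ← tx_smul c _ (hgT_MM0 (mem_ZZ.1 h2).1), ← tx_sub] at h3

end Hs

variable {W : S6}

/-- Serre duality fails for `W = 0` -/
theorem CY.ne (h : CY W) : W ≠ 0 := by
  rintro rfl
  let E : ℤ → GMF (0 : S6) 1 := fun a =>
    ⟨fun _ => a, 0, fun _ _ => O.L.hga_zero _, by rw [mul_zero, zero_smul]⟩
  have h1 := (h (E 0) (E 0) (-2)).2
  have h2 : Subsingleton (Hm (E 0) (E 0) (-2)) := T.hq_subsingleton fun f hf => by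
    have : f = 0 := Matrix.ext fun i j => O.L.hga_neg_eq_zero (hf.1 i j) (by
      change 3 * -2 + 0 - 0 < (0 : ℤ)
      norm_num)
    rw [this]
    exact Submodule.zero_mem _
  have h3 := (h (E 0) (E 0) (2 - -2)).1
  rw [Module.finrank_zero_of_subsingleton, eq_comm, Module.finrank_zero_iff] at h1
  have h4 : (Matrix.of fun _ _ => X 0 ^ 6 : Matrix (Fin 1) (Fin 1) S6) ∈
      ZZ (E 0).p (E 0).d (E 0).p (E 0).d (3 * (2 - -2)) := by
    refine ⟨fun i j => Hs.hg_cast ((O.L.hga_X 0).pow 6) ?_, ?_⟩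
    · change 6 • (2 : ℤ) = 3 * (2 - -2) + 0 - 0
      norm_num
    · change 0 * _ = _ * 0
      rw [zero_mul, mul_zero]
  obtain ⟨g, -, hg⟩ := (Submodule.Quotient.mk_eq_zero _).1
    (Subsingleton.elim (Submodule.Quotient.mk ⟨_, h4⟩ : Hm (E 0) (E 0) (2 - -2)) 0)
  have h5 : (X 0 ^ 6 : S6) = (0 * g + g * 0 : Matrix (Fin 1) (Fin 1) S6) 0 0 :=
    congrFun (congrFun hg 0) 0
  rw [zero_mul, mul_zero, add_zero] at h5
  exact pow_ne_zero 6 (X_ne_zero 0) h5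

end Vale.Agent.P287T.Fm
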