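import Vale.Agent.P287T.Fm.HsR

/-!
# Block FM, step HST: the cohomology of `N ⊗ T(E)` is represented by a matrix factorization
-/

open CategoryTheory Limits MvPolynomial

namespace Vale.Agent.P287T.Fm

open Vale.Agent.P287Z Vale.Agent.P287Z.O.V Vale.Agent.P287T.Cy O.H962

namespace Hs

variable {W : S6} {m n r : ℕ} {G : GMF W m} {E : GMF W n} {F : GMF W r} {j k l : ℤ}

theorem hg_tT {f : Matrix (Fin n) (Fin m) S6} {b : ℤ} (hf : HgT G E (-b) k f) (x : Fin n)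
    (y : Fin m) : Hg (-O.L.qsel E (fun _ => True) k x - O.L.qsel (dual G) (fun _ => True) b y)
      (f x y) := hg_cast (hf x y) (by
  change _ = -(E.p x - 3 * k) - (-G.p y - 3 * b)
  ring)

theorem tT_hg {f : Matrix (Fin n) (Fin m) S6} {b : ℤ} (hf : ∀ x y,
    Hg (-O.L.qsel E (fun _ => True) k x - O.L.qsel (dual G) (fun _ => True) b y) (f x y)) :
    HgT G E (-b) k f := fun x y => hg_cast (hf x y) (by
  change -(E.p x - 3 * k) - (-G.p y - 3 * b) = _
  ring)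

theorem cl_sh {f : Matrix (Fin n) (Fin m) S6} :
    Cl G (sh E k) f ↔ HgT G E 0 k f ∧ E.d * f = f * G.d :=
  and_congr_left fun _ => forall₂_congr fun x y => by
    rw [show G.p y - (sh E k).p x = 3 * k - 3 * 0 + G.p y - E.p x by
      change G.p y - (E.p x - 3 * k) = _
      ring]

theorem nh_sh {f : Matrix (Fin n) (Fin m) S6} :
    Nh G (sh E k) f ↔ f ∈ BB G.p G.d E.p E.d (3 * k - 3 * 0) :=
  exists_congr fun h => and_congr_left fun _ => forall₂_congr fun x y => by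
    rw [show G.p y - (sh E k).p x - 3 = 3 * k - 3 * 0 - 3 + G.p y - E.p x by
      change G.p y - (E.p x - 3 * k) - 3 = _
      ring]

theorem hg_sh {f : Matrix (Fin n) (Fin m) S6} {a : ℤ} (hf : HgT G E j l f)
    (h : a + 3 * k = 3 * l - 3 * j) (x : Fin n) (y : Fin m) :
    Hg (a + G.p y - (sh E k).p x) (f x y) := hg_cast (hf x y) (by
  change _ = a + G.p y - (E.p x - 3 * k)
  omega)

theorem dvd_col {f : Matrix (Fin n) (Fin m) S6} (hf : HgT G E 0 k f)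
    (h : ∀ x y, Even (E.p x - 3 * k) → Even (-G.p y - 3 * 0) → W ∣ f x y) (x : Fin n) (y : Fin m)
    (hy : Even (G.p y)) : W ∣ f x y := by
  obtain ⟨s, hs⟩ := hy
  by_cases hx : Even (E.p x - 3 * k)
  · exact h x y hx ⟨-s, by omega⟩
  · rw [O.L.hga_odd_eq_zero (hf x y) fun ⟨t, ht⟩ => hx ⟨s - t, by omega⟩]
    exact dvd_zero _

theorem hgT_sub {f g : Matrix (Fin n) (Fin m) S6} (hf : HgT G E j k f) (hg : HgT G E j k g) :
    HgT G E j k (f - g) := fun x y => O.L.hga_sub (hf x y) (hg x y)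

variable [Fact (W.IsHomogeneous 3)]

variable (G) in
/-- the projection onto the module of the dual factorization -/
noncomputable def pc : (O.L.TT (dual G)).X 0 ⟶ cok (dual G) := cokernel.π _

theorem pc_epi : Epi (pc G) := inferInstanceAs (Epi (cokernel.π _))

theorem pc_w : (O.L.TT (dual G)).d (-1) 0 ≫ pc G = 0 := cokernel.condition _

theorem pc_exact : (ShortComplex.mk _ _ (pc_w (G := G))).Exact := ShortComplex.exact_cokernel _

/-- the element given by a matrix -/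
noncomputable def tT (b : ℤ) (f : Matrix (Fin n) (Fin m) S6) (hf : HgT G E (-b) k f) :
    TN ((O.L.TT (dual G)).X b) E k := tM W _ _ f (hg_tT hf)

theorem tT_surj {b : ℤ} (z : TN ((O.L.TT (dual G)).X b) E k) : ∃ f hf, tT b f hf = z := by
  obtain ⟨f, hf, h⟩ := tM_surj (q := O.L.qsel E (fun _ => True) k)
    (r := O.L.qsel (dual G) (fun _ => True) b) z
  exact ⟨f, tT_hg hf, h⟩

theorem tT_inj {b : ℤ} {f g : Matrix (Fin n) (Fin m) S6} (hf : HgT G E (-b) k f)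
    (hg : HgT G E (-b) k g) : tT b f hf = tT b g hg ↔
      ∀ x y, Even (E.p x - 3 * k) → Even (-G.p y - 3 * b) → W ∣ f x y - g x y :=
  tM_inj (hg_tT hf) (hg_tT hg)

theorem tT_add {b : ℤ} {f g : Matrix (Fin n) (Fin m) S6} (hf : HgT G E (-b) k f)
    (hg : HgT G E (-b) k g) : tT b (f + g) (hf.add hg) = tT b f hf + tT b g hg :=
  tM_add (hg_tT hf) (hg_tT hg) _

theorem mX_eq {g : Matrix (Fin r) (Fin n) S6} (hg : HgT E F k l g)
    (h : O.L.HgM (O.L.qsel E (fun _ => True) k) (O.L.qsel F (fun _ => True) l) g) :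
    mX (fun _ => True) g hg = O.L.matA W g h := O.L.matA_congr W _ _ (O.L.mask_true g)

theorem hgM_of {W : S6} {E : GMF W n} {F : GMF W r} {g : Matrix (Fin r) (Fin n) S6}
    (hg : HgT E F k l g) :
    O.L.HgM (O.L.qsel E (fun _ => True) k) (O.L.qsel F (fun _ => True) l) g := by
  have := hg.mask (fun _ => True)
  rwa [O.L.mask_true] at this

theorem tx_tT {b : ℤ} {f : Matrix (Fin n) (Fin m) S6} (hf : HgT G E (-b) k f)
    {g : Matrix (Fin r) (Fin n) S6} (hg : HgT E F k l g) :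
    tx _ g hg (tT b f hf) = tT b (g * f) (hf.mul hg) :=
  (congrArg (fun t => (ten W _).map t (tT b f hf)) (mX_eq hg (hgM_of hg))).trans
    (tM_left (hg_tT hf) g (hgM_of hg) _)

theorem tl_tT {f : Matrix (Fin n) (Fin m) S6} (hf : HgT G E (-(-1)) k f)
    (h : HgT G E (-0) k (f * G.d)) :
    tl E k ((O.L.TT (dual G)).d (-1) 0) (tT (-1) f hf) = tT 0 (f * G.d) h :=
  (congrArg (fun t => tl E k t (tT (-1) f hf))
    (O.H319.TT_d (dual G) (by norm_num) (O.H319.hgd (dual G) (by norm_num)))).trans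
    (tM_right (hg_tT hf) G.d.transpose (O.H319.hgd (dual G) (by norm_num)) (hg_tT h))

/-- the class of a matrix -/
noncomputable def cM (f : Matrix (Fin n) (Fin m) S6) (hf : HgT G E 0 k f) :
    TN (cok (dual G)) E k := tl E k (pc G) (tT 0 f hf)

theorem cM_surj (z : TN (cok (dual G)) E k) : ∃ f hf, cM f hf = z := by
  have := pc_epi (G := G)
  obtain ⟨y, rfl⟩ := tl_onto (pc G) z
  obtain ⟨f, hf, rfl⟩ := tT_surj y
  exact ⟨f, hf, rfl⟩

theorem cM_add {f g : Matrix (Fin n) (Fin m) S6} (hf : HgT G E 0 k f) (hg : HgT G E 0 k g) :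
    cM (f + g) (hf.add hg) = cM f hf + cM g hg :=
  (congrArg (tl E k (pc G)) (tT_add (b := 0) hf hg)).trans (map_add _ _ _)

theorem cM_congr {f g : Matrix (Fin n) (Fin m) S6} (h : f = g) (hf : HgT G E 0 k f)
    (hg : HgT G E 0 k g) : cM f hf = cM g hg := by
  subst h
  rfl

theorem cM_sub {f g : Matrix (Fin n) (Fin m) S6} (hf : HgT G E 0 k f) (hg : HgT G E 0 k g) :
    cM (f - g) (hgT_sub hf hg) = cM f hf - cM g hg := by
  rw [eq_sub_iff_add_eq, ← cM_add]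
  exact cM_congr (sub_add_cancel f g) _ _

theorem tx_cM {f : Matrix (Fin n) (Fin m) S6} (hf : HgT G E 0 k f)
    {g : Matrix (Fin r) (Fin n) S6} (hg : HgT E F k l g) :
    tx _ g hg (cM f hf) = cM (g * f) (hf.mul hg) := by
  rw [cM, ← tl_tx, tx_tT]
  rfl

theorem cM_d {h : Matrix (Fin n) (Fin m) S6} (hh : HgT G E 1 k h) (hd : HgT G E 0 k (h * G.d)) :
    cM (h * G.d) hd = 0 := by
  rw [cM, ← tl_tT (f := h) hh, tl_tl, pc_w, tl_zero]

theorem cM_zero {f : Matrix (Fin n) (Fin m) S6} (hf : HgT G E 0 k f) (h : cM f hf = 0) :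
    ∃ g, HgT G E 1 k g ∧ ∀ x y, Even (G.p y) → W ∣ (f - g * G.d) x y := by
  obtain ⟨y, hy⟩ := tl_exact pc_exact _ h
  obtain ⟨g, hg, rfl⟩ := tT_surj (b := -1) y
  have hd : HgT G E 0 k (g * G.d) := (hgT_d G (k := 0) (l := 1) rfl).mul hg
  exact ⟨g, hg, dvd_col (hgT_sub hf hd)
    ((tT_inj (b := 0) hf hd).1 (hy.symm.trans (tl_tT hg hd)))⟩

theorem cM_col {f g : Matrix (Fin n) (Fin m) S6} (hf : HgT G E 0 k f) (hg : HgT G E 0 k g)
    (h : f * O.H319.pr G.p 0 = g * O.H319.pr G.p 0) : cM f hf = cM g hg := by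
  refine congrArg (tl E k (pc G)) ((tT_inj (b := 0) hf hg).2 fun x y _ ⟨s, hs⟩ => ?_)
  have h1 := congrFun (congrFun h x) y
  have h2 : Even (G.p y - 0) := ⟨-s, by omega⟩
  rw [O.H319.mul_pr, O.H319.mul_pr, if_pos h2, if_pos h2] at h1
  rw [h1, sub_self]
  exact dvd_zero _

theorem tx_one {f : Matrix (Fin n) (Fin m) S6} (hf : HgT G E 0 k f) :
    tx _ f hf (cM 1 (hgT_one G 0)) = cM f hf :=
  (tx_cM _ _).trans (cM_congr (Matrix.mul_one f) _ _)

theorem dN_cM (h : k + 1 = l) {f : Matrix (Fin n) (Fin m) S6} (hf : HgT G E 0 k f) :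
    dN _ E k l (cM f hf) = cM (E.d * f) (hf.mul (hgT_d E h)) := by
  rw [dN_eq h, tx_cM]

variable (G) in
/-- the module of the dual factorization is represented by the identity -/
theorem repA_cok (h0 : W ≠ 0) : RepA (cok (dual G)) G 0 (cM 1 (hgT_one G 0)) where
  cyc := cy_of rfl (by
    rw [dN_cM rfl, ← cM_d (hgT_one G 1) ((hgT_d G rfl).mul (hgT_one G 1))]
    exact cM_congr ((Matrix.mul_one _).trans (Matrix.one_mul _).symm) _ _)
  sur E k z hz := by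
    obtain ⟨f, hf, rfl⟩ := cM_surj z
    obtain ⟨g, hg, h⟩ := cM_zero _ ((dN_cM rfl hf).symm.trans (hz (k + 1)))
    obtain ⟨f', hc, e⟩ := O.H319.eis_lift hg6 h0 G (sh E k) f g (hg_sh hf (by ring))
      (hg_sh hg (by ring)) h
    obtain ⟨hf', hc⟩ := cl_sh.1 hc
    refine ⟨f', hf', hc, k, 0, ?_⟩
    rw [tx_one, cM_col hf' hf e, sub_self, map_zero]
  inj E k f hf hc := by
    rw [tx_one, ← nh_sh]
    constructor
    · intro h
      obtain ⟨y, hy⟩ := h.ex (sub_add_cancel k 1)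
      obtain ⟨g, hg, rfl⟩ := cM_surj y
      rw [dN_cM (sub_add_cancel k 1), ← sub_eq_zero, ← cM_sub] at hy
      obtain ⟨g', hg', h'⟩ := cM_zero _ hy
      refine O.H319.eis_null hg6 h0 G (sh E k) (cl_sh.2 ⟨hf, hc⟩) g g' (hg_sh hg (by ring))
        (hg_sh hg' (by ring)) fun x y hy => ?_
      rw [← sub_sub]
      exact h' x y hy
    · rintro ⟨h, hh, e⟩
      have h1 : HgT G E 0 (k - 1) h := fun x y => hg_cast (hh x y) (by
        change G.p y - (E.p x - 3 * k) - 3 = _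
        ring)
      have h2 : HgT G E 1 k h := hgT_shift h1 (by ring)
      have h3 : HgT G E 0 k (h * G.d) := (hgT_d G (k := 0) (l := 1) rfl).mul h2
      refine ⟨k - 1, cM h h1, ?_⟩
      rw [dN_cM (sub_add_cancel k 1), ← add_zero (cM (E.d * h) _), ← cM_d h2 h3, ← cM_add]
      exact cM_congr e _ _

theorem repA_stE (h0 : W ≠ 0) {N : O.L.GA W} (h : StE N (dual G)) : ∃ u, RepA N G 0 u := by
  obtain ⟨α, β, h1, h2⟩ := h
  exact ⟨_, (repA_cok G h0).stab h0 α β h1 h2⟩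

theorem ff_zero {M N : O.L.GA W} : FF (0 : M ⟶ N) := ⟨0, Fin.elim0, 0, 0, comp_zero.symm⟩

theorem stE_iso {N : O.L.GA W} (e : N ≅ cok E) : StE N E :=
  ⟨e.hom, e.inv, by rw [e.hom_inv_id, sub_self]; exact ff_zero,
    by rw [e.inv_hom_id, sub_self]; exact ff_zero⟩

/-- the kernel of the differential -/
theorem iso_cok (h0 : W ≠ 0) {M : O.L.GA W} (i : M ⟶ (O.L.TT E).X 1)
    (w : i ≫ (O.L.TT E).d 1 2 = 0) [Mono i] (h : (ShortComplex.mk i _ w).Exact) :
    Nonempty (M ≅ cok E) := by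
  have h1 := O.L.acySt hg6 h0 E (-1) 0 1 rfl rfl
  have h2 := O.L.acySt hg6 h0 E 0 1 2 rfl rfl
  have h3 : Mono (cokernel.desc _ ((O.L.TT E).d 0 1) ((O.L.TT E).d_comp_d (-1) 0 1)) :=
    h1.mono_cokernelDesc
  have w' : cokernel.desc _ ((O.L.TT E).d 0 1) ((O.L.TT E).d_comp_d (-1) 0 1) ≫
      (O.L.TT E).d 1 2 = 0 := by
    rw [← cancel_epi (cokernel.π _), cokernel.π_desc_assoc, (O.L.TT E).d_comp_d, comp_zero]
  have h4 : (ShortComplex.mk _ _ w').Exact := by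
    refine O.L.GA_exact_of_apply W fun a v hv => ?_
    obtain ⟨u, rfl⟩ := O.L.GA_exact_apply W h2 a v hv
    exact ⟨(cokernel.π ((O.L.TT E).d (-1) 0)).hom.app ⟨a⟩ u,
      congrArg (fun t : (O.L.TT E).X 0 ⟶ (O.L.TT E).X 1 => t.hom.app ⟨a⟩ u)
        (cokernel.π_desc _ _ ((O.L.TT E).d_comp_d (-1) 0 1))⟩
  exact ⟨h.fIsKernel.conePointUniqueUpToIso h4.fIsKernel⟩

theorem repA_all (h0 : W ≠ 0) (N : O.L.GA W) : ∃ (m : ℕ) (G : GMF W m) (u : _), RepA N G 0 u := by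
  obtain ⟨M₀, M₁, M₂, M₃, M₄, s0, s1, s2, s3, s4, n, E, i, w, hi, h⟩ := O.H503.gldSt hg6 h0 N
  obtain ⟨e⟩ := iso_cok h0 i w h
  obtain ⟨u, hu⟩ := repA_stE (G := dual E) h0 (by rw [dual_dual]; exact stE_iso e)
  obtain ⟨u5, h5⟩ := hu.shift (j := 5) (s := -5) rfl
  obtain ⟨u4, h4⟩ := h5.syz h0 s4 (j := 4) rfl
  obtain ⟨u3, h3⟩ := h4.syz h0 s3 (j := 3) rfl
  obtain ⟨u2, h2⟩ := h3.syz h0 s2 (j := 2) rfl
  obtain ⟨u1, h1⟩ := h2.syz h0 s1 (j := 1) rfl
  exact ⟨n, _, h1.syz h0 s0 (j := 0) rfl⟩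

end Hs

variable {W : S6} [Fact (W.IsHomogeneous 3)]

/-- **step HST** -/
theorem stHst (h0 : W ≠ 0) : StHst W := fun _ _ _ h => by
  obtain ⟨u, hu⟩ := Hs.repA_stE h0 h
  exact ⟨u, hu.rep⟩

/-- **step HST2** -/
theorem stHst2 (h0 : W ≠ 0) : StHst2 W := fun N => by
  obtain ⟨m, G, u, hu⟩ := Hs.repA_all h0 N
  exact ⟨m, G, u, hu.rep⟩

end Vale.Agent.P287T.Fm
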