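import Vale.Agent.P287T.Fm.Pt3b

/-!
# The complex of a point
-/

open CategoryTheory MvPolynomial

namespace Vale.Agent.P287T.Fm

open Vale.Agent.P287Z Vale.Agent.P287Z.Gr Vale.Agent.P294.V La

namespace P3

theorem uni {S M : Type} [CommRing S] [AddCommGroup M] [Module S M] {m : Ideal S} (hm : m.IsPrime)
    {Q Q' : Submodule S M} (hQ : Q.FG) (h : ∀ t ∈ Q, ∃ c ∉ m, c • t ∈ Q') :
    ∃ c ∉ m, ∀ t ∈ Q, c • t ∈ Q' := by
  induction Q, hQ using Submodule.fg_induction with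
  | singleton x =>
    obtain ⟨c, hc, e⟩ := h x (Submodule.mem_span_singleton_self x)
    refine ⟨c, hc, fun t ht => ?_⟩
    obtain ⟨a, rfl⟩ := Submodule.mem_span_singleton.1 ht
    exact smul_comm a c x ▸ Q'.smul_mem a e
  | sup A B _ _ hA hB =>
    obtain ⟨a, ha, e⟩ := hA fun t ht => h t (Submodule.mem_sup_left ht)
    obtain ⟨b, hb, e'⟩ := hB fun t ht => h t (Submodule.mem_sup_right ht)
    refine ⟨a * b, nm_mul hm ha hb, fun t ht => ?_⟩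
    obtain ⟨x, hx, y, hy, rfl⟩ := Submodule.mem_sup.1 ht
    rw [smul_add, mul_smul a b y, mul_comm, mul_smul]
    exact add_mem (Q'.smul_mem _ (e x hx)) (Q'.smul_mem _ (e' y hy))

theorem mem_sup {S M N : Type} [CommRing S] [AddCommGroup M] [Module S M] [AddCommGroup N]
    [Module S N] {f : M →ₗ[S] N} {Q : Submodule S N} {t : N} :
    t ∈ LinearMap.range f ⊔ Q ↔ ∃ s, t - f s ∈ Q :=
  ⟨fun h => by
    obtain ⟨_, ⟨s, rfl⟩, y, hy, rfl⟩ := Submodule.mem_sup.1 h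
    exact ⟨s, by rwa [add_sub_cancel_left]⟩, fun ⟨s, h⟩ =>
    Submodule.mem_sup.2 ⟨_, ⟨s, rfl⟩, _, h, add_sub_cancel _ _⟩⟩

variable {ν : ℕ} {I : Ideal (Sn ν)} {v : Fin ν → ℂ} {A B D : GA I}

theorem sp_mem {f : A ⟶ B} {g : B ⟶ D} {𝔞 : Ideal (Sn ν)} {z} (h : Sp f g 𝔞 z) :
    ∃ y : Tot B.obj, ∀ t, tL g.hom t = 0 →
      ∃ c : ℂ, t - (C c : Sn ν) • y ∈ LinearMap.range (tL f.hom) ⊔ 𝔞 • ⊤ := ⟨z, fun t ht => by
  obtain ⟨c, s, e⟩ := h t ((inI_iff (tL g.hom t)).2 (ht ▸ zero_mem _))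
  exact ⟨c, mem_sup.2 ⟨s, (congrArg (fun y => t - y - tL f.hom s ∈ _) (C_smul c z)).mpr e⟩⟩⟩

variable [Fact (IsHom I)]

/-- `g t = 0` implies `t ∈ im f` near the points off the line through `v` -/
def Off (v : Fin ν → ℂ) (f : A ⟶ B) (g : B ⟶ D) : Prop := ∀ v', Pt I v' → (∀ c : ℂ, v' ≠ c • v) →
  ∃ c ∉ mv v', ∀ t, tL g.hom t = 0 → ∃ s, c • t = tL f.hom s

theorem Off.not_le {f : A ⟶ B} {g : B ⟶ D} (h : Off v f g) {Q Q' : Submodule (Sn ν) (Tot B.obj)}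
    (hQ : Q ≤ LinearMap.ker (tL g.hom)) (hQ' : LinearMap.range (tL f.hom) ≤ Q') {v' : Fin ν → ℂ}
    (hv : ∀ c : ℂ, v' ≠ c • v) : ¬ Q'.colon Q ≤ mv v' :=
  not_le_of Q Q' (by simpa using hv 0) fun hp e => by
    obtain ⟨c, hc, h1⟩ := h v' hp hv
    exact hc (e (Submodule.mem_colon.2 fun t ht => hQ' ((h1 t (hQ ht)).imp fun _ => Eq.symm)))

theorem Off.pow {f : A ⟶ B} {g : B ⟶ D} (h : Off v f g) {p : Sn ν} (hp : p ∈ ptI v) :
    ∃ n : ℕ, ∀ t, tL g.hom t = 0 → ∃ s, p ^ n • t = tL f.hom s := by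
  obtain ⟨n, hn⟩ := nst (J := (LinearMap.range (tL f.hom)).colon (LinearMap.ker (tL g.hom)))
    (g := p) fun v' hv' => by
      by_contra h0
      refine h.not_le le_rfl le_rfl (fun c e => h0 ?_) hv'
      exact e ▸ ptI_le _ (ptI_le_smul v c hp)
  exact ⟨n, fun t ht => (Submodule.mem_colon.1 hn t ht).imp fun _ => Eq.symm⟩

theorem Off.all {f : A ⟶ B} {g : B ⟶ D} (h : Off v f g) {Q Q' : Submodule (Sn ν) (Tot B.obj)}
    (hQ : Q ≤ LinearMap.ker (tL g.hom)) (hQ' : LinearMap.range (tL f.hom) ≤ Q') (g1 : Grd Q)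
    (g2 : Grd Q') (hv : ∃ c ∉ mv v, ∀ t ∈ Q, c • t ∈ Q') (v' : Fin ν → ℂ) (h0 : v' ≠ 0) :
    ¬ Q'.colon Q ≤ mv v' := fun e => by
  refine h.not_le hQ hQ' ?_ e
  rintro c rfl
  obtain ⟨a, ha, h1⟩ := hv
  exact ha (le_mv_of_smul (ih_colon g1 g2) (fun e => h0 (by rw [e, zero_smul])) e
    (Submodule.mem_colon.2 h1))

theorem Off.exL {f : A ⟶ B} {g : B ⟶ D} (h : Off v f g)
    (hv : ∀ t, tL g.hom t = 0 → ∃ c ∉ mv v, ∃ s, c • t = tL f.hom s) : ExL f g :=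
  exl_of_loc f g fun v' hv' => by
    obtain ⟨c, h1, h2⟩ := SetLike.not_le_iff_exists.1 (h.all le_rfl le_rfl (grd_ker _)
      (grd_range _) (uni (mv_max v).isPrime (IsNoetherian.noetherian _) fun t ht =>
        (hv t ht).imp fun _ k => ⟨k.1, k.2.imp fun _ => Eq.symm⟩) v' hv'.1)
    exact ⟨c, h2, fun t ht => (Submodule.mem_colon.1 h1 t ht).imp fun _ => Eq.symm⟩

theorem split (hp : I.IsPrime) (hv : Pt I v) {f : A ⟶ B} {g : B ⟶ D} (w : f ≫ g = 0)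
    (hB : LF I B.obj) (hD : LF I D.obj) (h : FEx f g (mv v)) :
    ∃ c ∉ mv v, ∃ (r : Tot D.obj →ₗ[Sn ν] Tot B.obj) (s : Tot B.obj →ₗ[Sn ν] Tot A.obj),
      (∀ x, c • tL g.hom x = tL g.hom (r (tL g.hom x))) ∧
      ∀ x, c • tL f.hom x = tL f.hom (s (tL f.hom x)) := by
  obtain ⟨c, hc, r, s, e⟩ := qc (mv_max v) (fun _ => killGA A) (lfr hp hv B hB) (lfr hp hv D hD)
    (f := tL f.hom) (g := tL g.hom) (tL_tL w) h
  exact ⟨c, hc, r, s, fun x => by rw [← map_smul, e, map_add, tL_tL w, add_zero],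
    fun x => by rw [e, tL_tL w, map_zero, zero_add]⟩

/-- the cohomology in degree two -/
theorem top (hv : Pt I v) {f : A ⟶ B} {g : B ⟶ D} (w : f ≫ g = 0) (ho : Off v f g) {c : Sn ν}
    (hc : c ∉ mv v) {σ : Tot D.obj →ₗ[Sn ν] Tot B.obj}
    (hσ : ∀ x, c • tL g.hom x = tL g.hom (σ (tL g.hom x)))
    (h3 : ∃ z, InI _ (mv v) (totL g.hom z) ∧ NB f v z ∧ Sp f g (mv v) z)
    (h4 : ∀ t, Tg I v t → ∃ z, Sp f g (mj v t) z) :
    ∃ (a : ℤ) (x : B.obj.obj ⟨a⟩), g.hom.app ⟨a⟩ x = 0 ∧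
    NB f v (DFinsupp.single a x) ∧ ∃ n : ℤ, ∀ m ≥ n,
      (∀ z : B.obj.obj ⟨m⟩, g.hom.app ⟨m⟩ z = 0 → ∃ p y,
        Hg (2 * (m - a)) p ∧ z = act _ p a m x + f.hom.app ⟨m⟩ y) ∧
      ∀ p, Hg (2 * (m - a)) p → eval v p = 0 → ∃ y, act _ p a m x = f.hom.app ⟨m⟩ y := by
  have hm := mv_max v
  obtain ⟨z, z1, z2, z3⟩ := h3
  obtain ⟨x', x1, x2⟩ := top_cycle hm hc hσ (f := tL f.hom) (z := z) z1
    fun h => (mem_sup.1 h).elim z2
  obtain ⟨a, ha⟩ := not_forall.1 (mt mem_of_sgl x2)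
  have hx : tL g.hom (sgl _ a (cmp _ a x')) = 0 := grd_ker g.hom x' x1 a
  generalize cmp _ a x' = x at ha hx
  obtain ⟨z', z4⟩ := sp_mem z3
  obtain ⟨h, hh, hg⟩ := top_gen hm (tL_tL w) hc hσ hx ha fun t ht => (z4 t ht).elim
    fun b hb => ⟨_, hb⟩
  have gT : Grd (Ix ⊤ (sgl _ a x)) := grd_Ix (fun _ _ _ => Submodule.mem_top) a x
  have hJ : ∀ r, r ∈ (LinearMap.range (tL f.hom)).colon (Ix ⊤ (sgl _ a x)) ↔
      r • sgl _ a x ∈ LinearMap.range (tL f.hom) := fun r =>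
    ⟨fun h => Submodule.mem_colon.1 h _ ⟨1, trivial, one_smul _ _⟩, fun h =>
      Submodule.mem_colon.2 (by
        rintro _ ⟨b, -, rfl⟩
        exact (congrArg (· ∈ _) (smul_comm b r _)).mp (Submodule.smul_mem _ b h))⟩
  have hk : ∀ b ∈ mv v, b • sgl _ a x ∈ LinearMap.range (tL f.hom) ⊔ mv v • ⊤ := fun b hb =>
    Submodule.mem_sup_right (Submodule.smul_mem_smul hb trivial)
  have hle : (LinearMap.range (tL f.hom)).colon (Ix ⊤ (sgl _ a x)) ≤ mv v := fun r hr =>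
    by_contra fun h0 => ha (unit_mem hm h0 hk (Submodule.mem_sup_left ((hJ r).1 hr)))
  obtain ⟨c', hc', hl⟩ := line_le hv.1 (le_ptI (ih_colon gT (grd_range _)) hle) fun t ht => by
    by_contra h0
    obtain ⟨y, hy⟩ := sp_mem (h4 t ⟨fun p hp => ht p ((hJ p).2 (killGA B hp _ ▸ zero_mem _)),
      not_exists.1 h0⟩).choose_spec
    obtain ⟨j, hj⟩ := Function.ne_iff.1 fun e : t = 0 => h0 ⟨0, by rw [e, zero_smul]⟩
    obtain ⟨c1, e1⟩ := hy _ hx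
    obtain ⟨c2, e2⟩ := hy ((X j - C (v j) : Sn ν) • sgl _ a x)
      (by rw [map_smul, hx, smul_zero])
    have h1 : c1 ≠ 0 := by
      rintro rfl
      rw [map_zero, zero_smul, sub_zero] at e1
      obtain ⟨s, e⟩ := mem_sup.1 e1
      exact ha (mem_sup.2 ⟨s, Submodule.smul_mono_left (fun _ h => (mem_mj.1 h).1) e⟩)
    obtain ⟨u, hu, α, hα, s, e⟩ := top_jet hm (tL_tL w) hc hσ hx hh hg (𝔞 := mj v t)
      (k := C c1 * (X j - C (v j)) - C c2) (by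
        refine (congrArg (· ∈ _) ?_).mp
          (sub_mem (Submodule.smul_mem _ (C c1) e2) (Submodule.smul_mem _ (C c2) e1))
        module)
    have h2 := (hJ _).2 ⟨s, e.symm⟩
    have h3 := mem_mv.1 (hle h2)
    have h5 := ht _ h2
    rw [map_sub, map_mul, hα.1, sub_zero, mul_eq_zero, or_iff_right (mt mem_mv.2 hu)] at h3
    rw [dv_sub, hα.2, dv_mul, h3, dv_sub, dv_mul, dv_sub, dv_X, dv_C, dv_C, dv_C, eval_C] at h5
    exact mul_ne_zero hu (mul_ne_zero h1 hj) (by simpa using h5)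
  have k1 : ∀ 𝔞, Ix 𝔞 (sgl _ a x) ≤ LinearMap.ker (tL g.hom) := by
    rintro _ _ ⟨b, -, rfl⟩
    exact (map_smul _ _ _).trans (by rw [hx, smul_zero])
  obtain ⟨n1, l1⟩ := large (grd_ker g.hom) (ho.all le_rfl (le_sup_right (a := Ix ⊤ (sgl _ a x)))
    (grd_ker _) (gT.sup (grd_range _)) ⟨h, hh, fun t ht => by
      obtain ⟨b, y, e⟩ := hg t ht
      exact e ▸ Submodule.add_mem_sup ⟨b, trivial, rfl⟩ ⟨y, rfl⟩⟩)
  obtain ⟨n2, l2⟩ := large (grd_Ix (ih_ptI v) a x) (ho.all (k1 _) le_rfl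
    (grd_Ix (ih_ptI v) a x) (grd_range _) ⟨c', hc', by
      rintro _ ⟨p, hp, rfl⟩
      exact (congrArg (· ∈ _) (mul_smul c' p (sgl _ a x))).mp ((hJ _).1 (hl p hp))⟩)
  refine ⟨a, x, (cmp_sgl a _).symm.trans ((congrArg (cmp _ a) ((tL_sgl g.hom a x).symm.trans
    hx)).trans (map_zero _)), fun s hs => ha (mem_sup.2 ⟨s, hs⟩), max n1 n2,
    fun m hm => ⟨fun y hy => ?_, fun p hp h0 => ?_⟩⟩
  · obtain ⟨q, hq, e⟩ := l1 m ((le_max_left _ _).trans hm) (sgl _ m y)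
      (by rw [LinearMap.mem_ker, tL_sgl, hy, map_zero])
    obtain ⟨_, ⟨p, -, rfl⟩, _, ⟨s, rfl⟩, rfl⟩ := Submodule.mem_sup.1 hq
    refine ⟨_, cmp _ m s, hga_hpart _ p, ?_⟩
    rw [act_hpart, ← cmp_smul_sgl, ← cmp_tL, ← map_add, ← cmp_sgl m y]
    exact e.symm
  · obtain ⟨_, ⟨s, rfl⟩, e⟩ := l2 m ((le_max_right _ _).trans hm) _ ⟨p, (mem_ptI hp).2 h0, rfl⟩
    exact ⟨cmp _ m s, (cmp_smul_sgl p a m x).symm.trans e.symm⟩

end P3

open P3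

variable {ν : ℕ}

/-- **PT3** -/
theorem stPt3 (I : Ideal (Sn ν)) [Fact (IsHom I)] : StPt3 I := by
  intro hS C v hv hL h1 h2 h3 h4
  have hp := hS.prime
  have hm := (mv_max v).isPrime
  have hE : ∀ i j k : ℤ, i + 1 = j → j + 1 = k → j < 0 ∨ 2 < j →
      FEx (C.d i j) (C.d j k) (mv v) := fun i j k a b h => by
    obtain rfl : i = j - 1 := by omega
    exact b ▸ h1 j h
  have hO : ∀ i j k : ℤ, i + 1 = j → j + 1 = k → Off v (C.d i j) (C.d j k) :=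
    fun i j k a b v' hv' h => by
      obtain rfl : i = j - 1 := by omega
      exact loc_ex hp (C.d_comp_d _ _ _) (hL _) (hL _) hv' (b ▸ h2 v' hv' h j)
  obtain ⟨s, hs, t, ht, sI, st⟩ := exists_pair hS hv
  have sn : ∀ n : ℕ, s ^ n ∉ I := fun n h => sI (hp.mem_of_pow_mem n h)
  obtain ⟨c, hc, r, -, hr, -⟩ := split hp hv (C.d_comp_d _ _ _) (hL _) (hL _)
    (hE (-2) (-1) 0 rfl rfl (by omega))
  have H0 : ∀ x, tL (C.d 0 1).hom x = 0 → ∃ h ∉ mv v, ∃ y, h • x = tL (C.d (-1) 0).hom y :=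
    fun x hx => by
      obtain ⟨n, hn⟩ := (hO (-1) 0 1 rfl rfl).pow hs
      obtain ⟨y, e⟩ := hn x hx
      exact kos0 hp hm hc hr (lfr hp hv _ (hL 0)) (sn n) e
  have hX : ∀ i j k : ℤ, i + 1 = j → j + 1 = k → j ≠ 2 → ExL (C.d i j) (C.d j k) :=
    fun i j k a b h => (hO i j k a b).exL fun x hx => by
      by_cases e : j < 0 ∨ 2 < j
      · obtain ⟨c, hc, k⟩ := loc_ex hp (C.d_comp_d _ _ _) (hL _) (hL _) hv (hE i j k a b e)
        exact ⟨c, hc, k x hx⟩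
      obtain rfl | rfl : j = 0 ∨ j = 1 := by omega
      · obtain rfl : i = -1 := by omega
        obtain rfl : k = 1 := by omega
        exact H0 x hx
      · obtain rfl : i = 0 := by omega
        obtain ⟨n, hn⟩ := (hO 0 1 k a b).pow hs
        obtain ⟨n', hn'⟩ := (hO 0 1 k a b).pow ht
        obtain ⟨y, e⟩ := hn x hx
        obtain ⟨y', e'⟩ := hn' x hx
        exact kos1 hp hm hc hr (lfr hp hv _ (hL 0)) (lfr hp hv _ (hL 1))
          (tL_tL (C.d_comp_d _ _ _)) H0 (sn n) ((st.pow_left hp hm sI n).pow_right hm n') e e'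
  obtain ⟨c', hc', -, σ, -, hσ⟩ := split hp hv (C.d_comp_d _ _ _) (hL _) (hL _)
    (hE 2 3 4 rfl rfl (by omega))
  exact ⟨fun k h => hX _ _ _ (by omega) rfl h,
    top hv (C.d_comp_d _ _ _) (hO 1 2 3 rfl rfl) hc' hσ h3 h4⟩

end Vale.Agent.P287T.Fm
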