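import Vale.Agent.P287T.Fm.Ten2

/-!
# Block FM: base change for the values on free modules
-/

open CategoryTheory Limits MvPolynomial

namespace Vale.Agent.P287T.Fm

open Vale.Agent.P287Z Vale.Agent.P287Z.O.V Vale.Agent.P287T.Cy

namespace Qu

variable {ν : ℕ} {M N : Gr.GrS ν}

theorem totL_single (f : M ⟶ N) (a : ℤ) (x : M.obj ⟨a⟩) :
    totL f (DFinsupp.single a x) = DFinsupp.single a (f.app ⟨a⟩ x) :=
  DFinsupp.mapRange_single (f := fun m => ((f.app ⟨m⟩).hom : M.obj ⟨m⟩ → N.obj ⟨m⟩))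
    (hf := fun m => map_zero (f.app ⟨m⟩).hom)

theorem totL_shT (f : M ⟶ N) (μ : Fin ν →₀ ℕ) : totL f ∘ₗ shT M μ = shT N μ ∘ₗ totL f := by
  refine DFinsupp.lhom_ext fun a x => ?_
  change totL f (shT M μ (DFinsupp.single a x)) = shT N μ (totL f (DFinsupp.single a x))
  rw [shT_single M μ rfl, totL_single, totL_single, shT_single N μ rfl]
  exact congrArg _ (NatTrans.naturality_apply f _ x)

theorem actT_monomial (μ : Fin ν →₀ ℕ) (c : ℂ) : actT N (monomial μ c) = c • shT N μ :=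
  AddMonoidAlgebra.lift_single _ μ c

theorem totL_actT (f : M ⟶ N) (g : Gr.Sn ν) (t : Π₀ m : ℤ, M.obj ⟨m⟩) :
    totL f (actT M g t) = actT N g (totL f t) := by
  induction g using MvPolynomial.induction_on' with
  | monomial μ c =>
    rw [actT_monomial, actT_monomial, LinearMap.smul_apply, LinearMap.smul_apply, map_smul]
    exact congrArg _ (LinearMap.congr_fun (totL_shT f μ) t)
  | add p q hp hq => rw [map_add, map_add, LinearMap.add_apply, LinearMap.add_apply, map_add, hp, hq]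

variable {𝔞 : Ideal (Gr.Sn ν)}

theorem inI_zero : InI N 𝔞 0 := Submodule.zero_mem (𝔞 • ⊤ : Submodule (Gr.Sn ν) (Tot N))

theorem inI_add {t t' : Π₀ m : ℤ, N.obj ⟨m⟩} (h : InI N 𝔞 t) (h' : InI N 𝔞 t') :
    InI N 𝔞 (t + t') := Submodule.add_mem (𝔞 • ⊤ : Submodule (Gr.Sn ν) (Tot N)) h h'

theorem inI_act {g : Gr.Sn ν} (hg : g ∈ 𝔞) (t : Π₀ m : ℤ, N.obj ⟨m⟩) : InI N 𝔞 (actT N g t) :=
  Submodule.smul_mem_smul (N := (⊤ : Submodule (Gr.Sn ν) (Tot N))) hg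
    (Submodule.mem_top (x := (show Tot N from t)))

theorem inI_ind {p : (Π₀ m : ℤ, N.obj ⟨m⟩) → Prop} {t : Π₀ m : ℤ, N.obj ⟨m⟩} (h : InI N 𝔞 t)
    (h1 : ∀ g ∈ 𝔞, ∀ t, p (actT N g t)) (h2 : ∀ t t', p t → p t' → p (t + t')) : p t :=
  Submodule.smul_induction_on (p := fun t : Tot N => p t) h (fun g hg t _ => h1 g hg t) h2

theorem inI_map (f : M ⟶ N) {t : Π₀ m : ℤ, M.obj ⟨m⟩} (h : InI M 𝔞 t) : InI N 𝔞 (totL f t) :=
  inI_ind (p := fun t => InI N 𝔞 (totL f t)) h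
    (fun g hg t => by rw [totL_actT]; exact inI_act hg _)
    (fun t t' h h' => by rw [map_add]; exact inI_add h h')

theorem inI_sum {τ : Type} (s : Finset τ) {t : τ → Π₀ m : ℤ, N.obj ⟨m⟩}
    (h : ∀ i ∈ s, InI N 𝔞 (t i)) : InI N 𝔞 (∑ i ∈ s, t i) :=
  Finset.sum_induction t (InI N 𝔞) (fun _ _ => inI_add) inI_zero h

theorem totL_zero (t : Π₀ m : ℤ, M.obj ⟨m⟩) : totL (0 : M ⟶ N) t = 0 := by
  refine DFinsupp.ext fun m => ?_
  rfl

theorem tot_sum {τ : Type} [Fintype τ] {P : τ → Gr.GrS ν} (p : ∀ i, N ⟶ P i) (j : ∀ i, P i ⟶ N)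
    (h : ∑ i, p i ≫ j i = 𝟙 N) (t : Π₀ m : ℤ, N.obj ⟨m⟩) :
    ∑ i, totL (j i) (totL (p i) t) = t := by
  refine DFinsupp.ext fun m => ?_
  rw [DFinsupp.finsetSum_apply]
  have h1 := congrArg (fun u : N ⟶ N => u.app ⟨m⟩ (t m)) h
  simp only [NatTrans.app_sum] at h1
  exact ((Gr.sum_hom_apply _ _ (t m)).symm.trans h1)

end Qu

variable {ν : ℕ} (W : S6) (I : Ideal (Gr.Sn ν)) [Fact (W.IsHomogeneous 3)]

theorem stQuo : StQuo W I := by
  intro K 𝔞 Q ev hQ ι _ q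
  let L : (Π₀ m : ℤ, ((psi0 K.N).obj (O.L.FrA W q)).obj ⟨m⟩) →ₗ[ℂ]
      (ten W Q.obj).obj (O.L.FrA W q) :=
    DFinsupp.lsum ℂ fun m => ((tenL W (ev m).hom).app (O.L.FrA W q)).hom
  let l : ∀ e : ℤ, (Π₀ m : ℤ, (NY K.N e).obj ⟨m⟩) →ₗ[ℂ] Q.obj.obj ⟨e⟩ := fun e =>
    DFinsupp.lsum ℂ fun m => ((ev m).hom.app ⟨e⟩).hom
  have h1 : ∀ i (t : Π₀ m : ℤ, (NY K.N (-(q i / 2))).obj ⟨m⟩), L (totL (inG K.N q i) t) =
      tm (P := O.L.FrA W q) (l _ t) (O.L.gen W q i) := fun i t => by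
    induction t using DFinsupp.induction with
    | h0 =>
      rw [map_zero, map_zero, map_zero]
      exact (tm_zero_left (P := O.L.FrA W q) _).symm
    | ha m x t _ _ ih =>
      rw [map_add, map_add, map_add, ih, Qu.totL_single]
      refine Eq.trans ?_ (tm_add_left (P := O.L.FrA W q) _ _ _).symm
      refine congrArg (· + _) ((DFinsupp.lsum_single ℂ _ m _).trans ?_)
      exact (congrArg (fun y => tm (P := O.L.FrA W q) y (O.L.gen W q i))
        (DFinsupp.lsum_single ℂ (fun m => ((ev m).hom.app ⟨-(q i / 2)⟩).hom) m x)).symm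
  have h2 : ∀ t, L t = tv Q.obj q fun i => l _ (totL (prG K.N q i) t) := fun t => by
    conv_lhs => rw [← Qu.tot_sum _ _ (sum_prG_inG K.N q) t]
    rw [map_sum]
    exact Finset.sum_congr rfl fun i _ => h1 i _
  refine ⟨fun z => ?_, fun t => ?_⟩
  · obtain ⟨x, rfl⟩ := tv_surj Q q z
    choose t ht using fun i => (hQ (-(q i / 2))).1 (x i)
    refine ⟨∑ i, totL (inG K.N q i) (t i), (map_sum L _ _).trans ?_⟩
    exact Finset.sum_congr rfl fun i _ => (h1 i _).trans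
      (congrArg (fun y => tm (P := O.L.FrA W q) y (O.L.gen W q i)) (ht i))
  · change L t = 0 ↔ _
    rw [h2, tv_eq_zero Q.property.1]
    constructor
    · intro h
      rw [← Qu.tot_sum _ _ (sum_prG_inG K.N q) t]
      refine Qu.inI_sum _ fun i _ => Qu.inI_map _ ?_
      by_cases hi : Even (q i)
      · exact ((hQ _).2 _).1 (h i hi)
      · rw [prG_odd K.N q hi, Qu.totL_zero]
        exact Qu.inI_zero
    · exact fun h i _ => ((hQ _).2 _).2 (Qu.inI_map _ h)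

end Vale.Agent.P287T.Fm
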