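import Vale.Agent.P287T.Fm.Ten
import Vale.Agent.P287Z.O.H503.Kz4

/-!
# Block FM: the values of the functor on free modules
-/

open CategoryTheory Limits MvPolynomial

universe v u

namespace Vale.Agent.P287T.Fm

open Vale.Agent.P287Z Vale.Agent.P287Z.O.V Vale.Agent.P287T.Cy

theorem prop_of_fan {C : Type u} [Category.{v} C] [Abelian C] (Pr : C → Prop)
    (h1 : ∀ A B, (A ≅ B) → Pr A → Pr B) (h2 : ∀ A, IsZero A → Pr A)
    (h3 : ∀ A B, Pr A → Pr B → Pr (A ⊞ B)) {T : Type} [Fintype T] [DecidableEq T] {X : C}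
    {M : T → C} (p : ∀ t, X ⟶ M t) (i : ∀ t, M t ⟶ X) (h : ∑ t, p t ≫ i t = 𝟙 X)
    (h' : ∀ t, i t ≫ p t = 𝟙 _) (h'' : ∀ s t, s ≠ t → i s ≫ p t = 0) (hM : ∀ t, Pr (M t)) :
    Pr X := by
  let P : ObjectProperty C := Pr
  have : P.IsClosedUnderIsomorphisms := ⟨fun e h => h1 _ _ e h⟩
  have : P.ContainsZero := ⟨_, isZero_zero C, h2 _ (isZero_zero C)⟩
  have : P.IsClosedUnderBinaryProducts := ⟨by
    rintro B ⟨p⟩
    exact h1 _ _ (p.isLimit.conePointUniqueUpToIso (limit.isLimit p.diag) ≪≫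
      HasLimit.isoOfNatIso (diagramIsoPair p.diag) ≪≫ (biprod.isoProd _ _).symm).symm
      (h3 _ _ (p.prop_diag_obj _) (p.prop_diag_obj _))⟩
  have : P.IsClosedUnderFiniteProducts := ObjectProperty.IsClosedUnderFiniteProducts.mk'
  refine P.prop_of_isLimit_fan (F := Fan.mk X p) (Fan.IsLimit.mk _ (fun s => ∑ t, s.proj t ≫ i t)
    (fun s t => ?_) fun s m hm => ?_) hM
  · change (∑ t, s.proj t ≫ i t) ≫ p t = _
    rw [Preadditive.sum_comp, Finset.sum_eq_single t, Category.assoc, h', Category.comp_id]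
    · intro r _ hr
      rw [Category.assoc, h'' r t hr, comp_zero]
    · exact fun h => absurd (Finset.mem_univ t) h
  · refine (Category.comp_id m).symm.trans ((congrArg (m ≫ ·) h.symm).trans ?_)
    change m ≫ _ = ∑ t, s.proj t ≫ i t
    rw [Preadditive.comp_sum]
    exact Finset.sum_congr rfl fun t _ => by rw [← Category.assoc]; exact congrArg (· ≫ _) (hm t)

variable {ν : ℕ} {I : Ideal (Gr.Sn ν)}

theorem grA_of_sum {T : Type} [Fintype T] {M : T → Gr.GrS ν} {X : Gr.GrS ν}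
    (hM : ∀ t, Gr.grA I (M t)) (i : ∀ t, M t ⟶ X)
    (h : ∀ (a : ℤ) (z : X.obj ⟨a⟩), ∃ x : ∀ t, (M t).obj ⟨a⟩, z = ∑ t, (i t).app ⟨a⟩ (x t)) :
    Gr.grA I X := by
  refine ⟨fun f hf a b => ModuleCat.hom_ext (LinearMap.ext fun z => ?_), ?_⟩
  · obtain ⟨x, rfl⟩ := h a z
    refine (map_sum _ _ _).trans (Finset.sum_eq_zero fun t _ => ?_)
    refine (Gr.act_natural_apply (i t) f a b (x t)).symm.trans ?_
    rw [(hM t).1 f hf a b]
    exact map_zero _
  · choose n d g hg using fun t => (hM t).2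
    refine Gr.fg_of_finite (ι := Σ t, Fin (n t)) (fun p => d p.1 p.2)
      (fun p => (i p.1).app _ (g p.1 p.2)) fun a => eq_top_iff.2 fun z _ => ?_
    obtain ⟨x, rfl⟩ := h a z
    refine Submodule.sum_mem _ fun t _ => ?_
    have : Gr.gsp (M t) (d t) (g t) a ≤ (Gr.gsp X (fun p : Σ t, Fin (n t) => d p.1 p.2)
        (fun p => (i p.1).app _ (g p.1 p.2)) a).comap ((i t).app ⟨a⟩).hom := by
      refine Submodule.span_le.2 ?_
      rintro _ ⟨k, m, rfl⟩
      exact Submodule.subset_span ⟨⟨t, k⟩, m, (NatTrans.naturality_apply (i t) m (g t k)).symm⟩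
    exact this (hg t a (x t))

variable {W : S6} [Fact (W.IsHomogeneous 3)] {ι : Type} [Fintype ι]

open Classical in
/-- the coordinates of a tensor -/
noncomputable def crd0 (N : O.L.GA W) (q : ι → ℤ) (z : (ten W N.obj).obj (O.L.FrA W q)) (i : ι) :
    N.obj.obj ⟨-(q i / 2)⟩ := if Even (q i) then (tv_surj N q z).choose i else 0

theorem tv_crd0 (N : O.L.GA W) (q : ι → ℤ) (z : (ten W N.obj).obj (O.L.FrA W q)) :
    tv N.obj q (crd0 N q z) = z :=
  ((tv_eq_iff N.property.1).2 fun _ hi => if_pos hi).trans (tv_surj N q z).choose_spec.symm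

theorem crd0_tv (N : O.L.GA W) (q : ι → ℤ) (x : ∀ i, N.obj.obj ⟨-(q i / 2)⟩) {i : ι}
    (hi : Even (q i)) : crd0 N q (tv N.obj q x) i = x i :=
  (tv_eq_iff N.property.1).1 (tv_crd0 N q _) i hi

theorem crd0_odd (N : O.L.GA W) (q : ι → ℤ) (z : (ten W N.obj).obj (O.L.FrA W q)) {i : ι}
    (hi : ¬ Even (q i)) : crd0 N q z i = 0 := if_neg hi

/-- the coordinates are linear -/
noncomputable def crd (N : O.L.GA W) (q : ι → ℤ) (i : ι) :
    (ten W N.obj).obj (O.L.FrA W q) →ₗ[ℂ] N.obj.obj ⟨-(q i / 2)⟩ where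
  toFun z := crd0 N q z i
  map_add' z z' := by
    by_cases hi : Even (q i)
    · conv_lhs => rw [← tv_crd0 N q z, ← tv_crd0 N q z', ← tv_add, crd0_tv N q _ hi]
      rfl
    · rw [crd0_odd N q _ hi, crd0_odd N q _ hi, crd0_odd N q _ hi, add_zero]
  map_smul' c z := by
    by_cases hi : Even (q i)
    · conv_lhs => rw [← tv_crd0 N q z, ← tv_smul, crd0_tv N q _ hi]
      rfl
    · rw [crd0_odd N q _ hi, crd0_odd N q _ hi, smul_zero]

theorem crd_tenL {N N' : O.L.GA W} (φ : N ⟶ N') (q : ι → ℤ) (i : ι)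
    (z : (ten W N.obj).obj (O.L.FrA W q)) :
    crd N' q i ((tenL W φ.hom).app _ z) = φ.hom.app _ (crd N q i z) := by
  change crd0 N' q _ i = φ.hom.app _ (crd0 N q z i)
  by_cases hi : Even (q i)
  · conv_lhs => rw [← tv_crd0 N q z, tenL_tv, crd0_tv N' q _ hi]
  · rw [crd0_odd N q _ hi, crd0_odd N' q _ hi, map_zero]

variable (N : Gr.Dg ν ⥤ O.L.GA W)

omit [Fact (W.IsHomogeneous 3)] in
/-- tensoring with an element -/
noncomputable def inE {P : O.L.GA W} {a : ℤ} (y : P.obj.obj ⟨a⟩) : NY N (-a) ⟶ (psi0 N).obj P where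
  app m := ModuleCat.ofHom
    { toFun := fun x => tm (N := (N.obj m).obj) x y
      map_add' := fun x x' => tm_add_left x x' y
      map_smul' := fun c x => tm_smul c x y }
  naturality _ _ _ := rfl

/-- the inclusion of a summand -/
noncomputable def inG (q : ι → ℤ) (i : ι) : NY N (-(q i / 2)) ⟶ (psi0 N).obj (O.L.FrA W q) :=
  inE N (P := O.L.FrA W q) (O.L.gen W q i)

/-- the projection to a summand -/
noncomputable def prG (q : ι → ℤ) (i : ι) : (psi0 N).obj (O.L.FrA W q) ⟶ NY N (-(q i / 2)) where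
  app m := ModuleCat.ofHom (crd (N.obj m) q i)
  naturality _ _ μ := ModuleCat.hom_ext (LinearMap.ext fun z => crd_tenL (N.map μ) q i z)

theorem sum_prG_inG (q : ι → ℤ) : ∑ i, prG N q i ≫ inG N q i = 𝟙 _ := by
  refine NatTrans.ext (funext fun m => ModuleCat.hom_ext (LinearMap.ext fun z => ?_))
  rw [NatTrans.app_sum]
  exact (Gr.sum_hom_apply _ _ z).trans (tv_crd0 (N.obj m) q z)

theorem inG_prG (q : ι → ℤ) {i : ι} (hi : Even (q i)) : inG N q i ≫ prG N q i = 𝟙 _ := by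
  classical
  refine NatTrans.ext (funext fun m => ModuleCat.hom_ext (LinearMap.ext fun x => ?_))
  refine (congrArg (crd (N.obj m) q i) (tv_single q i x).symm).trans ?_
  exact (crd0_tv (N.obj m) q _ hi).trans (Pi.single_eq_same _ _)

theorem inG_prG_ne (q : ι → ℤ) {i j : ι} (h : i ≠ j) : inG N q i ≫ prG N q j = 0 := by
  classical
  refine NatTrans.ext (funext fun m => ModuleCat.hom_ext (LinearMap.ext fun x => ?_))
  refine (congrArg (crd (N.obj m) q j) (tv_single q i x).symm).trans ?_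
  by_cases hj : Even (q j)
  · exact (crd0_tv (N.obj m) q _ hj).trans (Pi.single_eq_of_ne h.symm _)
  · exact crd0_odd (N.obj m) q _ hj

theorem prG_odd (q : ι → ℤ) {i : ι} (hi : ¬ Even (q i)) : prG N q i = 0 :=
  NatTrans.ext (funext fun m => ModuleCat.hom_ext (LinearMap.ext fun z =>
    crd0_odd (N.obj m) q z hi))

variable (W I)

theorem stMem : StMem W I := fun N hN P => by
  obtain ⟨r, a, π, hπ⟩ := O.H503.exists_cover hg6 P.property.1 P.property.2
  let g : O.L.FrA W (fun i => 2 * a i) ⟶ P := ObjectProperty.homMk π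
  have hg : Epi g := O.L.GA_epi_of_surjective W g fun b v => hπ b v
  refine grA_of_sum (fun i => hN (-(2 * a i / 2)))
    (fun i => inG N (fun i => 2 * a i) i ≫ (psi0 N).map g) fun m z => ?_
  obtain ⟨z, rfl⟩ := ten_surj (N := (N.obj ⟨m⟩).obj) g z
  obtain ⟨x, rfl⟩ := tv_surj (N.obj ⟨m⟩) _ z
  exact ⟨x, map_sum _ _ _⟩

theorem stPsif : StPsif W I := fun K ι _ q Pr h1 h2 h3 h4 => by
  classical
  refine prop_of_fan Pr h1 h2 h3 (T := {i // Even (q i)}) (M := fun t => K.Y (-(q t.1 / 2)))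
    (fun t => ObjectProperty.homMk (prG K.N q t.1)) (fun t => ObjectProperty.homMk (inG K.N q t.1))
    ?_ (fun t => ObjectProperty.hom_ext _ (inG_prG K.N q t.2))
    (fun s t h => ObjectProperty.hom_ext _ (inG_prG_ne K.N q fun e => h (Subtype.ext e)))
    fun t => h4 t.1 _ (by obtain ⟨r, hr⟩ := t.2; lia)
  refine (Gr.grA I).ι.map_injective (((Gr.grA I).ι.map_sum _ _).trans ?_)
  refine Eq.trans ?_ (sum_prG_inG K.N q)
  refine (Finset.sum_subtype (p := fun i => Even (q i)) (Finset.univ.filter fun i => Even (q i))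
    (by simp) fun i => prG K.N q i ≫ inG K.N q i).symm.trans (Finset.sum_filter_of_ne fun i _ h => ?_)
  by_contra hi
  exact h (by rw [prG_odd K.N q hi, zero_comp])

end Vale.Agent.P287T.Fm
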