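import Vale.Agent.P287T.Fm.Fib
import Vale.Agent.P287T.Fm.Bdd
import Vale.Agent.P287T.Fm.Hst
import Vale.Agent.P287T.Fm.HsP
import Vale.Agent.P287T.Fm.Quo
import Vale.Agent.P287T.Fm.Ten2
import Vale.Agent.P287T.Fm.Exg
import Vale.Agent.P287T.Fm.Pt3
import Vale.Agent.P287T.Au.Alg

/-!
# Block FM: the steps FIB, PTK, BDD, SPAN without hypotheses
-/

open CategoryTheory Limits MvPolynomial

universe w

namespace Vale.Agent.P287T.Fm

open Vale.Agent.P287Z Vale.Agent.P287Z.O.V Vale.Agent.P287T.Cy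

variable {ν : ℕ} (W : S6) (I : Ideal (Gr.Sn ν)) [Fact (W.IsHomogeneous 3)]

theorem fin_fib (h0 : W ≠ 0) : StFib W I := stFib (stHst h0) (stQuo W I)

variable [Fact (IsHom I)]

theorem fin_ptk : StPtk W I := fun hC =>
  stPtk (fin_fib W I hC.ne) (stPt3 I) (stPsif I W) (stLfc I) hC

variable [HasDerivedCategory.{w} (P294Z.Coh (PI I))]

theorem fin_bdd : StBdd W I := fun hC =>
  stBdd (fin_fib W I hC.ne) (stExg I) (stPsif I W) (stLfc I) hC

theorem fin_span : StSpan W I := fun hC =>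
  bdd_stSpan (fin_fib W I hC.ne) (stExg I) (stPsif I W) (stLfc I) hC

/-- **SPAN** -/
theorem stSp : Au.StSp.{w} := fun W _ _ I _ _ => fin_span W I

end Vale.Agent.P287T.Fm
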