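import Vale.Agent.P287T.Fm.GenP

/-!
# High syzygies of graded modules on the cone over a smooth surface
-/

open CategoryTheory Limits Matrix MvPolynomial

namespace Vale.Agent.P287T.Fm.Gn

open Vale.Agent.P287Z Vale.Agent.P287Z.Gr Vale.Agent.P294.V

variable {ν : ℕ} {I : Ideal (Sn ν)}

theorem exists_dec {ι : Type} [Fintype ι] {q : ι → ℤ} (hq : ∀ l, q l = 2 * (q l / 2))
    (z : ι → Sn ν) : ∃ s : Finset ℤ, ∑ a ∈ s, (fun l => hpart (2 * a - q l) (z l)) = z := by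
  classical
  refine ⟨Finset.univ.biUnion fun l => (z l).support.image fun m => (m.degree : ℤ) + q l / 2,
    funext fun l => MvPolynomial.ext _ _ fun m => ?_⟩
  rw [Finset.sum_apply, coeff_sum]
  simp only [coeff_hpart]
  have := hq l
  rw [Finset.sum_eq_single ((m.degree : ℤ) + q l / 2) (fun a _ ha => if_neg (by lia)),
    if_pos (by lia)]
  intro h
  rw [if_pos (by lia)]
  by_contra h0
  exact h (Finset.mem_biUnion.2 ⟨l, Finset.mem_univ _,
    Finset.mem_image.2 ⟨m, mem_support_iff.2 h0, rfl⟩⟩)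

theorem hpart_sub (k : ℤ) (f g : Sn ν) : hpart k (f - g) = hpart k f - hpart k g := by
  rw [eq_sub_iff_add_eq, ← hpart_add, sub_add_cancel]

/-- **homogeneous form** -/
theorem syz_hg (hI : IH I) (hS : Surf I) (ι : ℕ → Type) [∀ j, Fintype (ι j)]
    (q : ∀ j, ι j → ℤ) (hq : ∀ j l, q j l = 2 * (q j l / 2))
    (A : ∀ j, Matrix (ι j) (ι (j + 1)) (Sn ν)) (hA : ∀ j, HgM (q (j + 1)) (q j) (A j))
    (h0 : ∀ j k l, (A j * A (j + 1)) k l ∈ I)
    (hex : ∀ j (a : ℤ) z, (∀ l, Hg (2 * a - q (j + 1) l) (z l)) → (∀ k, (A j *ᵥ z) k ∈ I) →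
      ∃ w, ∀ k, (A (j + 1) *ᵥ w - z) k ∈ I) (i : Fin ν) :
    ∃ (r : ℕ) (Ψ : Matrix (ι (ν + 1)) (ι ν) (Sn ν)),
      HgM (q ν) (fun l => q (ν + 1) l - 2 * r) Ψ ∧
      ∀ k l, (A ν * Ψ * A ν - (X i ^ r : Sn ν) • A ν) k l ∈ I := by
  obtain ⟨r, Ψ, h⟩ := syz hI hS ι A h0 (fun j z hz => by
    obtain ⟨s, hs⟩ := exists_dec (hq (j + 1)) z
    choose w hw using fun a : ℤ => hex j a (fun l => hpart (2 * a - q (j + 1) l) (z l))
      (fun l => hga_hpart _ _) fun k => by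
        have h1 := hI _ (hz k) (2 * a - q j k)
        rw [mulVec, dotProduct, hpart_sum] at h1
        rw [mulVec, dotProduct]
        refine (congrArg (· ∈ I) (Finset.sum_congr rfl fun l _ => ?_)).mp h1
        rw [hpart_mul (hA j k l), show 2 * a - q j k - (q (j + 1) l - q j k) =
          2 * a - q (j + 1) l by ring]
    refine ⟨∑ a ∈ s, w a, fun k => ?_⟩
    rw [← hs, mulVec_sum, ← Finset.sum_sub_distrib, Finset.sum_apply]
    exact I.sum_mem fun a _ => hw a k) i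
  refine ⟨r, of fun l k => hpart (q ν k - (q (ν + 1) l - 2 * r)) (Ψ l k),
    fun l k => hga_hpart _ _, fun k l => ?_⟩
  have h1 := hI _ (h k l) (2 * r + (q (ν + 1) l - q ν k))
  have h2 : Hg (2 * r + (q (ν + 1) l - q ν k)) (((X i ^ r : Sn ν) • A ν) k l) :=
    hga_mul (hg_X_pow i r rfl) (hA ν k l)
  rw [Matrix.sub_apply, hpart_sub, hpart_eq_self h2, Matrix.mul_apply, hpart_sum] at h1
  rw [Matrix.sub_apply, Matrix.mul_apply]
  refine (congrArg (fun x => x - _ ∈ I) (Finset.sum_congr rfl fun k' _ => ?_)).mp h1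
  rw [mul_comm _ (A ν k' l), hpart_mul (hA ν k' l), mul_comm (A ν k' l), Matrix.mul_apply,
    Matrix.mul_apply, hpart_sum]
  refine congrArg (· * _) (Finset.sum_congr rfl fun l' _ => ?_)
  rw [hpart_mul (hA ν k l'), of_apply]
  exact congrArg (fun x => _ * hpart x _) (by ring)

variable (I) in
/-- the twist of a free module -/
noncomputable def frTw {ι : Type} [Fintype ι] (q : ι → ℤ) (r : ℤ) :
    FrO I (fun l => q l - 2 * r) ⟶ (twS r).obj (FrO I q) where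
  app a := ModuleCat.ofHom ((frW I (fun l => q l - 2 * r) a.deg).mapQ (frW I q (a.deg + r))
    { toFun := fun v => ⟨v.1, fun l => by
        have := v.2 l
        rwa [show 2 * a.deg - (q l - 2 * r) = 2 * (a.deg + r) - q l by ring] at this⟩
      map_add' := fun _ _ => rfl
      map_smul' := fun _ _ => rfl } fun _ h => h)
  naturality a b m := by
    ext x
    obtain ⟨v, rfl⟩ := Submodule.Quotient.mk_surjective _ x
    rfl

theorem frTw_mk {ι : Type} [Fintype ι] (q : ι → ℤ) (r a : ℤ) (v : ι → Sn ν)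
    (h : ∀ l, Hg (2 * a - (q l - 2 * r)) (v l)) (h' : ∀ l, Hg (2 * (a + r) - q l) (v l)) :
    (frTw I q r).app ⟨a⟩ (FrO.mk I v h) = FrO.mk I v h' := rfl

variable [FrOK I]

/-- a matrix identity gives a factorization of `h` through a free module -/
theorem fac_of_mat {ι κ : Type} [Fintype ι] [Fintype κ] {q : ι → ℤ} {q' : κ → ℤ} {K L : GA I}
    {f : L ⟶ FrA I q} {p : FrA I q ⟶ K} {w : f ≫ p = 0} (hS : (ShortComplex.mk f p w).Exact)
    [Epi p] (p' : FrA I q' ⟶ L) [Epi p'] {A : Matrix ι κ (Sn ν)} (hA : HgM q' q A)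
    (e : matA I A hA = p' ≫ f) {r : ℤ} {h : Sn ν} (hh : Hg (2 * r) h) {Ψ : Matrix κ ι (Sn ν)}
    (hΨ : HgM q (fun l => q' l - 2 * r) Ψ) (hm : ∀ k l, (A * Ψ * A - h • A) k l ∈ I) :
    ∃ (a : K ⟶ FrA I (fun l => q l - 2 * r)) (b : FrA I (fun l => q l - 2 * r) ⟶ (twA I r).obj K),
      a ≫ b = (mulA I hh).app K := by
  classical
  have hA' : HgM (fun l => q' l - 2 * r) (fun l => q l - 2 * r) A := fun k l => by
    rw [sub_sub_sub_cancel_right]
    exact hA k l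
  have hB : HgM q (fun l => q l - 2 * r) (h • (1 : Matrix ι ι (Sn ν)) - A * Ψ) := fun k l => by
    refine hga_sub ?_ (hΨ.mul hA' k l)
    rw [Matrix.smul_apply, Matrix.one_apply]
    split_ifs with hkl
    · rw [hkl, smul_eq_mul, mul_one, sub_sub_cancel]
      exact hh
    · rw [smul_zero]
      exact hga_zero _
  have h1 : f ≫ matA I _ hB = 0 := by
    rw [← cancel_epi p', ← Category.assoc, ← e, matA_comp, comp_zero]
    refine matA_eq_zero I _ _ fun k l => ?_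
    rw [Matrix.sub_mul, Matrix.smul_mul, Matrix.one_mul, ← neg_sub]
    exact I.neg_mem (hm k l)
  refine ⟨hS.desc _ h1, (ObjectProperty.homMk (frTw I q r) :
    FrA I (fun l => q l - 2 * r) ⟶ (twA I r).obj (FrA I q)) ≫ (twA I r).map p, ?_⟩
  rw [← cancel_epi p, ← Category.assoc]
  refine (congrArg (· ≫ _) (hS.g_desc _ h1)).trans (ObjectProperty.hom_ext _ ?_)
  ext ⟨a⟩ x
  obtain ⟨v, hv, rfl⟩ := FrO.mk_surj I x
  have h2 : ∀ l, Hg (2 * (a + r) - q l) (h * v l) := fun l => hga_mul' hh (hv l) (by ring)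
  have h3 : ∀ l, Hg (2 * (a + r) - q' l) ((Ψ *ᵥ v) l) := fun l => by
    have := hΨ.mulVec hv l
    rwa [show 2 * a - (q' l - 2 * r) = 2 * (a + r) - q' l by ring] at this
  have h4 : p.hom.app ⟨a + r⟩ (FrO.mk I (A *ᵥ (Ψ *ᵥ v)) (hA.mulVec h3)) = 0 := by
    have h5 : matA I A hA ≫ p = 0 := by rw [e, Category.assoc, w, comp_zero]
    exact congr(($h5).hom.app ⟨a + r⟩ (FrO.mk I (Ψ *ᵥ v) h3))
  have h6 : ∀ l, Hg (2 * (a + r) - q l) (((h • (1 : Matrix ι ι (Sn ν)) - A * Ψ) *ᵥ v) l) :=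
    fun l => by
      have := hB.mulVec hv l
      rwa [show 2 * a - (q l - 2 * r) = 2 * (a + r) - q l by ring] at this
  change p.hom.app ⟨a + r⟩ (FrO.mk I _ h6) = act K.obj h a (a + r) (p.hom.app ⟨a⟩ (FrO.mk I v hv))
  refine (add_zero _).symm.trans ((congrArg (_ + ·) h4.symm).trans
    ((map_add (p.hom.app ⟨a + r⟩).hom _ _).symm.trans
      (Eq.trans ?_ (act_natural_apply p.hom h a (a + r) (FrO.mk I v hv)))))
  refine congrArg _ (Eq.trans ?_ (FrO.act_mk I (by rwa [add_sub_cancel_left]) hv h2).symm)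
  refine (FrO.mk_add I h6 (hA.mulVec h3) fun l => hga_add (h6 l) (hA.mulVec h3 l)).symm.trans
    (FrO.mk_congr I ?_)
  rw [sub_mulVec, mulVec_mulVec, sub_add_cancel, smul_mulVec, one_mulVec]
  rfl

/-- **the `ν`-th syzygy is locally projective** -/
theorem lp_chain (hI : IH I) (hS : Surf I) (ι : ℕ → Type) [∀ j, Fintype (ι j)]
    (q : ∀ j, ι j → ℤ) (hq : ∀ j l, q j l = 2 * (q j l / 2)) (K : ℕ → GA I)
    (f : ∀ j, K (j + 1) ⟶ FrA I (q j)) (p : ∀ j, FrA I (q j) ⟶ K j) (w : ∀ j, f j ≫ p j = 0)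
    (hK : ∀ j, (ShortComplex.mk (f j) (p j) (w j)).ShortExact) (i : Fin ν) :
    ∃ (r : ℕ) (a : K ν ⟶ FrA I (fun l => q ν l - 2 * r))
      (b : FrA I (fun l => q ν l - 2 * r) ⟶ (twA I r).obj (K ν)),
      a ≫ b = (mulA I (hg_X_pow i r rfl)).app (K ν) := by
  have hp : ∀ j, Epi (p j) := fun j => (hK j).epi_g
  have hf : ∀ j, Mono (f j) := fun j => (hK j).mono_f
  choose A hA e using fun j => matO_surj I (p (j + 1) ≫ f j).hom
  have e' : ∀ j, matA I (A j) (hA j) = p (j + 1) ≫ f j := fun j => ObjectProperty.hom_ext _ (e j)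
  obtain ⟨r, Ψ, h1, h2⟩ := syz_hg hI hS ι q hq A hA (fun j k l => by
    have h3 : matA I (A (j + 1)) (hA (j + 1)) ≫ matA I (A j) (hA j) = 0 := by
      rw [e', e', Category.assoc, reassoc_of% w (j + 1), zero_comp, comp_zero]
    rw [matA_comp] at h3
    exact (matO_eq_zero_iff I _ _).1 congr(($h3).hom) k l (hq _ l)) (fun j a z hz h => by
    have h3 : (f j).hom.app ⟨a⟩ ((p (j + 1)).hom.app ⟨a⟩ (FrO.mk I z hz)) = 0 :=
      congr(($(e' j)).hom.app ⟨a⟩ (FrO.mk I z hz)).symm.trans ((FrO.mk_eq_zero I).2 h)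
    obtain ⟨u, hu⟩ := GA_exact_apply I (hK (j + 1)).exact a (FrO.mk I z hz)
      (GA_app_injective I (f j) a (h3.trans (map_zero _).symm))
    obtain ⟨x, rfl⟩ := GA_app_surjective I (p (j + 2)) a u
    obtain ⟨y, hy, rfl⟩ := FrO.mk_surj I x
    exact ⟨y, (FrO.mk_eq I).1 (congr(($(e' (j + 1))).hom.app ⟨a⟩ (FrO.mk I y hy)).trans hu)⟩) i
  exact ⟨r, fac_of_mat (hK ν).exact (p (ν + 1)) (hA ν) (e' ν) _ h1 h2⟩

end Vale.Agent.P287T.Fm.Gn
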