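import Vale.Agent.P287T.Fm.St
import Vale.Agent.P287T.Fm.GenG
import Vale.Agent.P287T.Sv.Lp

/-!
# Block FM: step GEN
-/

open CategoryTheory Limits MvPolynomial

universe w

namespace Vale.Agent.P287T.Fm

open Vale.Agent.P287Z Vale.Agent.P287Z.Gr

variable {ν : ℕ} {I : Ideal (Sn ν)}

/-- `M(r)(-r) → M` -/
noncomputable def genTw (r : ℤ) (M : GA I) : (twA I (-r)).obj ((twA I r).obj M) ⟶ M :=
  ObjectProperty.homMk
    { app := fun a => M.obj.map (⟨0, by simp⟩ : (⟨a.deg + -r + r⟩ : Dg ν) ⟶ ⟨a.deg⟩)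
      naturality := fun a b m => by
        refine (M.obj.map_comp _ _).symm.trans (Eq.trans ?_ (M.obj.map_comp _ _))
        exact congrArg M.obj.map (Subtype.ext (add_comm m.1 0)) }

theorem gen_lp {M : GA I} (h : ∀ i, ∃ (r : ℕ) (P : GA I) (a : M ⟶ P) (b : P ⟶ (twA I r).obj M),
    Projective P ∧ a ≫ b = (mulA I (hg_X_pow i r rfl)).app M) : Sv.LP M := fun i => by
  obtain ⟨r, P, a, b, hP, e⟩ := h i
  refine ⟨r, _, (twA I (-r)).map a, (twA I (-r)).map b ≫ genTw r M,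
    ((twA I (-r)).asEquivalence.map_projective_iff P).2 hP, ?_⟩
  rw [← Category.assoc, ← Functor.map_comp, e]
  refine ObjectProperty.hom_ext _ ?_
  ext ⟨c⟩ x
  refine (map_act (M := M.obj) (X i ^ r) (hg_X_pow i r (by ring)) 0 (c := c) (by simp) x).trans ?_
  exact congrArg (fun g => act M.obj g (c + -r) c x) (one_mul _)

variable [Fact (IsHom I)]

theorem gen_sz (hS : Surf I) : Sv.Sz I ν := fun r d K f p w hK => gen_lp fun i =>
  let ⟨s, a, b, e⟩ := Gn.lp_chain (ih I) hS (fun j => Fin (r j)) (fun j k => 2 * d j k)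
    (fun _ _ => by lia) K f p w hK i
  ⟨s, _, a, b, Sv.proj_free _, e⟩

theorem gen_iso (d : ℤ) : Nonempty (Fr I d ≅ Sv.O1 I (2 * d)) :=
  ⟨⟨Sv.prj (fun _ : Fin 1 => 2 * d) 0, Sv.inc (fun _ : Fin 1 => 2 * d) 0,
    (Fin.sum_univ_one _).symm.trans (Sv.sum_prj_inc fun _ : Fin 1 => 2 * d),
    Sv.inc_prj (fun _ : Fin 1 => 2 * d) 0⟩⟩

variable (I) [HasDerivedCategory.{w} (P294Z.Coh (PI I))]

theorem stGen : StGen I := by
  intro hS m₀ 𝒯 hT hr h
  let P : ObjectProperty (DerivedCategory (P294Z.Coh (PI I))) := 𝒯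
  have : P.IsStableUnderRetracts := ⟨fun r hY => hr _ _ r.i r.r r.retract hY⟩
  have : P.IsTriangulated :=
    { exists_zero := ⟨_, isZero_zero _, hT.zero _ (isZero_zero _)⟩
      isStableUnderShiftBy := fun a => ⟨fun X hX => hT.shift X a hX⟩
      ext₂' := fun T hd h1 h3 => P.le_isoClosure _ (hT.ext₂ T hd h1 h3) }
  exact Sv.gen_of_sz (𝒯 := P) (piI I)
    (fun d hd => Sv.Ht.iso (h d hd) ((piI I).mapIso (gen_iso d).some)) (gen_sz hS)

end Vale.Agent.P287T.Fm
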