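import Vale.Agent.P287T.Fm.GenG

/-!
# Every graded module has a locally projective syzygy
-/

open CategoryTheory Limits Matrix MvPolynomial

namespace Vale.Agent.P287T.Fm.Gn

open Vale.Agent.P287Z Vale.Agent.P287Z.Gr Vale.Agent.P294.V

variable {ν : ℕ} {I : Ideal (Sn ν)}

/-- undoing a twist -/
noncomputable def unTw (r : ℤ) (M : GrS ν) : (twS (-r)).obj ((twS r).obj M) ⟶ M where
  app a := M.map (⟨0, by simp⟩ : (⟨a.deg + -r + r⟩ : Dg ν) ⟶ a)
  naturality a b m := by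
    refine (M.map_comp _ _).symm.trans (Eq.trans ?_ (M.map_comp _ _))
    exact congrArg M.map (Subtype.ext ((add_zero m.1).trans (zero_add m.1).symm))

theorem unTw_app (r : ℤ) (M : GrS ν) (a : ℤ) (x : M.obj ⟨a + -r + r⟩) :
    (unTw r M).app ⟨a⟩ x = act M 1 (a + -r + r) a x := by
  refine Eq.trans ?_ (congr($(act_monomial M 0 1 (a + -r + r) a) x)).symm
  rw [one_smul]
  exact (mon_apply_of_eq 0 (by simp) x).symm

variable [FrOK I]

theorem proj_fr {ι : Type} [Fintype ι] {q : ι → ℤ} {M N : GA I} (f : FrA I q ⟶ N) (p : M ⟶ N)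
    [Epi p] : ∃ g : FrA I q ⟶ M, g ≫ p = f := by
  choose x hx using fun i => GA_app_surjective I p (q i / 2) (f.hom.app _ (gen I q i))
  refine ⟨ObjectProperty.homMk (desc M.property.1 x),
    ObjectProperty.hom_ext _ (FrO.hom_ext I fun i hi => ?_)⟩
  exact (congrArg (p.hom.app ⟨q i / 2⟩) (desc_gen M.property.1 x i hi)).trans (hx i)

theorem lift_of_fac {ι : Type} [Fintype ι] {q : ι → ℤ} {K F : GA I} (p : F ⟶ K) [Epi p] {r : ℤ}
    {h : Sn ν} (hh : Hg (2 * r) h) (a : K ⟶ FrA I q) (b : FrA I q ⟶ (twA I r).obj K)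
    (e : a ≫ b = (mulA I hh).app K) : ∃ σ : (twA I (-r)).obj K ⟶ F, ∀ (c : ℤ) x,
      p.hom.app ⟨c⟩ (σ.hom.app ⟨c⟩ x) = act K.obj h (c + -r) c x := by
  obtain ⟨g, hg⟩ := proj_fr b ((twA I r).map p)
  refine ⟨(twA I (-r)).map (a ≫ g) ≫ (ObjectProperty.homMk (unTw r F.obj) :
    (twA I (-r)).obj ((twA I r).obj F) ⟶ F), fun c x => ?_⟩
  have h1 : (a ≫ g) ≫ (twA I r).map p = (mulA I hh).app K := by rw [Category.assoc, hg, e]
  have h2 : p.hom.app ⟨c + -r + r⟩ ((a ≫ g).hom.app ⟨c + -r⟩ x) =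
      act K.obj h (c + -r) (c + -r + r) x := congr(($h1).hom.app ⟨c + -r⟩ x)
  refine (congrArg (p.hom.app ⟨c⟩) (unTw_app r F.obj c ((a ≫ g).hom.app ⟨c + -r⟩ x))).trans
    ((act_natural_apply p.hom 1 _ _ _).trans ((congrArg (act K.obj 1 (c + -r + r) c) h2).trans ?_))
  refine (act_mul_apply (M := K.obj) (f := h) 1 (a := c + -r) (b := c + -r + r)
    (by rwa [add_sub_cancel_left]) c x).symm.trans ?_
  rw [mul_one]

/-- one step of a free resolution -/
structure Cov (M : GA I) where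
  n : ℕ
  q : Fin n → ℤ
  ev : ∀ l, q l = 2 * (q l / 2)
  p : FrA I q ⟶ M
  epi : Epi p

theorem Cov.ne (hI : IH I) (M : GA I) : Nonempty (Cov M) := by
  obtain ⟨n, q, hq, p, hp⟩ := Chart.exists_free hI M.property
  exact ⟨⟨n, q, hq, ObjectProperty.homMk p, (grA I).ι.epi_of_epi_map hp⟩⟩

/-- the syzygies -/
noncomputable def syzK (hI : IH I) (M : GA I) : ℕ → GA I
  | 0 => M
  | j + 1 => kernel (Cov.ne hI (syzK hI M j)).some.p

/-- **every module has a free resolution whose `ν`-th syzygy is locally projective** -/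
theorem exists_lp (hI : IH I) (hS : Surf I) (M : GA I) :
    ∃ (K : ℕ → GA I) (n : ℕ → ℕ) (q : ∀ j, Fin (n j) → ℤ) (f : ∀ j, K (j + 1) ⟶ FrA I (q j))
      (p : ∀ j, FrA I (q j) ⟶ K j) (w : ∀ j, f j ≫ p j = 0), K 0 = M ∧
      (∀ j, (ShortComplex.mk (f j) (p j) (w j)).ShortExact) ∧ (∀ j l, q j l = 2 * (q j l / 2)) ∧
      ∀ i, ∃ (r : ℕ) (σ : (twA I (-r)).obj (K ν) ⟶ FrA I (q ν)), ∀ (c : ℤ) x,
        (p ν).hom.app ⟨c⟩ (σ.hom.app ⟨c⟩ x) = act (K ν).obj (X i ^ r) (c + -r) c x := by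
  let C : ∀ j, Cov (syzK hI M j) := fun j => (Cov.ne hI _).some
  have hK : ∀ j, (ShortComplex.mk (kernel.ι (C j).p) (C j).p (kernel.condition _)).ShortExact :=
    fun j => have := (C j).epi; { exact := ShortComplex.exact_kernel _ }
  refine ⟨syzK hI M, fun j => (C j).n, fun j => (C j).q, fun j => kernel.ι (C j).p,
    fun j => (C j).p, fun j => kernel.condition _, rfl, hK, fun j => (C j).ev, fun i => ?_⟩
  obtain ⟨r, a, b, e⟩ := lp_chain hI hS (fun j => Fin (C j).n) (fun j => (C j).q)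
    (fun j => (C j).ev) (syzK hI M) (fun j => kernel.ι (C j).p) (fun j => (C j).p)
    (fun j => kernel.condition _) hK i
  have := (C ν).epi
  exact ⟨r, lift_of_fac (C ν).p _ a b e⟩

end Vale.Agent.P287T.Fm.Gn
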