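import Vale.Agent.P299.R.Reg
import Mathlib.LinearAlgebra.Matrix.NonsingularInverse
import Mathlib.LinearAlgebra.Matrix.ToLin
import Mathlib.LinearAlgebra.Basis.VectorSpace
import Mathlib.RingTheory.KrullDimension.Basic
import Mathlib.RingTheory.LocalRing.ResidueField.Basic

/-!
# High syzygies over a regular local ring split (matrix form)
-/

open IsLocalRing Matrix

namespace Vale.Agent.P287T.Fm.Gn

/-- in every exact chain of matrices the `n`-th one has a generalized inverse -/
def Gl (R : Type) [CommRing R] (n : ℕ) : Prop :=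
  ∀ (ι : ℕ → Type) [∀ j, Fintype (ι j)] (A : ∀ j, Matrix (ι j) (ι (j + 1)) R),
    (∀ j, A j * A (j + 1) = 0) → (∀ j z, A j *ᵥ z = 0 → ∃ w, A (j + 1) *ᵥ w = z) →
    ∃ Ψ : Matrix (ι (n + 1)) (ι n) R, A n * Ψ * A n = A n

theorem ginv_field {K : Type} [Field K] {ι κ : Type} [Fintype ι] [Fintype κ]
    (A : Matrix ι κ K) : ∃ Ψ : Matrix κ ι K, A * Ψ * A = A := by
  classical
  obtain ⟨g, hg⟩ := (toLin' A).rangeRestrict.exists_rightInverse_of_surjective
    (LinearMap.range_rangeRestrict _)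
  obtain ⟨p, hp⟩ := (LinearMap.range (toLin' A)).subtype.exists_leftInverse_of_injective
    (Submodule.ker_subtype _)
  refine ⟨LinearMap.toMatrix' (g ∘ₗ p), toLin'.injective ?_⟩
  rw [toLin'_mul, toLin'_mul, toLin'_toMatrix']
  refine LinearMap.ext fun z => ?_
  have h1 : p (toLin' A z) = ⟨toLin' A z, z, rfl⟩ := LinearMap.congr_fun hp ⟨toLin' A z, z, rfl⟩
  change toLin' A (g (p (toLin' A z))) = toLin' A z
  rw [h1]
  exact congrArg Subtype.val (LinearMap.congr_fun hg ⟨toLin' A z, z, rfl⟩)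

variable {R : Type} [CommRing R]

theorem fac {ι κ μ ρ : Type} [Fintype κ] [Fintype μ] {A : Matrix ι κ R} {B : Matrix κ μ R}
    (h : ∀ z, A *ᵥ z = 0 → ∃ w, B *ᵥ w = z) {C : Matrix κ ρ R} (hC : A * C = 0) :
    ∃ D, B * D = C := by
  choose w hw using fun l => h (fun i => C i l) (funext fun i => congrFun (congrFun hC i) l)
  exact ⟨of fun k l => w l k, Matrix.ext fun i l => congrFun (hw l) i⟩

theorem unit_one_add [IsLocalRing R] {x : R} (hx : x ∈ maximalIdeal R) {ι : Type} [Fintype ι]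
    [DecidableEq ι] (D : Matrix ι ι R) : IsUnit (1 + x • D).det := by
  rw [← residue_ne_zero_iff_isUnit, RingHom.map_det]
  have h : (residue R).mapMatrix (1 + x • D) = 1 := by
    rw [map_add, map_one, add_eq_left]
    ext i j
    change residue R (x * D i j) = 0
    rw [map_mul, (residue_eq_zero_iff x).2 hx, zero_mul]
  rw [h, det_one]
  exact one_ne_zero

theorem smul_cancel {x : R} (hx : ∀ a, x * a = 0 → a = 0) {ι κ : Type} {C : Matrix ι κ R}
    (h : x • C = 0) : C = 0 := Matrix.ext fun i j => hx _ (congrFun (congrFun h i) j)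

theorem Gl.step [IsLocalRing R] {R' : Type} [CommRing R'] (φ : R →+* R')
    (hφ : Function.Surjective φ) {x : R} (hm : x ∈ maximalIdeal R) (hx : ∀ a, x * a = 0 → a = 0)
    (hk : ∀ a, φ a = 0 ↔ ∃ b, x * b = a) {n : ℕ} (h : Gl R' n) : Gl R (n + 1) := by
  classical
  intro ι _ A h0 hex
  obtain ⟨Ψ', hΨ'⟩ := h (fun j => ι (j + 1)) (fun j => (A (j + 1)).map φ)
    (fun j => by rw [← Matrix.map_mul, h0, Matrix.map_zero _ (map_zero φ)]) (fun j z' hz' => by
      choose z hz using fun i => hφ (z' i)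
      have h1 : z' = φ ∘ z := funext fun i => (hz i).symm
      choose w hw using fun i => (hk ((A (j + 1) *ᵥ z) i)).1 (by
        rw [RingHom.map_mulVec, ← h1, hz']; rfl)
      have h2 : x • w = A (j + 1) *ᵥ z := funext hw
      obtain ⟨w', hw'⟩ := hex j w (funext fun i => hx _ (by
        have h3 : A j *ᵥ (x • w) = 0 := by rw [h2, mulVec_mulVec, h0, zero_mulVec]
        rw [mulVec_smul] at h3
        exact congrFun h3 i))
      obtain ⟨y, hy⟩ := hex (j + 1) (z - x • w') (by
        rw [mulVec_sub, mulVec_smul, hw', h2, sub_self])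
      refine ⟨φ ∘ y, funext fun i => ?_⟩
      rw [← RingHom.map_mulVec, hy, Pi.sub_apply, map_sub, hz, Pi.smul_apply, smul_eq_mul,
        (hk _).2 ⟨_, rfl⟩, sub_zero])
  choose Ψ hΨ using fun i j => hφ (Ψ' i j)
  have h1 : Ψ' = (of Ψ).map φ := Matrix.ext fun i j => (hΨ i j).symm
  rw [h1, ← Matrix.map_mul, ← Matrix.map_mul] at hΨ'
  choose C hC using fun i j => (hk ((A (n + 1) * of Ψ * A (n + 1) - A (n + 1)) i j)).1 (by
    rw [Matrix.sub_apply, map_sub, sub_eq_zero]
    exact congrFun (congrFun hΨ' i) j)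
  have h2 : x • of C = A (n + 1) * of Ψ * A (n + 1) - A (n + 1) := Matrix.ext hC
  obtain ⟨D, hD⟩ := fac (hex n) (C := of C) (smul_cancel hx (by
    rw [← Matrix.mul_smul, h2, Matrix.mul_sub, Matrix.mul_assoc, ← Matrix.mul_assoc, h0,
      Matrix.zero_mul, sub_self]))
  obtain ⟨D', hD'⟩ := fac (hex (n + 1)) (C := D * A (n + 2)) (smul_cancel hx (by
    rw [← Matrix.mul_assoc, hD, ← Matrix.smul_mul, h2, Matrix.sub_mul, Matrix.mul_assoc, h0,
      Matrix.mul_zero, sub_self]))
  have h3 : A (n + 1) * (1 + x • D) = A (n + 1) * of Ψ * A (n + 1) := by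
    rw [Matrix.mul_add, Matrix.mul_one, Matrix.mul_smul, hD, h2, add_sub_cancel]
  obtain ⟨E, hE⟩ := fac (hex (n + 1)) (C := of Ψ * A (n + 1) - (1 + x • D)) (by
    rw [Matrix.mul_sub, h3, Matrix.mul_assoc, sub_self])
  have h4 : (1 + x • D) * A (n + 2) = A (n + 2) * (1 + x • D') := by
    rw [Matrix.mul_add, Matrix.add_mul, Matrix.mul_one, Matrix.one_mul, Matrix.mul_smul,
      Matrix.smul_mul, hD']
  have h5 : (1 + x • D)⁻¹ * A (n + 2) = A (n + 2) * (1 + x • D')⁻¹ := by
    rw [← Matrix.mul_nonsing_inv_cancel_right _ ((1 + x • D)⁻¹ * A (n + 2)) (unit_one_add hm D'),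
      Matrix.mul_assoc _ (A (n + 2)), ← h4, Matrix.nonsing_inv_mul_cancel_left _ _
        (unit_one_add hm D)]
  refine ⟨(1 + x • D)⁻¹ * of Ψ, ?_⟩
  have h6 : of Ψ * A (n + 1) = A (n + 2) * E + (1 + x • D) := by rw [hE, sub_add_cancel]
  rw [Matrix.mul_assoc, Matrix.mul_assoc, h6, Matrix.mul_add, ← Matrix.mul_assoc _ (A (n + 2)), h5,
    Matrix.nonsing_inv_mul _ (unit_one_add hm D), Matrix.mul_add, Matrix.mul_one,
    Matrix.mul_assoc, ← Matrix.mul_assoc, h0, Matrix.zero_mul, zero_add]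

/-- **finite global dimension of regular local rings** -/
theorem gl_reg (n : ℕ) : ∀ (R : Type) [CommRing R] [IsRegularLocalRing R],
    ringKrullDim R ≤ n → Gl R n := by
  have hf : ∀ (R : Type) [CommRing R] [IsLocalRing R], maximalIdeal R = ⊥ → ∀ n, Gl R n := by
    intro R _ _ h n ι _ A _ _
    let := (isField_iff_maximalIdeal_eq.2 h).toField
    exact ginv_field (A n)
  induction n with
  | zero =>
    intro R _ _ h
    rw [← P299.R.dim_eq] at h
    have h1 : (maximalIdeal R).spanFinrank ≤ 0 := by exact_mod_cast h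
    exact hf R ((Submodule.spanFinrank_eq_zero_iff_eq_bot (IsNoetherian.noetherian _)).1
      (Nat.le_zero.1 h1)) 0
  | succ n ih =>
    intro R _ _ h
    by_cases h0 : maximalIdeal R = ⊥
    · exact hf R h0 _
    have hdom : IsDomain R := P299.R.isDomain R
    obtain ⟨x, hx, hx2, -⟩ := P299.R.exists_notMem_sq_notMem_minimal h0
    obtain ⟨hreg, hdim⟩ := P299.R.regular_quotient hx hx2
    have hx0 : x ≠ 0 := by
      rintro rfl
      exact hx2 (Ideal.zero_mem _)
    refine Gl.step (Ideal.Quotient.mk (Ideal.span {x})) Ideal.Quotient.mk_surjective hx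
      (fun a ha => (mul_eq_zero.1 ha).resolve_left hx0) (fun a => ?_) (ih _ ?_)
    · rw [Ideal.Quotient.eq_zero_iff_mem, Ideal.mem_span_singleton]
      exact ⟨fun ⟨b, hb⟩ => ⟨b, hb.symm⟩, fun ⟨b, hb⟩ => ⟨b, hb.symm⟩⟩
    · rw [← hdim, ← P299.R.dim_eq] at h
      rw [← P299.R.dim_eq]
      have h1 : (maximalIdeal (R ⧸ Ideal.span {x})).spanFinrank + 1 ≤ n + 1 := by exact_mod_cast h
      exact_mod_cast Nat.le_of_succ_le_succ h1

/-- the quotient by elements which are independent in the cotangent space is regular -/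
theorem reg_quot : ∀ (c : ℕ) (S : Type) [CommRing S] [IsRegularLocalRing S]
    (f : Fin c → S), (∀ i, f i ∈ maximalIdeal S) →
    (∀ a : Fin c → S, ∑ i, a i * f i ∈ maximalIdeal S ^ 2 → ∀ i, a i ∈ maximalIdeal S) →
    ∀ (R : Type) [CommRing R] (φ : S →+* R), Function.Surjective φ →
      RingHom.ker φ = Ideal.span (Set.range f) → IsRegularLocalRing R := by
  intro c
  induction c with
  | zero =>
    intro S _ _ f _ _ R _ φ hφ hk
    rw [Set.range_eq_empty f, Ideal.span_empty] at hk
    exact IsRegularLocalRing.of_ringEquiv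
      (RingEquiv.ofBijective φ ⟨(RingHom.injective_iff_ker_eq_bot φ).2 hk, hφ⟩)
  | succ c ih =>
    intro S _ _ f hf hind R _ φ hφ hk
    have h0 : f 0 ∉ maximalIdeal S ^ 2 := by
      intro h
      have h1 := hind (Pi.single 0 1) (by
        rwa [Finset.sum_eq_single 0 (fun i _ hi => by rw [Pi.single_eq_of_ne hi, zero_mul])
          (fun h => absurd (Finset.mem_univ _) h), Pi.single_eq_same, one_mul]) 0
      rw [Pi.single_eq_same] at h1
      exact (maximalIdeal.isMaximal S).ne_top ((Ideal.eq_top_iff_one _).2 h1)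
    obtain ⟨hreg, -⟩ := P299.R.regular_quotient (hf 0) h0
    set π := Ideal.Quotient.mk (Ideal.span {f 0}) with hπ
    have hsurj : Function.Surjective π := Ideal.Quotient.mk_surjective
    have hmax : (maximalIdeal S).map π = maximalIdeal (S ⧸ Ideal.span {f 0}) :=
      map_maximalIdeal_of_surjective _ hsurj
    have hker : RingHom.ker π = Ideal.span {f 0} := Ideal.mk_ker
    have hle : Ideal.span {f 0} ≤ RingHom.ker φ := by
      rw [hk]
      exact Ideal.span_mono (Set.singleton_subset_iff.2 ⟨0, rfl⟩)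
    refine ih (S ⧸ Ideal.span {f 0}) (fun i => π (f i.succ))
      (fun i => hmax ▸ Ideal.mem_map_of_mem π (hf i.succ)) ?_ R
      (Ideal.Quotient.lift _ φ fun a ha => hle ha)
      (Ideal.Quotient.lift_surjective_of_surjective _ _ hφ) ?_
    · intro a ha i
      choose b hb using fun j => hsurj (a j)
      have h3 : π (∑ j, b j * f j.succ) ∈ (maximalIdeal S ^ 2).map π := by
        rw [Ideal.map_pow, hmax, map_sum]
        simpa only [map_mul, hb] using ha
      rw [← Ideal.mem_comap, Ideal.comap_map_of_surjective π hsurj, ← RingHom.ker_eq_comap_bot,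
        hker] at h3
      obtain ⟨y, hy, z, hz, hyz⟩ := Submodule.mem_sup.1 h3
      obtain ⟨e, rfl⟩ := Ideal.mem_span_singleton'.1 hz
      have h4 := hind (Fin.cons (-e) b) (by
        rw [Fin.sum_univ_succ]
        simp only [Fin.cons_zero, Fin.cons_succ]
        rw [← hyz]
        have : -e * f 0 + (y + e * f 0) = y := by ring
        rw [this]
        exact hy) i.succ
      simp only [Fin.cons_succ] at h4
      rw [← hb i, ← hmax]
      exact Ideal.mem_map_of_mem π h4
    · rw [Ideal.ker_quotient_lift, hk, Ideal.map_span, ← Set.range_comp, Fin.range_fin_succ,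
        Ideal.span_insert]
      have h5 : (π ∘ f) 0 = 0 := Ideal.Quotient.eq_zero_iff_mem.2 (Ideal.mem_span_singleton_self _)
      rw [h5, Ideal.span_singleton_zero, bot_sup_eq]
      rfl

end Vale.Agent.P287T.Fm.Gn
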