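import Vale.Agent.P287T.Fm.GenL
import Vale.Agent.P287T.Fm.Defs
import Mathlib.RingTheory.RegularLocalRing.Polynomial
import Mathlib.RingTheory.KrullDimension.Polynomial
import Mathlib.RingTheory.Nullstellensatz

/-!
# High syzygies on the cone over a smooth surface (matrix form)
-/

open IsLocalRing Matrix MvPolynomial

namespace Vale.Agent.P287T.Fm.Gn

open Vale.Agent.P287Z

section

variable {P R : Type} [CommRing P] [CommRing R] {φ : P →+* R} {I : Ideal P} {M : Submonoid P}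

theorem den (hs : ∀ r, ∃ s ∈ M, ∃ a, φ s * r = φ a) {α : Type} [Fintype α] (r : α → R) :
    ∃ s ∈ M, ∃ a : α → P, ∀ i, φ s * r i = φ (a i) := by
  classical
  choose s hs a ha using fun i => hs (r i)
  refine ⟨∏ i, s i, M.prod_mem fun i _ => hs i, fun i => (∏ j ∈ Finset.univ.erase i, s j) * a i,
    fun i => ?_⟩
  rw [← Finset.prod_erase_mul _ _ (Finset.mem_univ i), map_mul, map_mul, mul_assoc, ha]

theorem kil (hk : ∀ a, φ a = 0 ↔ ∃ t ∈ M, t * a ∈ I) {α : Type} [Fintype α] (a : α → P)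
    (h : ∀ i, φ (a i) = 0) : ∃ t ∈ M, ∀ i, t * a i ∈ I := by
  classical
  choose t ht h' using fun i => (hk _).1 (h i)
  refine ⟨∏ i, t i, M.prod_mem fun i _ => ht i, fun i => ?_⟩
  rw [← Finset.prod_erase_mul _ _ (Finset.mem_univ i), mul_assoc]
  exact I.mul_mem_left _ (h' i)

theorem loc_abs (hu : ∀ s ∈ M, IsUnit (φ s)) (hs : ∀ r, ∃ s ∈ M, ∃ a, φ s * r = φ a)
    (hk : ∀ a, φ a = 0 ↔ ∃ t ∈ M, t * a ∈ I) {n : ℕ} (hG : Gl R n)
    (ι : ℕ → Type) [∀ j, Fintype (ι j)] (A : ∀ j, Matrix (ι j) (ι (j + 1)) P)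
    (h0 : ∀ j k l, (A j * A (j + 1)) k l ∈ I)
    (hex : ∀ j z, (∀ k, (A j *ᵥ z) k ∈ I) → ∃ w, ∀ k, (A (j + 1) *ᵥ w - z) k ∈ I) :
    ∃ g ∈ M, ∃ Ψ : Matrix (ι (n + 1)) (ι n) P, ∀ k l, (A n * Ψ * A n - g • A n) k l ∈ I := by
  have hI : ∀ a ∈ I, φ a = 0 := fun a ha => (hk a).2 ⟨1, M.one_mem, by rwa [one_mul]⟩
  obtain ⟨Ψ', hΨ'⟩ := hG ι (fun j => (A j).map φ)
    (fun j => by
      rw [← Matrix.map_mul]
      exact Matrix.ext fun k l => hI _ (h0 j k l)) (fun j z' hz' => by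
      obtain ⟨s, hs', a, ha⟩ := den hs z'
      have h1 : φ ∘ a = φ s • z' := funext fun i => (ha i).symm
      obtain ⟨t, ht, h2⟩ := kil hk (A j *ᵥ a) fun k => by
        rw [RingHom.map_mulVec, h1, mulVec_smul, hz', smul_zero]
        rfl
      obtain ⟨w, hw⟩ := hex j (t • a) fun k => by
        rw [mulVec_smul]
        exact h2 k
      obtain ⟨u, hu'⟩ := (hu _ (M.mul_mem ht hs')).exists_left_inv
      refine ⟨u • (φ ∘ w), funext fun k => ?_⟩
      have h3 := hI _ (hw k)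
      rw [Pi.sub_apply, map_sub, sub_eq_zero, RingHom.map_mulVec] at h3
      rw [mulVec_smul, Pi.smul_apply, h3, Pi.smul_apply, smul_eq_mul, smul_eq_mul, map_mul, ← ha,
        ← mul_assoc (φ t), ← map_mul, ← mul_assoc, hu', one_mul])
  obtain ⟨s, hs', a, ha⟩ := den hs fun x : ι (n + 1) × ι n => Ψ' x.1 x.2
  have h1 : (of fun i j => a (i, j)).map φ = φ s • Ψ' := Matrix.ext fun i j => (ha (i, j)).symm
  obtain ⟨t, ht, h2⟩ := kil hk
    (fun x : ι n × ι (n + 1) => (A n * (of fun i j => a (i, j)) * A n - s • A n) x.1 x.2)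
    fun x => by
      have h3 : (A n * (of fun i j => a (i, j)) * A n).map φ = φ s • (A n).map φ := by
        rw [Matrix.map_mul, Matrix.map_mul, h1, Matrix.mul_smul, Matrix.smul_mul, hΨ']
      rw [Matrix.sub_apply, map_sub, sub_eq_zero, Matrix.smul_apply, smul_eq_mul, map_mul]
      exact congrFun (congrFun h3 x.1) x.2
  refine ⟨t * s, M.mul_mem ht hs', t • of fun i j => a (i, j), fun k l => ?_⟩
  rw [Matrix.mul_smul, Matrix.smul_mul, mul_smul, ← smul_sub]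
  exact h2 (k, l)

end

variable {ν : ℕ} {I : Ideal (Gr.Sn ν)}

theorem mv_prime (v : Fin ν → ℂ) : (mv v).IsPrime := RingHom.ker_isPrime _

theorem pd_sq {v : Fin ν → ℂ} (j : Fin ν) {y : Gr.Sn ν} (hy : y ∈ mv v ^ 2) :
    eval v (pderiv j y) = 0 := by
  rw [pow_two] at hy
  refine Submodule.mul_induction_on hy (fun a ha b hb => ?_) (fun a b ha hb => ?_)
  · rw [Derivation.leibniz, smul_eq_mul, smul_eq_mul, map_add, map_mul, map_mul,
      show eval v a = 0 from ha, show eval v b = 0 from hb, zero_mul, zero_mul, add_zero]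
  · rw [map_add, map_add, ha, hb, add_zero]

theorem pt_eval {v : Fin ν → ℂ} (hv : Pt I v) {f : Gr.Sn ν} (hf : f ∈ I) : eval v f = 0 := by
  rw [← sum_homogeneousComponent f, map_sum]
  exact Finset.sum_eq_zero fun n _ => hv.2 hf n

/-- the local ring of the cone at a point is regular -/
theorem exists_loc (hS : Surf I) {v : Fin ν → ℂ} (hv : Pt I v) :
    ∃ (R : Type) (_ : CommRing R) (_ : IsRegularLocalRing R) (φ : Gr.Sn ν →+* R),
      ringKrullDim R ≤ ν ∧ (∀ s, eval v s ≠ 0 → IsUnit (φ s)) ∧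
      (∀ r, ∃ s, eval v s ≠ 0 ∧ ∃ a, φ s * r = φ a) ∧
      ∀ a, φ a = 0 ↔ ∃ t, eval v t ≠ 0 ∧ t * a ∈ I := by
  obtain ⟨c, g, h, -, hg, hli, hh, hI⟩ := hS.jac v hv
  have := mv_prime v
  let S := Localization.AtPrime (mv v)
  let ι := algebraMap (Gr.Sn ν) S
  have hmax : (mv v).map ι = maximalIdeal S := Localization.AtPrime.map_eq_maximalIdeal
  have hu : ∀ s, eval v s ≠ 0 → IsUnit (ι s) := fun s hs =>
    IsLocalization.map_units S (⟨s, hs⟩ : (mv v).primeCompl)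
  have hs : ∀ r : S, ∃ s ∈ (mv v).primeCompl, ∃ a, ι s * r = ι a := fun r => by
    obtain ⟨⟨a, s⟩, e⟩ := IsLocalization.surj (mv v).primeCompl r
    exact ⟨s, s.2, a, by rw [mul_comm]; exact e⟩
  refine ⟨S ⧸ I.map ι, inferInstance, reg_quot c S (fun k => ι (g k))
    (fun k => hmax ▸ Ideal.mem_map_of_mem ι (pt_eval hv (hg k))) (fun a ha k => ?_) _
    (Ideal.Quotient.mk _) Ideal.Quotient.mk_surjective ?_, (Ideal.Quotient.mk _).comp ι, ?_,
    fun s hs => (hu s hs).map (Ideal.Quotient.mk (I.map ι)), fun r => ?_, fun a => ?_⟩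
  · obtain ⟨s, hs', b, hb⟩ := den hs a
    have h1 : ι (∑ k, b k * g k) ∈ (mv v ^ 2).map ι := by
      rw [Ideal.map_pow, hmax, map_sum]
      simp only [map_mul, ← hb, mul_assoc, ← Finset.mul_sum]
      exact Ideal.mul_mem_left _ _ ha
    obtain ⟨t, ht, h2⟩ := (IsLocalization.algebraMap_mem_map_algebraMap_iff (mv v).primeCompl S _
      _).1 h1
    have h3 : eval v (b k) = 0 := by
      refine Fintype.linearIndependent_iff.1 hli (fun k => eval v (b k)) (funext fun j => ?_) k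
      have h4 := pd_sq j h2
      simp only [Derivation.leibniz, smul_eq_mul, map_add, map_mul, map_sum, pt_eval hv (hg _),
        mul_zero, zero_mul, add_zero, Finset.sum_const_zero] at h4
      rw [Finset.sum_apply]
      exact (mul_eq_zero.1 h4).resolve_left ht
    refine ((maximalIdeal.isMaximal S).isPrime.mem_or_mem (x := ι s) ?_).resolve_left
      fun h5 => (mem_maximalIdeal _).1 h5 (hu s hs')
    rw [hb, ← hmax]
    exact Ideal.mem_map_of_mem ι h3
  · rw [Ideal.mk_ker]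
    refine le_antisymm (Ideal.map_le_iff_le_comap.2 fun f hf => ?_) (Ideal.span_le.2 ?_)
    · have h1 := Ideal.mem_map_of_mem ι (hI f hf)
      rw [Ideal.map_span, ← Set.range_comp, map_mul] at h1
      exact (Ideal.unit_mul_mem_iff_mem _ (hu h hh)).1 h1
    · rintro _ ⟨k, rfl⟩
      exact Ideal.mem_map_of_mem ι (hg k)
  · refine (ringKrullDim_quotient_le _).trans ?_
    rw [IsLocalization.AtPrime.ringKrullDim_eq_height (mv v) S]
    refine (Ideal.height_le_ringKrullDim_of_ne_top this.ne_top).trans ?_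
    rw [MvPolynomial.ringKrullDim_of_isNoetherianRing, ringKrullDim_eq_zero_of_field, zero_add,
      Nat.card_eq_fintype_card, Fintype.card_fin]
  · obtain ⟨r, rfl⟩ := Ideal.Quotient.mk_surjective r
    obtain ⟨s, hs', a, ha⟩ := hs r
    exact ⟨s, hs', a, (map_mul (Ideal.Quotient.mk _) _ _).symm.trans (congrArg _ ha)⟩
  · exact Ideal.Quotient.eq_zero_iff_mem.trans
      (IsLocalization.algebraMap_mem_map_algebraMap_iff (mv v).primeCompl S _ _)

/-- an ideal without zeros on the punctured cone contains powers of the variables -/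
theorem exists_pow (hI : Gr.IH I) {J : Ideal (Gr.Sn ν)} (hJ : I ≤ J)
    (h : ∀ v, Pt I v → ∃ g ∈ J, eval v g ≠ 0) (i : Fin ν) : ∃ r : ℕ, X i ^ r ∈ J := by
  change X i ∈ J.radical
  rw [← vanishingIdeal_zeroLocus_eq_radical (K := ℂ), mem_vanishingIdeal_iff]
  intro v hv
  by_contra h0
  rw [aeval_X] at h0
  obtain ⟨g, hg, hg'⟩ := h v ⟨fun e => h0 (congrFun e i), fun f hf n =>
    hv _ (hJ (Gr.ih_iff.1 hI f hf n))⟩
  exact hg' (hv g hg)

/-- **the `ν`-th matrix of an exact chain** -/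
theorem syz (hI : Gr.IH I) (hS : Surf I) (ι : ℕ → Type) [∀ j, Fintype (ι j)]
    (A : ∀ j, Matrix (ι j) (ι (j + 1)) (Gr.Sn ν)) (h0 : ∀ j k l, (A j * A (j + 1)) k l ∈ I)
    (hex : ∀ j z, (∀ k, (A j *ᵥ z) k ∈ I) → ∃ w, ∀ k, (A (j + 1) *ᵥ w - z) k ∈ I) (i : Fin ν) :
    ∃ (r : ℕ) (Ψ : Matrix (ι (ν + 1)) (ι ν) (Gr.Sn ν)),
      ∀ k l, (A ν * Ψ * A ν - (X i ^ r : Gr.Sn ν) • A ν) k l ∈ I := by
  let J : Ideal (Gr.Sn ν) :=
    { carrier := {g | ∃ Ψ : Matrix (ι (ν + 1)) (ι ν) (Gr.Sn ν),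
        ∀ k l, (A ν * Ψ * A ν - g • A ν) k l ∈ I}
      zero_mem' := ⟨0, fun k l => by simp⟩
      add_mem' := fun ⟨Ψ, h⟩ ⟨Ψ', h'⟩ => ⟨Ψ + Ψ', fun k l => by
        rw [Matrix.mul_add, Matrix.add_mul, add_smul, add_sub_add_comm]
        exact I.add_mem (h k l) (h' k l)⟩
      smul_mem' := fun c g ⟨Ψ, h⟩ => ⟨c • Ψ, fun k l => by
        rw [Matrix.mul_smul, Matrix.smul_mul, smul_assoc, ← smul_sub]
        exact I.mul_mem_left _ (h k l)⟩ }
  refine exists_pow hI (J := J) (fun g hg => ⟨0, fun k l => ?_⟩) (fun v hv => ?_) i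
  · rw [Matrix.mul_zero, Matrix.zero_mul, zero_sub]
    exact I.neg_mem (I.mul_mem_right _ hg)
  · obtain ⟨R, _, _, φ, h1, h2, h3, h4⟩ := exists_loc hS hv
    have := mv_prime v
    obtain ⟨g, hg, h5⟩ := loc_abs (M := (mv v).primeCompl) h2 h3 h4 (gl_reg ν R h1) ι A h0 hex
    exact ⟨g, h5, hg⟩

end Vale.Agent.P287T.Fm.Gn
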