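import Vale.Agent.P287T.Fm.Defs

/-!
# The tensor product with a free module as a space of maps from the dual free module
-/

open CategoryTheory Limits MvPolynomial

namespace Vale.Agent.P287T.Fm

open Vale.Agent.P287Z Vale.Agent.P287Z.O Vale.Agent.P287Z.O.V Vale.Agent.P287Z.O.L
  Vale.Agent.P287T.Cy

/-- the graded pieces of a finitely generated module have finite dimension -/
theorem fin_piece {N : GrS} (hN : L.fg N) (b : ℤ) : Module.Finite ℂ (N.obj ⟨b⟩) := by
  obtain ⟨n, a, g, h⟩ := hN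
  have h1 : ∀ i, Finite ((⟨a i⟩ : Dg) ⟶ ⟨b⟩) := fun i => by
    have h2 : {m : Fin 6 →₀ ℕ | a i + (m.degree : ℤ) = b}.Finite :=
      (Finsupp.finite_of_degree_eq (b - a i).toNat).subset fun m hm => by
        have h3 : a i + (m.degree : ℤ) = b := hm
        change m.degree = _
        lia
    exact h2.to_subtype
  have h4 : {w | ∃ (i : Fin n) (m : (⟨a i⟩ : Dg) ⟶ ⟨b⟩), N.map m (g i) = w}.Finite := by
    refine (Set.finite_range fun x : (Σ i : Fin n, ((⟨a i⟩ : Dg) ⟶ ⟨b⟩)) =>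
      N.map x.2 (g x.1)).subset ?_
    rintro w ⟨i, m, rfl⟩
    exact ⟨⟨i, m⟩, rfl⟩
  refine ⟨⟨h4.toFinset, ?_⟩⟩
  rw [Set.Finite.coe_toFinset, eq_top_iff]
  exact fun v _ => h b v

/-- evaluation of an element of the graded dual -/
def evd {N : GrS} {a : ℤ} (φ : (dgr N).obj ⟨a⟩) : Module.Dual ℂ (N.obj ⟨-a⟩) := φ

theorem evd_add {N : GrS} {a : ℤ} (φ ψ : (dgr N).obj ⟨a⟩) : evd (φ + ψ) = evd φ + evd ψ := rfl

theorem evd_smul {N : GrS} {a : ℤ} (c : ℂ) (φ : (dgr N).obj ⟨a⟩) : evd (c • φ) = c • evd φ := rfl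

theorem evd_zero {N : GrS} {a : ℤ} : evd (0 : (dgr N).obj ⟨a⟩) = 0 := rfl

theorem evd_sum {N : GrS} {a : ℤ} {τ : Type} (s : Finset τ) (φ : τ → (dgr N).obj ⟨a⟩)
    (x : N.obj ⟨-a⟩) : evd (∑ t ∈ s, φ t) x = ∑ t ∈ s, evd (φ t) x := by
  classical
  induction s using Finset.induction_on with
  | empty => rw [Finset.sum_empty, Finset.sum_empty, evd_zero, LinearMap.zero_apply]
  | insert t s ht ih =>
    rw [Finset.sum_insert ht, Finset.sum_insert ht, evd_add, LinearMap.add_apply, ih]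

theorem evd_mon (N : GrS) (m : Fin 6 →₀ ℕ) (a b : ℤ) (φ : (dgr N).obj ⟨a⟩) (x : N.obj ⟨-b⟩) :
    evd (mon (dgr N) m a b φ) x = evd φ (mon N m (-b) (-a) x) := by
  by_cases h : a + (m.degree : ℤ) = b
  · rw [mon_of_eq _ m h, mon_of_eq N m (show -b + (m.degree : ℤ) = -a by lia)]
    rfl
  · rw [mon_of_ne _ m h, mon_of_ne N m (show -b + (m.degree : ℤ) ≠ -a by lia)]
    exact (map_zero (evd φ)).symm

/-- the action on the graded dual -/
theorem evd_act (N : GrS) (f : S6) (a b : ℤ) (φ : (dgr N).obj ⟨a⟩) (x : N.obj ⟨-b⟩) :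
    evd (act (dgr N) f a b φ) x = evd φ (act N f (-b) (-a) x) := by
  rw [act_apply_eq, act_apply_eq, evd_sum, map_sum]
  refine Finset.sum_congr rfl fun m _ => ?_
  rw [evd_smul, LinearMap.smul_apply, evd_mon, map_smul]

variable {W : S6}

theorem killed_dgrA {N : GrS} (hN : killed W N) : killed W (dgr N) := by
  intro a b
  refine ModuleCat.hom_ext (LinearMap.ext fun φ => ?_)
  refine (show evd (act (dgr N) W a b φ) = 0 from LinearMap.ext fun x => ?_)
  rw [evd_act, hN]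
  exact map_zero (evd φ)

/-- evaluation of an element of the tensor product -/
def evt {N : GrS} {P : GA W} (z : (ten W N).obj P) : Module.Dual ℂ (P.obj ⟶ dgr N) := z

theorem evt_inj {N : GrS} {P : GA W} {z z' : (ten W N).obj P} (h : ∀ g, evt z g = evt z' g) :
    z = z' := (show evt z = evt z' from LinearMap.ext h)

theorem evt_map {N : GrS} {P Q : GA W} (f : P ⟶ Q) (z : (ten W N).obj P) (g : Q.obj ⟶ dgr N) :
    evt ((ten W N).map f z) g = evt z (f.hom ≫ g) := rfl

theorem evt_tenL {N N' : GrS} {P : GA W} (f : N ⟶ N') (z : (ten W N).obj P)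
    (g : P.obj ⟶ dgr N') : evt ((tenL W f).app P z) g = evt z (g ≫ dgrM f) := rfl

variable {ι κ : Type} [Fintype ι] [Fintype κ]

/-- the pairing between the maps from a free module and from its dual -/
noncomputable def prg (N : GrS) (q q' : ι → ℤ) (φ : FrO W q' ⟶ N) (g : FrO W q ⟶ dgr N) : ℂ :=
  ∑ i, evd (g.app ⟨q i / 2⟩ (gen W q i))
    (act N 1 (q' i / 2) (-(q i / 2)) (φ.app ⟨q' i / 2⟩ (gen W q' i)))

section Prg

variable (N : GrS) (q q' : ι → ℤ)

theorem prg_add (φ : FrO W q' ⟶ N) (g g' : FrO W q ⟶ dgr N) :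
    prg N q q' φ (g + g') = prg N q q' φ g + prg N q q' φ g' := by
  rw [prg, prg, prg, ← Finset.sum_add_distrib]
  rfl

theorem prg_smul (φ : FrO W q' ⟶ N) (c : ℂ) (g : FrO W q ⟶ dgr N) :
    prg N q q' φ (c • g) = c • prg N q q' φ g := by
  rw [prg, prg, Finset.smul_sum]
  rfl

theorem add_prg (φ φ' : FrO W q' ⟶ N) (g : FrO W q ⟶ dgr N) :
    prg N q q' (φ + φ') g = prg N q q' φ g + prg N q q' φ' g := by
  rw [prg, prg, prg, ← Finset.sum_add_distrib]
  refine Finset.sum_congr rfl fun i _ => ?_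
  rw [← map_add, ← map_add]
  rfl

theorem smul_prg (c : ℂ) (φ : FrO W q' ⟶ N) (g : FrO W q ⟶ dgr N) :
    prg N q q' (c • φ) g = c • prg N q q' φ g := by
  rw [prg, prg, Finset.smul_sum]
  refine Finset.sum_congr rfl fun i _ => ?_
  rw [← map_smul, ← map_smul]
  rfl

theorem gen_oddA {q : ι → ℤ} {i : ι} (h : q i ≠ 2 * (q i / 2)) : gen W q i = 0 := dif_neg h

theorem act_one_one {a b : ℤ} (h : a = b) (x : N.obj ⟨a⟩) :
    act N 1 b a (act N 1 a b x) = x := by
  subst h
  rw [act_one_apply, act_one_apply]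

variable {N q q'}

theorem prg_inj (hW : Hg 6 W) (hN : killed W N) (h : ∀ i, q' i = -q i) (φ : FrO W q' ⟶ N)
    (hφ : ∀ g : FrO W q ⟶ dgr N, prg N q q' φ g = 0) : φ = 0 := by
  classical
  refine FrO.hom_ext W fun i hi => ?_
  have hi' : q i = 2 * (q i / 2) := by have := h i; lia
  have he : q' i / 2 = -(q i / 2) := by have := h i; lia
  change φ.app ⟨q' i / 2⟩ (gen W q' i) = 0
  rw [← act_one_one N he (φ.app ⟨q' i / 2⟩ (gen W q' i))]
  suffices h1 : act N 1 (q' i / 2) (-(q i / 2)) (φ.app ⟨q' i / 2⟩ (gen W q' i)) = 0 by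
    rw [h1, map_zero]
  refine (Module.forall_dual_apply_eq_zero_iff ℂ _).1 fun ψ => ?_
  let x : ∀ j, (dgr N).obj ⟨q j / 2⟩ := Pi.single i (show (dgr N).obj ⟨q i / 2⟩ from ψ)
  have h2 := hφ (desc (killed_dgrA hN) hW x)
  rw [prg, Finset.sum_eq_single i, desc_gen _ _ x i hi'] at h2
  · have h3 : x i = (show (dgr N).obj ⟨q i / 2⟩ from ψ) := Pi.single_eq_same _ _
    rw [h3] at h2
    exact h2
  · intro j _ hj
    by_cases hj' : q j = 2 * (q j / 2)
    · have h3 : x j = 0 := Pi.single_eq_of_ne hj _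
      rw [desc_gen _ _ x j hj', h3, evd_zero, LinearMap.zero_apply]
    · rw [gen_oddA hj', map_zero, evd_zero, LinearMap.zero_apply]
  · intro hi
    exact absurd (Finset.mem_univ i) hi

theorem prg_surj (hW : Hg 6 W) (hN : killed W N) (hN' : L.fg N) (h : ∀ i, q' i = -q i)
    (z : Module.Dual ℂ (FrO W q ⟶ dgr N)) : ∃ φ : FrO W q' ⟶ N, ∀ g, prg N q q' φ g = z g := by
  classical
  have hk := killed_dgrA hN
  have h1 : ∀ i, ∃ s : Module.Dual ℂ (N.obj ⟨-(q i / 2)⟩) →ₗ[ℂ] (FrO W q ⟶ dgr N),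
      ∀ ψ j, q j = 2 * (q j / 2) → (s ψ).app _ (gen W q j) =
        (Pi.single i (show (dgr N).obj ⟨q i / 2⟩ from ψ) :
          ∀ j, (dgr N).obj ⟨q j / 2⟩) j := by
    intro i
    refine ⟨{ toFun := fun ψ => desc hk hW (Pi.single i
                (show (dgr N).obj ⟨q i / 2⟩ from ψ))
              map_add' := fun ψ ψ' => FrO.hom_ext W fun j hj => ?_
              map_smul' := fun c ψ => FrO.hom_ext W fun j hj => ?_ },
      fun ψ j hj => desc_gen _ _ _ j hj⟩
    · refine (desc_gen _ _ _ j hj).trans (Eq.trans ?_ (congrArg₂ (· + ·)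
        (desc_gen hk hW _ j hj).symm (desc_gen hk hW _ j hj).symm))
      exact congrFun (Pi.single_add (f := fun j => (dgr N).obj ⟨q j / 2⟩) i _ _) j
    · refine (desc_gen _ _ _ j hj).trans (Eq.trans ?_ (congrArg (c • ·)
        (desc_gen hk hW _ j hj).symm))
      exact congrFun (Pi.single_smul (f := fun j => (dgr N).obj ⟨q j / 2⟩) i c _) j
  choose s hs using h1
  have h2 : ∀ i, ∃ x : N.obj ⟨-(q i / 2)⟩, ∀ ψ, z (s i ψ) = ψ x := fun i => by
    have := fin_piece hN' (-(q i / 2))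
    obtain ⟨x, hx⟩ := (Module.bijective_dual_eval ℂ (N.obj ⟨-(q i / 2)⟩)).2 (z ∘ₗ s i)
    exact ⟨x, fun ψ => (congr($hx ψ)).symm⟩
  choose x hx using h2
  refine ⟨desc hN hW fun i => act N 1 (-(q i / 2)) (q' i / 2) (x i), fun g => ?_⟩
  have h3 : g = ∑ i, s i (evd (g.app ⟨q i / 2⟩ (gen W q i))) := by
    refine FrO.hom_ext W fun j hj => ?_
    rw [NatTrans.app_sum]
    change _ = (ModuleCat.Hom.hom _) _
    rw [ModuleCat.hom_sum, LinearMap.sum_apply, Finset.sum_eq_single j]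
    · exact ((hs j _ j hj).trans (Pi.single_eq_same _ _)).symm
    · intro i _ hi
      exact (hs i _ j hj).trans (Pi.single_eq_of_ne hi.symm _)
    · intro hi
      exact absurd (Finset.mem_univ j) hi
  conv_rhs => rw [h3]
  rw [map_sum, prg]
  refine Finset.sum_congr rfl fun i _ => ?_
  rw [hx]
  by_cases hi : q i = 2 * (q i / 2)
  · have hi' : q' i = 2 * (q' i / 2) := by have := h i; lia
    have he : -(q i / 2) = q' i / 2 := by have := h i; lia
    rw [desc_gen hN hW _ i hi', act_one_one N he]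
  · rw [gen_oddA hi, map_zero, evd_zero, LinearMap.zero_apply, LinearMap.zero_apply]

theorem prg_nat {N' : GrS} (α : N ⟶ N') (φ : FrO W q' ⟶ N) (g : FrO W q ⟶ dgr N') :
    prg N q q' φ (g ≫ dgrM α) = prg N' q q' (φ ≫ α) g := by
  rw [prg, prg]
  refine Finset.sum_congr rfl fun i _ => ?_
  change evd (g.app ⟨q i / 2⟩ (gen W q i)) (α.app ⟨-(q i / 2)⟩ _) = _
  rw [act_natural_apply]
  rfl

theorem app_matO_gen {M : GrS} {r : κ → ℤ} (f : Matrix κ ι S6) (hf : HgM q r f)
    (g : FrO W r ⟶ M) (i : ι) : (matO W f hf ≫ g).app ⟨q i / 2⟩ (gen W q i) =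
      ∑ k, act M (f k i) (r k / 2) (q i / 2) (g.app ⟨r k / 2⟩ (gen W r k)) := by
  by_cases hi : q i = 2 * (q i / 2)
  · change g.app ⟨q i / 2⟩ ((matO W f hf).app _ (gen W q i)) = _
    rw [matO_gen W f hf i hi, FrO.mk_eq_sum, map_sum]
    exact Finset.sum_congr rfl fun k _ => act_natural_apply g _ _ _ _
  · rw [gen_oddA hi, map_zero]
    refine (Finset.sum_eq_zero fun k _ => ?_).symm
    by_cases hk : r k = 2 * (r k / 2)
    · rw [hga_odd_eq_zero (hf k i) (by lia), act_zero_apply]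
    · rw [gen_oddA hk, map_zero, map_zero]

theorem prg_mat {r r' : κ → ℤ} (h : ∀ i, q' i = -q i) (h' : ∀ k, r' k = -r k)
    (f : Matrix κ ι S6) (hf : HgM q r f) (hf' : HgM r' q' f.transpose) (φ : FrO W q' ⟶ N)
    (g : FrO W r ⟶ dgr N) :
    prg N q q' φ (matO W f hf ≫ g) = prg N r r' (matO W f.transpose hf' ≫ φ) g := by
  simp only [prg, app_matO_gen, evd_sum, map_sum, evd_act]
  rw [Finset.sum_comm]
  refine Finset.sum_congr rfl fun k _ => Finset.sum_congr rfl fun i _ => ?_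
  by_cases hk : r k = 2 * (r k / 2)
  · by_cases hi : q i = 2 * (q i / 2)
    · have e1 : q' i / 2 = -(q i / 2) := by have := h i; lia
      have e2 : r' k / 2 = -(r k / 2) := by have := h' k; lia
      refine congrArg _ ?_
      rw [Matrix.transpose_apply, ← act_mul_apply (M := N) (f k i) (by
        rw [e1, sub_self, mul_zero]; exact hga_one), one_mul,
        ← act_mul_apply (M := N) 1 (by
          have := hf k i
          rwa [show q i - r k = 2 * (r' k / 2 - q' i / 2) by lia] at this), mul_one]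
    · rw [Matrix.transpose_apply, hga_odd_eq_zero (hf k i) (by lia), act_zero_apply,
        act_zero_apply, map_zero, map_zero, map_zero]
  · rw [gen_oddA hk, map_zero, evd_zero, LinearMap.zero_apply, LinearMap.zero_apply]

end Prg

variable [hW : Fact (W.IsHomogeneous 3)]

theorem hg6A : Hg 6 W := hg_ten_of_isHomogeneous W hW.out

/-- `Hom(F^∨, N) → N ⊗ F` -/
noncomputable def eta (N : GA W) (q q' : ι → ℤ) :
    (FrA W q' ⟶ N) →ₗ[ℂ] (ten W N.obj).obj (FrA W q) where
  toFun φ := (show Module.Dual ℂ (FrO W q ⟶ dgr N.obj) from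
    { toFun := fun g => prg N.obj q q' φ.hom g
      map_add' := prg_add N.obj q q' φ.hom
      map_smul' := prg_smul N.obj q q' φ.hom })
  map_add' φ φ' := by
    refine evt_inj (N := N.obj) (P := FrA W q) fun g => ?_
    exact add_prg N.obj q q' φ.hom φ'.hom g
  map_smul' c φ := by
    refine evt_inj (N := N.obj) (P := FrA W q) fun g => ?_
    exact smul_prg N.obj q q' c φ.hom g

theorem evt_eta (N : GA W) (q q' : ι → ℤ) (φ : FrA W q' ⟶ N) (g : FrO W q ⟶ dgr N.obj) :
    evt (eta N q q' φ) g = prg N.obj q q' φ.hom g := rfl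

theorem eta_inj (N : GA W) {q q' : ι → ℤ} (h : ∀ i, q' i = -q i) :
    Function.Injective (eta N q q') := by
  rw [injective_iff_map_eq_zero]
  intro φ hφ
  refine ObjectProperty.hom_ext _ (prg_inj hg6A N.property.1 h φ.hom fun g => ?_)
  refine (evt_eta N q q' φ g).symm.trans ?_
  rw [hφ]
  rfl

theorem eta_surj (N : GA W) {q q' : ι → ℤ} (h : ∀ i, q' i = -q i) :
    Function.Surjective (eta N q q') := by
  intro z
  obtain ⟨φ, hφ⟩ := prg_surj hg6A N.property.1 N.property.2 h (evt z)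
  exact ⟨ObjectProperty.homMk φ, evt_inj hφ⟩

/-- naturality in the module -/
theorem eta_tenL {N N' : GA W} (α : N ⟶ N') (q q' : ι → ℤ) (φ : FrA W q' ⟶ N) :
    (tenL W α.hom).app (FrA W q) (eta N q q' φ) = eta N' q q' (φ ≫ α) :=
  evt_inj fun g => prg_nat α.hom φ.hom g

/-- naturality in the free module -/
theorem eta_map (N : GA W) {q q' : ι → ℤ} {r r' : κ → ℤ} (h : ∀ i, q' i = -q i)
    (h' : ∀ k, r' k = -r k) (f : Matrix κ ι S6) (hf : HgM q r f) (hf' : HgM r' q' f.transpose)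
    (φ : FrA W q' ⟶ N) :
    (ten W N.obj).map (matA W f hf) (eta N q q' φ) = eta N r r' (matA W f.transpose hf' ≫ φ) :=
  evt_inj fun g => prg_mat h h' f hf hf' φ.hom g

end Vale.Agent.P287T.Fm
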