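import Vale.Agent.P287T.Fm.HsT
import Vale.Agent.P287T.Fm.St2

/-!
# Block FM, step HST: transport of representing cycles
-/

open CategoryTheory Limits MvPolynomial

namespace Vale.Agent.P287T.Fm

open Vale.Agent.P287Z Vale.Agent.P287Z.O.V Vale.Agent.P287T.Cy O.H962

namespace Hs

variable {W : S6} {m n r : ℕ}

/-- the same differential with shifted charges -/
def sh (E : GMF W n) (s : ℤ) : GMF W n where
  p i := E.p i - 3 * s
  d := E.d
  deg i j := by
    have := E.deg i j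
    rwa [show 3 + E.p j - E.p i = 3 + (E.p j - 3 * s) - (E.p i - 3 * s) by ring] at this
  sq := E.sq

theorem gmf_ext {E F : GMF W n} (hp : E.p = F.p) (hd : E.d = F.d) : E = F := by
  obtain ⟨p, d, h1, h2⟩ := E
  obtain ⟨p', d', h1', h2'⟩ := F
  obtain rfl : p = p' := hp
  obtain rfl : d = d' := hd
  rfl

theorem dual_dual (E : GMF W n) : dual (dual E) = E :=
  gmf_ext (funext fun _ => neg_neg _) (Matrix.transpose_transpose _)

theorem hg_cast {a b : ℤ} {f : S6} (h : Hg a f) (e : a = b) : Hg b f := e ▸ h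

theorem hgT_shift {G : GMF W m} {E : GMF W n} {j k j' k' : ℤ} {f : Matrix (Fin n) (Fin m) S6}
    (hf : HgT G E j k f) (h : k - j = k' - j') : HgT G E j' k' f :=
  fun a b => hg_cast (hf a b) (by omega)

variable [Fact (W.IsHomogeneous 3)]

/-- the terms of `N ⊗ T(E)` -/
noncomputable def TN (N : O.L.GA W) (E : GMF W n) (k : ℤ) : ModuleCat.{0} ℂ :=
  (ten W N.obj).obj ((O.L.TT E).X k)

/-- the differential -/
noncomputable def dN (N : O.L.GA W) (E : GMF W n) (k l : ℤ) : TN N E k ⟶ TN N E l := dT N E k l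

/-- the action of a matrix -/
noncomputable def tx (N : O.L.GA W) {G : GMF W m} {E : GMF W n} {j k : ℤ}
    (f : Matrix (Fin n) (Fin m) S6) (hf : HgT G E j k f) : TN N G j ⟶ TN N E k :=
  (ten W N.obj).map (mX (fun _ => True) f hf)

/-- functoriality in the module -/
noncomputable def tl {N N' : O.L.GA W} (E : GMF W n) (k : ℤ) (α : N ⟶ N') :
    TN N E k ⟶ TN N' E k := (tenL W α.hom).app _

section

variable {N N' : O.L.GA W} {G : GMF W m} {E : GMF W n} {F : GMF W r} {j k l : ℤ}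

theorem tx_tx {f : Matrix (Fin n) (Fin m) S6} {g : Matrix (Fin r) (Fin n) S6}
    (hf : HgT G E j k f) (hg : HgT E F k l g) (z) :
    tx N g hg (tx N f hf z) = tx N (g * f) (hf.mul hg) z :=
  (ten_map_comp _ _ z).symm.trans
    (congrArg (fun t => (ten W N.obj).map t z) (mX_comp (fun _ => True) hf hg))

theorem tx_congr {f g : Matrix (Fin n) (Fin m) S6} (h : f = g) (hf : HgT G E j k f)
    (hg : HgT G E j k g) (z) : tx N f hf z = tx N g hg z := by
  subst h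
  rfl

theorem tx_add {f g : Matrix (Fin n) (Fin m) S6} (hf : HgT G E j k f) (hg : HgT G E j k g) (z) :
    tx N (f + g) (hf.add hg) z = tx N f hf z + tx N g hg z :=
  (congrArg (fun t => (ten W N.obj).map t z) (mX_add (fun _ => True) hf hg)).trans
    (ten_map_add _ _ z)

theorem dN_eq (h : k + 1 = l) (z) : dN N E k l z = tx N E.d (hgT_d E h) z :=
  congrArg (fun t => (ten W N.obj).map t z) (T_dX (fun _ => True) E k l h)

theorem dN_ne (h : k + 1 ≠ l) (z) : dN N E k l z = 0 :=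
  (congrArg (fun t => (ten W N.obj).map t z) ((O.L.TT E).shape k l h)).trans (ten_map_zero z)

theorem dN_dN (z) : dN N E k l (dN N E j k z) = 0 :=
  (ten_map_comp _ _ z).symm.trans ((congrArg (fun t => (ten W N.obj).map t z)
    ((O.L.TT E).d_comp_d j k l)).trans (ten_map_zero z))

theorem dN_tx {j' : ℤ} {f : Matrix (Fin n) (Fin m) S6} (hf : HgT G E j k f)
    (hf' : HgT G E j' l f) (hc : E.d * f = f * G.d) (hj : j + 1 = j') (hk : k + 1 = l) (z) :
    dN N E k l (tx N f hf z) = tx N f hf' (dN N G j j' z) := by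
  rw [dN_eq hk, dN_eq hj, tx_tx, tx_tx]
  exact tx_congr hc _ _ _

theorem tl_tx (α : N ⟶ N') {f : Matrix (Fin n) (Fin m) S6} (hf : HgT G E j k f) (z) :
    tl E k α (tx N f hf z) = tx N' f hf (tl G j α z) := tenL_nat _ _ z

theorem tl_dN (α : N ⟶ N') (z) : tl E l α (dN N E k l z) = dN N' E k l (tl E k α z) :=
  tenL_nat _ _ z

theorem tl_tl {N'' : O.L.GA W} (α : N ⟶ N') (β : N' ⟶ N'') (z) :
    tl E k β (tl E k α z) = tl E k (α ≫ β) z := (tenL_comp α.hom β.hom z).symm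

theorem tl_zero (z) : tl E k (0 : N ⟶ N') z = 0 := tenL_zero z

theorem tl_sub_id (α : N ⟶ N) (z) : tl E k (α - 𝟙 N) z = tl E k α z - z :=
  (tenL_sub α.hom (𝟙 _) z).trans (congrArg (_ - ·) (tenL_id z))

theorem tl_inj (α : N ⟶ N') [Mono α] {z} (h : tl E k α z = 0) : z = 0 := ten_inj α h

theorem tl_onto (α : N ⟶ N') [Epi α] (z) : ∃ y, tl E k α y = z := ten_onto α z

theorem tl_exact {S : ShortComplex (O.L.GA W)} (hS : S.Exact) (z) (h : tl E k S.g z = 0) :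
    ∃ y, tl E k S.f y = z := ten_exact hS z h

theorem dN_free (h0 : W ≠ 0) {κ : Type} [Fintype κ] {q : κ → ℤ} (hj : j + 1 = k) (hk : k + 1 = l)
    (z) (h : dN (O.L.FrA W q) E k l z = 0) : ∃ y, z = dN (O.L.FrA W q) E j k y :=
  ten_free h0 q E hj hk z h

variable (N E k) in
/-- cycles -/
def Cy (z : TN N E k) : Prop := ∀ l, dN N E k l z = 0

variable (N E k) in
/-- boundaries -/
def Bd (z : TN N E k) : Prop := ∃ j y, z = dN N E j k y

theorem cy_of (h : k + 1 = l) {z} (hz : dN N E k l z = 0) : Cy N E k z := fun l' => by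
  by_cases h' : k + 1 = l'
  · obtain rfl : l = l' := h.symm.trans h'
    exact hz
  · exact dN_ne h' z

theorem Bd.ex (h : j + 1 = k) {z} (hz : Bd N E k z) : ∃ y, z = dN N E j k y := by
  obtain ⟨j', y, rfl⟩ := hz
  by_cases h' : j' + 1 = k
  · obtain rfl : j = j' := by omega
    exact ⟨y, rfl⟩
  · exact ⟨0, (dN_ne h' y).trans (map_zero _).symm⟩

theorem bd_d (y) : Bd N E k (dN N E j k y) := ⟨j, y, rfl⟩

theorem Bd.add {z z'} (h : Bd N E k z) (h' : Bd N E k z') : Bd N E k (z + z') := by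
  obtain ⟨y, rfl⟩ := h.ex (sub_add_cancel k 1)
  obtain ⟨y', rfl⟩ := h'.ex (sub_add_cancel k 1)
  exact ⟨_, y + y', (map_add _ _ _).symm⟩

theorem Bd.sub {z z'} (h : Bd N E k z) (h' : Bd N E k z') : Bd N E k (z - z') := by
  obtain ⟨y, rfl⟩ := h.ex (sub_add_cancel k 1)
  obtain ⟨y', rfl⟩ := h'.ex (sub_add_cancel k 1)
  exact ⟨_, y - y', (map_sub _ _ _).symm⟩

theorem Bd.tl {z} (h : Bd N E k z) (α : N ⟶ N') : Bd N' E k (tl E k α z) := by
  obtain ⟨j, y, rfl⟩ := h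
  exact ⟨j, _, tl_dN α y⟩

theorem Cy.tl {z} (h : Cy N E k z) (α : N ⟶ N') : Cy N' E k (tl E k α z) := fun l => by
  rw [← tl_dN, h l, map_zero]

theorem Cy.tx {z} (h : Cy N G j z) {f : Matrix (Fin n) (Fin m) S6} (hf : HgT G E j k f)
    (hc : E.d * f = f * G.d) : Cy N E k (tx N f hf z) :=
  cy_of rfl (by rw [dN_tx hf (hgT_shift hf (by ring)) hc rfl rfl, h, map_zero])

theorem Cy.free (h0 : W ≠ 0) {κ : Type} [Fintype κ] {q : κ → ℤ} {z}
    (h : Cy (O.L.FrA W q) E k z) : Bd (O.L.FrA W q) E k z :=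
  ⟨k - 1, dN_free h0 (sub_add_cancel k 1) rfl z (h _)⟩

theorem Cy.ff (h0 : W ≠ 0) {z} (h : Cy N E k z) {α : N ⟶ N'} (hα : FF α) :
    Bd N' E k (Hs.tl E k α z) := by
  obtain ⟨s, q, a, b, rfl⟩ := hα
  rw [← tl_tl]
  exact ((h.tl a).free h0).tl b

end

/-- the cycle `u` in position `j` represents the cohomology of `N ⊗ T(E)` -/
structure RepA (N : O.L.GA W) (G : GMF W m) (j : ℤ) (u : TN N G j) :
    Prop where
  cyc : Cy N G j u
  sur : ∀ {n : ℕ} (E : GMF W n) (k : ℤ) (z), Cy N E k z → ∃ f, ∃ hf : HgT G E j k f,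
    E.d * f = f * G.d ∧ Bd N E k (z - tx N f hf u)
  inj : ∀ {n : ℕ} (E : GMF W n) (k : ℤ) (f) (hf : HgT G E j k f), E.d * f = f * G.d →
    (Bd N E k (tx N f hf u) ↔ f ∈ BB G.p G.d E.p E.d (3 * k - 3 * j))

variable {N N' : O.L.GA W} {G : GMF W m}

theorem RepA.rep {u : TN N G 0} (h : RepA N G 0 u) : Rep N G u where
  cyc := h.cyc 1
  sur E k z hz := by
    obtain ⟨f, hf, hc, hb⟩ := h.sur E k z (cy_of rfl hz)
    obtain ⟨y, hy⟩ := hb.ex (sub_add_cancel k 1)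
    exact ⟨f, ⟨fun a b => hg_cast (hf a b) (by ring), hc⟩, y, sub_eq_iff_eq_add'.1 hy⟩
  inj E k f hf := by
    have h1 := h.inj E k f (hgT_MM0 (mem_ZZ.1 hf).1) (mem_ZZ.1 hf).2
    rw [mul_zero, sub_zero] at h1
    exact ⟨fun ⟨y, hy⟩ => h1.1 ⟨_, y, hy⟩, fun h2 => (h1.2 h2).ex (sub_add_cancel k 1)⟩

/-- invariance under stable equivalences -/
theorem RepA.stab (h0 : W ≠ 0) {j : ℤ} {u} (h : RepA N G j u) (α : N' ⟶ N) (β : N ⟶ N')
    (h1 : FF (α ≫ β - 𝟙 _)) (h2 : FF (β ≫ α - 𝟙 _)) : RepA N' G j (tl G j β u) where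
  cyc := h.cyc.tl β
  sur E k z hz := by
    obtain ⟨f, hf, hc, hb⟩ := h.sur E k _ (hz.tl α)
    refine ⟨f, hf, hc, ?_⟩
    have h3 := (hb.tl β).sub (hz.ff h0 h1)
    rwa [map_sub, tl_sub_id, tl_tl, tl_tx, sub_sub_sub_cancel_left] at h3
  inj E k f hf hc := by
    rw [← h.inj E k f hf hc, ← tl_tx]
    refine ⟨fun h3 => ?_, fun h3 => h3.tl β⟩
    have h4 := (h3.tl α).sub ((h.cyc.tx hf hc).ff h0 h2)
    rwa [tl_sub_id, tl_tl, sub_sub_cancel] at h4

/-- change of the position -/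
theorem RepA.shift {a : ℤ} {u} (h : RepA N G a u) {j s : ℤ} (e : j + s = a) :
    ∃ u', RepA N (sh G s) j u' := by
  have h1 : HgT G (sh G s) a j 1 := fun x y => hg_cast (hgT_one G 0 x y) (by
    change _ = 3 * j - 3 * a + G.p y - (G.p x - 3 * s)
    omega)
  have h2 : ∀ {n : ℕ} {E : GMF W n} {k : ℤ} {f}, HgT (sh G s) E j k f ↔ HgT G E a k f :=
    fun {n E k f} => forall₂_congr fun x y => by
      rw [show 3 * k - 3 * j + (sh G s).p y - E.p x = 3 * k - 3 * a + G.p y - E.p x by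
        change 3 * k - 3 * j + (G.p y - 3 * s) - E.p x = _
        omega]
  have h3 : ∀ {n : ℕ} {E : GMF W n} {k : ℤ} {f} (hf : HgT (sh G s) E j k f),
      tx N f hf (tx N 1 h1 u) = tx N f (h2.1 hf) u := fun hf =>
    (tx_tx _ _ _).trans (tx_congr (Matrix.mul_one _) _ _ _)
  refine ⟨tx N 1 h1 u, h.cyc.tx h1 ((Matrix.mul_one _).trans (Matrix.one_mul _).symm),
    fun E k z hz => ?_, fun E k f hf hc => ?_⟩
  · obtain ⟨f, hf, hc, hb⟩ := h.sur E k z hz
    exact ⟨f, h2.2 hf, hc, by rwa [h3]⟩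
  · rw [h3, h.inj E k f _ hc]
    refine exists_congr fun g => and_congr_left fun _ => forall₂_congr fun x y => ?_
    rw [show 3 * k - 3 * j - 3 + (sh G s).p y - E.p x = 3 * k - 3 * a - 3 + G.p y - E.p x by
      change 3 * k - 3 * j - 3 + (G.p y - 3 * s) - E.p x = _
      omega]

/-- the connecting map of a syzygy -/
theorem RepA.syz (h0 : W ≠ 0) (hs : O.L.Syz W N N') {b : ℤ} {u'} (h : RepA N' G b u') {j : ℤ}
    (e : j + 1 = b) : ∃ u, RepA N G j u := by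
  obtain ⟨s, q, i, π, w, hS⟩ := hs
  have : Mono i := hS.mono_f
  have : Epi π := hS.epi_g
  have hw : ∀ {n : ℕ} {E : GMF W n} {k : ℤ} (z), tl E k π (tl E k i z) = 0 := fun z => by
    rw [tl_tl, w, tl_zero]
  have hex : ∀ {n : ℕ} {E : GMF W n} {k : ℤ} (z), tl E k π z = 0 → ∃ y, tl E k i y = z :=
    fun z hz => tl_exact hS.exact z hz
  have hinj : ∀ {n : ℕ} {E : GMF W n} {k : ℤ} (z), tl E k i z = 0 → z = 0 :=
    fun z hz => tl_inj i hz
  have hon : ∀ {n : ℕ} {E : GMF W n} {k : ℤ} (z), ∃ y, tl E k π y = z := fun z => tl_onto π z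
  obtain ⟨v, hv⟩ := ((h.cyc.tl i).free h0).ex e
  have key : ∀ {n : ℕ} {E : GMF W n} {k : ℤ} {f} (hf : HgT G E j k f) (hf' : HgT G E b (k + 1) f),
      E.d * f = f * G.d → dN _ E k (k + 1) (tx _ f hf v) = tl E (k + 1) i (tx _ f hf' u') :=
    fun hf hf' hc => by rw [dN_tx hf hf' hc e rfl, ← hv, tl_tx]
  refine ⟨tl G j π v, cy_of e (by rw [← tl_dN, ← hv, hw]), fun E k z hz => ?_,
    fun E k f hf hc => ?_⟩
  · obtain ⟨z₁, rfl⟩ := hon z
    obtain ⟨z₂, h2⟩ := hex (dN _ E k (k + 1) z₁) (by rw [tl_dN, hz])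
    obtain ⟨f, hf', hc, hb⟩ := h.sur E (k + 1) z₂ fun l => hinj _ (by rw [tl_dN, h2, dN_dN])
    obtain ⟨y, hy⟩ := hb.ex rfl
    have hf : HgT G E j k f := hgT_shift hf' (by omega)
    refine ⟨f, hf, hc, ?_⟩
    have h3 : Cy _ E k (z₁ - tx _ f hf v - tl E k i y) := cy_of rfl (by
      rw [map_sub, map_sub, key hf hf' hc, ← h2, ← tl_dN, ← hy, map_sub, sub_self])
    have h4 := (h3.free h0).tl π
    rwa [map_sub, map_sub, hw, sub_zero, tl_tx] at h4
  · have hf' : HgT G E b (k + 1) f := hgT_shift hf (by omega)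
    rw [show 3 * k - 3 * j = 3 * (k + 1) - 3 * b by omega, ← h.inj E (k + 1) f hf' hc, ← tl_tx]
    refine ⟨fun ⟨l, y, hy⟩ => ?_, fun hb => ?_⟩
    · obtain ⟨y₁, rfl⟩ := hon y
      obtain ⟨x, hx⟩ := hex (tx _ f hf v - dN _ E l k y₁) (by rw [map_sub, hy, tl_dN, sub_self])
      refine ⟨k, x, sub_eq_zero.1 (hinj _ ?_)⟩
      rw [map_sub, ← key hf hf' hc, tl_dN, hx, map_sub, dN_dN, sub_zero, sub_self]
    · obtain ⟨y, hy⟩ := hb.ex rfl
      have h3 : Cy _ E k (tx _ f hf v - tl E k i y) := cy_of rfl (by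
        rw [map_sub, key hf hf' hc, ← tl_dN, ← hy, sub_self])
      have h4 := (h3.free h0).tl π
      rwa [map_sub, hw, sub_zero] at h4

end Hs

end Vale.Agent.P287T.Fm
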