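import Vale.Agent.P287T.Fm.Ten

/-!
# Block FM, step HST: exactness in the first variable, two free modules
-/

open CategoryTheory Limits MvPolynomial

namespace Vale.Agent.P287T.Fm.Hs

open Vale.Agent.P287Z Vale.Agent.P287Z.O.V Vale.Agent.P287T.Cy

variable {W : S6} [Fact (W.IsHomogeneous 3)]

section tv

variable {ι : Type} [Fintype ι]

theorem tv_congr {N : O.L.GrS} {q : ι → ℤ} {x y : ∀ i, N.obj ⟨-(q i / 2)⟩}
    (h : ∀ i, Even (q i) → x i = y i) : tv (W := W) N q x = tv N q y := by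
  refine Finset.sum_congr rfl fun i _ => ?_
  by_cases hi : Even (q i)
  · rw [h i hi]
  · rw [gen_odd hi]
    exact (tm_zero_right (P := O.L.FrA W q) _).trans (tm_zero_right (P := O.L.FrA W q) _).symm

theorem ten_inj {A B : O.L.GA W} (f : A ⟶ B) [Mono f] {q : ι → ℤ}
    {z : (ten W A.obj).obj (O.L.FrA W q)} (h : (tenL W f.hom).app _ z = 0) : z = 0 := by
  obtain ⟨x, rfl⟩ := tv_surj A q z
  rw [tenL_tv, tv_eq_zero B.property.1] at h
  exact (tv_eq_zero A.property.1).2 fun i hi =>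
    O.L.GA_app_injective W f _ ((h i hi).trans (map_zero _).symm)

theorem ten_onto {A B : O.L.GA W} (f : A ⟶ B) [Epi f] {q : ι → ℤ}
    (z : (ten W B.obj).obj (O.L.FrA W q)) : ∃ y, (tenL W f.hom).app _ y = z := by
  obtain ⟨x, rfl⟩ := tv_surj B q z
  choose y hy using fun i => O.L.GA_app_surjective W f _ (x i)
  exact ⟨tv A.obj q y, (tenL_tv _ _ _).trans (tv_congr fun i _ => hy i)⟩

theorem ten_exact {S : ShortComplex (O.L.GA W)} (hS : S.Exact) {q : ι → ℤ}
    (z : (ten W S.X₂.obj).obj (O.L.FrA W q)) (h : (tenL W S.g.hom).app _ z = 0) :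
    ∃ y, (tenL W S.f.hom).app _ y = z := by
  obtain ⟨x, rfl⟩ := tv_surj S.X₂ q z
  rw [tenL_tv, tv_eq_zero S.X₃.property.1] at h
  have h1 : ∀ i, ∃ y, Even (q i) → S.f.hom.app ⟨-(q i / 2)⟩ y = x i := fun i => by
    by_cases hi : Even (q i)
    · obtain ⟨y, hy⟩ := O.L.GA_exact_apply W hS _ (x i) (h i hi)
      exact ⟨y, fun _ => hy⟩
    · exact ⟨0, fun h => absurd h hi⟩
  choose y hy using h1
  exact ⟨tv S.X₁.obj q y, (tenL_tv _ _ _).trans (tv_congr hy)⟩

end tv

/-! ## Two free modules -/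

section tM

variable {ι κ μ : Type} [Fintype ι] [Fintype κ] [Fintype μ]

omit [Fintype ι] [Fintype κ] in
theorem hg_row {q : ι → ℤ} {r : κ → ℤ} {f : Matrix ι κ S6} (hf : ∀ i j, Hg (-q i - r j) (f i j))
    {i : ι} (hi : Even (q i)) (j : κ) : Hg (2 * -(q i / 2) - r j) (f i j) := by
  have := hf i j
  obtain ⟨t, ht⟩ := hi
  rwa [show -q i - r j = 2 * -(q i / 2) - r j by omega] at this

variable (W) in
/-- the rows of a matrix -/
noncomputable def row {q : ι → ℤ} {r : κ → ℤ} (f : Matrix ι κ S6)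
    (hf : ∀ i j, Hg (-q i - r j) (f i j)) (i : ι) : (O.L.FrA W r).obj.obj ⟨-(q i / 2)⟩ :=
  if hi : Even (q i) then O.L.FrO.mk W (f i) (hg_row hf hi) else 0

omit [Fintype ι] in
theorem row_even {q : ι → ℤ} {r : κ → ℤ} (f : Matrix ι κ S6)
    (hf : ∀ i j, Hg (-q i - r j) (f i j)) {i : ι} (hi : Even (q i)) :
    row W f hf i = O.L.FrO.mk W (f i) (hg_row hf hi) := dif_pos hi

variable (W) in
/-- the element of the tensor product of two free modules given by a matrix -/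
noncomputable def tM (q : ι → ℤ) (r : κ → ℤ) (f : Matrix ι κ S6)
    (hf : ∀ i j, Hg (-q i - r j) (f i j)) : (ten W (O.L.FrA W r).obj).obj (O.L.FrA W q) :=
  tv _ q (row W f hf)

theorem tM_surj {q : ι → ℤ} {r : κ → ℤ} (z : (ten W (O.L.FrA W r).obj).obj (O.L.FrA W q)) :
    ∃ f hf, tM W q r f hf = z := by
  obtain ⟨x, rfl⟩ := tv_surj (O.L.FrA W r) q z
  choose v hv h using fun i => O.L.FrO.mk_surj W (q := r) (x i)
  have hf : ∀ i j, Hg (-q i - r j) (if Even (q i) then v i j else 0) := fun i j => by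
    split_ifs with hi
    · have := hv i j
      obtain ⟨t, ht⟩ := hi
      rwa [show 2 * -(q i / 2) - r j = -q i - r j by omega] at this
    · exact O.L.hga_zero _
  refine ⟨fun i j => if Even (q i) then v i j else 0, hf, tv_congr fun i hi => ?_⟩
  exact (row_even _ hf hi).trans
    ((O.L.FrO.mk_congr W (funext fun j => if_pos hi)).trans (h i))

theorem tM_inj {q : ι → ℤ} {r : κ → ℤ} {f g : Matrix ι κ S6}
    (hf : ∀ i j, Hg (-q i - r j) (f i j)) (hg : ∀ i j, Hg (-q i - r j) (g i j)) :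
    tM W q r f hf = tM W q r g hg ↔ ∀ i j, Even (q i) → Even (r j) → W ∣ f i j - g i j := by
  rw [tM, tM, tv_eq_iff (O.L.FrA W r).property.1]
  refine ⟨fun h i j hi _ => ?_, fun h i hi => ?_⟩
  · have h1 := h i hi
    rw [row_even _ _ hi, row_even _ _ hi] at h1
    exact (O.L.FrO.mk_eq W).1 h1 j
  · rw [row_even _ _ hi, row_even _ _ hi]
    refine (O.L.FrO.mk_eq W).2 fun j => ?_
    by_cases hj : Even (r j)
    · exact h i j hi hj
    · obtain ⟨s, hs⟩ := hi
      have h1 : ¬ 2 ∣ -q i - r j := fun ⟨t, ht⟩ => hj ⟨-t - s, by omega⟩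
      rw [O.L.hga_odd_eq_zero (hf i j) h1, O.L.hga_odd_eq_zero (hg i j) h1, sub_zero]
      exact dvd_zero _

theorem tM_add {q : ι → ℤ} {r : κ → ℤ} {f g : Matrix ι κ S6}
    (hf : ∀ i j, Hg (-q i - r j) (f i j)) (hg : ∀ i j, Hg (-q i - r j) (g i j))
    (h : ∀ i j, Hg (-q i - r j) ((f + g) i j)) :
    tM W q r (f + g) h = tM W q r f hf + tM W q r g hg := by
  rw [tM, tM, tM, ← tv_add]
  refine tv_congr fun i hi => ?_
  rw [Pi.add_apply, row_even _ _ hi, row_even _ _ hi, row_even _ _ hi]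
  rfl

theorem tM_zero {q : ι → ℤ} {r : κ → ℤ} (h : ∀ i j, Hg (-q i - r j) ((0 : Matrix ι κ S6) i j)) :
    tM W q r 0 h = 0 :=
  (tv_congr fun _ hi => row_even _ h hi).trans (tv_zero q)

theorem tM_left {q : ι → ℤ} {q' : μ → ℤ} {r : κ → ℤ} {f : Matrix ι κ S6}
    (hf : ∀ i j, Hg (-q i - r j) (f i j)) (g : Matrix μ ι S6) (hg : O.L.HgM q q' g)
    (h : ∀ i j, Hg (-q' i - r j) ((g * f) i j)) :
    (ten W _).map (O.L.matA W g hg) (tM W q r f hf) = tM W q' r (g * f) h := by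
  rw [tM, ten_mat_tv, tM]
  refine tv_congr fun k hk => ?_
  obtain ⟨s, hs⟩ := id hk
  have h1 : ∀ i j, Hg (2 * -(q' k / 2) - r j) (g k i * f i j) := fun i j =>
    O.L.hga_mul' (hg k i) (hf i j) (by omega)
  rw [row_even _ _ hk]
  refine Eq.trans ?_ (O.L.FrO.mk_sum W Finset.univ (fun i j => g k i * f i j) h1
    (hg_row h hk)).symm
  refine Finset.sum_congr rfl fun i _ => ?_
  by_cases hi : Even (q i)
  · rw [row_even _ _ hi]
    refine O.L.FrO.act_mk W ?_ _ _
    have := hg k i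
    obtain ⟨t, ht⟩ := hi
    rwa [show q i - q' k = 2 * (-(q' k / 2) - -(q i / 2)) by omega] at this
  · have h2 : g k i = 0 := O.L.hga_odd_eq_zero (hg k i) fun ⟨t, ht⟩ => hi ⟨t + s, by omega⟩
    refine Eq.trans ?_ ((O.L.FrO.mk_eq_zero W).2 fun j => ?_).symm
    · rw [h2]
      exact O.L.act_zero_apply _ _ _
    · rw [h2, zero_mul]
      exact dvd_zero _

theorem tM_right {q : ι → ℤ} {r : κ → ℤ} {r' : μ → ℤ} {f : Matrix ι κ S6}
    (hf : ∀ i j, Hg (-q i - r j) (f i j)) (g : Matrix μ κ S6) (hg : O.L.HgM r r' g)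
    (h : ∀ i j, Hg (-q i - r' j) ((f * g.transpose) i j)) :
    (tenL W (O.L.matA W g hg).hom).app _ (tM W q r f hf) = tM W q r' (f * g.transpose) h := by
  rw [tM, tenL_tv, tM]
  refine tv_congr fun i hi => ?_
  rw [row_even _ _ hi, row_even _ _ hi]
  refine (O.L.matO_mk W g hg _ _).trans (O.L.FrO.mk_congr W (funext fun k => ?_))
  exact Finset.sum_congr rfl fun j _ => mul_comm _ _

omit [Fintype κ] [Fintype μ] in
theorem hg_left {q : ι → ℤ} {q' : μ → ℤ} {r : κ → ℤ} {f : Matrix ι κ S6}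
    (hf : ∀ i j, Hg (-q i - r j) (f i j)) {g : Matrix μ ι S6} (hg : O.L.HgM q q' g) (i : μ)
    (j : κ) : Hg (-q' i - r j) ((g * f) i j) :=
  O.L.hg_sum fun t => O.L.hga_mul' (hg i t) (hf t j) (by ring)

omit [Fintype ι] [Fintype κ] in
theorem hg_tr {q : ι → ℤ} {r : κ → ℤ} {f : Matrix ι κ S6}
    (hf : ∀ i j, Hg (-q i - r j) (f i j)) (j : κ) (i : ι) : Hg (-r j - q i) (f.transpose j i) := by
  have := hf i j
  rwa [show -q i - r j = -r j - q i by ring] at this

/-- the tensor product of a free module with `T(E)` is exact -/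
theorem ten_free (h0 : W ≠ 0) (r : κ → ℤ) {n : ℕ} (E : GMF W n) {j k l : ℤ} (hj : j + 1 = k)
    (hk : k + 1 = l) (z : (ten W (O.L.FrA W r).obj).obj ((O.L.TT E).X k))
    (hz : (ten W _).map ((O.L.TT E).d k l) z = 0) :
    ∃ y, z = (ten W _).map ((O.L.TT E).d j k) y := by
  obtain ⟨f, hf, rfl⟩ := tM_surj (q := O.L.qsel E (fun _ => True) k) z
  have hd := O.H319.hgd E hk
  have hd' := O.H319.hgd E hj
  rw [O.H319.TT_d E hk hd] at hz
  have h1 := (tM_inj _ (fun _ _ => O.L.hga_zero _)).1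
    ((tM_left hf E.d hd (hg_left hf hd)).symm.trans (hz.trans (tM_zero _).symm))
  have h2 : (tenL W ((O.L.TT E).d k l).hom).app _ (tM W r _ f.transpose (hg_tr hf)) = 0 := by
    rw [O.H319.TT_d E hk hd]
    refine (tM_right (hg_tr hf) E.d hd ?_).trans (((tM_inj _ (fun _ _ => O.L.hga_zero _)).2
      fun a b ha hb => ?_).trans (tM_zero _))
    · rw [← Matrix.transpose_mul]
      exact hg_tr (hg_left hf hd)
    · rw [← Matrix.transpose_mul]
      exact h1 b a hb ha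
  obtain ⟨y, hy⟩ := ten_exact (O.L.acySt hg6 h0 E j k l hj hk) _ h2
  obtain ⟨g, hg, rfl⟩ := tM_surj (r := O.L.qsel E (fun _ => True) j) y
  have h3 : ∀ a b, Hg (-r a - O.L.qsel E (fun _ => True) k b) ((g * E.d.transpose) a b) := by
    have := hg_tr (hg_left (hg_tr hg) hd')
    rwa [Matrix.transpose_mul, Matrix.transpose_transpose] at this
  have h4 : (tenL W ((O.L.TT E).d j k).hom).app _ (tM W r _ g hg) = tM W r _ _ h3 := by
    rw [O.H319.TT_d E hj hd']
    exact tM_right hg E.d hd' h3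
  have h5 := (tM_inj _ _).1 (hy.symm.trans h4)
  refine ⟨tM W _ r g.transpose (hg_tr hg), ?_⟩
  rw [O.H319.TT_d E hj hd']
  refine Eq.trans ((tM_inj _ _).2 fun a b ha hb => ?_)
    (tM_left (hg_tr hg) E.d hd' (hg_left (hg_tr hg) hd')).symm
  have h6 := h5 b a hb ha
  rwa [← Matrix.transpose_transpose (g * E.d.transpose), Matrix.transpose_mul,
    Matrix.transpose_transpose] at h6

end tM

end Vale.Agent.P287T.Fm.Hs
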