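import Vale.Agent.P287T.Fm.St
import Vale.Agent.P287T.Sv.Ext
import Vale.Agent.P287T.Sv.Uni

/-!
# Block FM: Serre vanishing (steps SV, ADJ0, GLOB)
-/

open CategoryTheory Limits MvPolynomial HomologicalComplex

universe w

namespace Vale.Agent.P287T.Fm

open Vale.Agent.P287Z Vale.Agent.P287Z.O.V Vale.Agent.P287T.Cy

variable {ν : ℕ} {I : Ideal (Gr.Sn ν)} [Fact (IsHom I)]
  [HasDerivedCategory.{w} (P294Z.Coh (PI I))] {m₀ : ℤ}

theorem SV.of_reg {N : Gr.GA I} (h : Sv.Reg m₀ N.obj) : SV I m₀ N := fun m hm =>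
  ⟨Sv.hom_bij (piI I) h fun _ _ => by lia,
    fun _ hk f => Sv.ext_zero (piI I) h (fun _ _ => by lia) hk f⟩

theorem exists_sv (N : Gr.GA I) : ∃ m₀, SV I m₀ N :=
  let ⟨m, h⟩ := Sv.exists_reg N.property.2
  ⟨m, SV.of_reg h⟩

theorem SV.mono {N : Gr.GA I} (h : SV I m₀ N) {m₁ : ℤ} (hm : m₀ ≤ m₁) : SV I m₁ N :=
  fun m h' => h m (hm.trans h')

/-- sums of maps which factor through modules with vanishing -/
theorem SV.pieces {N : Gr.GA I} {T : Type} [Fintype T] (A : T → Gr.GA I) (r : ∀ t, N ⟶ A t)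
    (i : ∀ t, A t ⟶ N) (e : ∑ t, r t ≫ i t = 𝟙 N) (h : ∀ t, SV I m₀ (A t)) : SV I m₀ N := by
  intro m hm
  refine ⟨⟨fun f g hfg => ?_, fun g => ?_⟩, fun k hk f => ?_⟩
  · rw [← Category.comp_id f, ← Category.comp_id g, ← e, Preadditive.comp_sum,
      Preadditive.comp_sum]
    refine Finset.sum_congr rfl fun t _ => ?_
    have h1 : f ≫ r t = g ≫ r t := (h t m hm).1.1 (((piI I).map_comp _ _).trans
      ((congrArg (· ≫ (piI I).map (r t)) hfg).trans ((piI I).map_comp _ _).symm))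
    rw [← Category.assoc, h1, Category.assoc]
  · choose f hf using fun t => (h t m hm).1.2 (g ≫ (piI I).map (r t))
    refine ⟨∑ t, f t ≫ i t, ?_⟩
    change (piI I).map _ = g
    rw [← Category.comp_id g, ← (piI I).map_id, ← e, Functor.map_sum, Functor.map_sum,
      Preadditive.comp_sum]
    refine Finset.sum_congr rfl fun t _ => ?_
    rw [Functor.map_comp, Functor.map_comp, ← Category.assoc]
    exact congrArg (· ≫ (piI I).map (i t)) (hf t)
  · have h1 : (piI I ⋙ sg I ⋙ shiftFunctor _ k).map (∑ t, r t ≫ i t) = 𝟙 _ := by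
      rw [e, CategoryTheory.Functor.map_id]
    rw [Functor.map_sum] at h1
    refine (Category.comp_id f).symm.trans ((congrArg (f ≫ ·) h1.symm).trans ?_)
    refine (Preadditive.comp_sum _ _ _).trans (Finset.sum_eq_zero fun t _ => ?_)
    rw [Functor.map_comp, ← Category.assoc]
    exact (congrArg (· ≫ _) ((h t m hm).2 k hk _)).trans zero_comp

theorem SV.retract {A B : Gr.GA I} (i : A ⟶ B) (r : B ⟶ A) (e : i ≫ r = 𝟙 A) (h : SV I m₀ B) :
    SV I m₀ A :=
  SV.pieces (T := Unit) (fun _ => B) (fun _ => i) (fun _ => r) (by simpa using e) fun _ => h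

theorem SV.iso {A B : Gr.GA I} (e : A ≅ B) (h : SV I m₀ A) : SV I m₀ B :=
  h.retract e.inv e.hom e.inv_hom_id

theorem SV.zero {A : Gr.GA I} (h : IsZero A) : SV I m₀ A :=
  SV.pieces (T := Empty) (fun t => t.elim) (fun t => t.elim) (fun t => t.elim) (h.eq_of_src _ _)
    fun t => t.elim

theorem SV.biprod {A B : Gr.GA I} (hA : SV I m₀ A) (hB : SV I m₀ B) : SV I m₀ (A ⊞ B) :=
  SV.pieces (T := Bool) (fun t => Bool.rec B A t) (fun t => Bool.rec biprod.snd biprod.fst t)
    (fun t => Bool.rec biprod.inr biprod.inl t) ((Fintype.sum_bool _).trans biprod.total)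
    fun t => Bool.rec hB hA t

theorem stAdj0 : StAdj0 I := by
  intro m₀ C b hC h m hm k
  set X : CochainComplex (Gr.GA I) ℤ := (single _ (ComplexShape.up ℤ) k).obj (Fr I m) with hX
  have hz : ∀ i, i ≠ k → IsZero (X.X i) := fun i hi => isZero_single_obj_X _ _ _ _ hi
  have e : X.X k ≅ Fr I m := singleObjXSelf _ _ _
  have hb : ∀ i j, Function.Bijective fun f : X.X i ⟶ C.X j => (piI I).map f := fun i j => by
    by_cases hi : i = k
    · subst hi
      refine ⟨fun f g hfg => (cancel_epi e.inv).1 ((h j m hm).1.1 (((piI I).map_comp _ _).trans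
        ((congrArg ((piI I).map e.inv ≫ ·) hfg).trans ((piI I).map_comp _ _).symm))), fun g => ?_⟩
      obtain ⟨f, hf⟩ := (h j m hm).1.2 ((piI I).map e.inv ≫ g)
      refine ⟨e.hom ≫ f, ((piI I).map_comp _ _).trans
        ((congrArg ((piI I).map e.hom ≫ ·) hf).trans ?_)⟩
      exact ((piI I).mapIso e).hom_inv_id_assoc g
    · exact ⟨fun _ _ _ => (hz i hi).eq_of_src _ _,
        fun g => ⟨0, ((piI I).map_isZero (hz i hi)).eq_of_src _ _⟩⟩
  have h1 := O.H409.ff0 (((piI I).mapHomologicalComplex (ComplexShape.up ℤ)).obj X)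
    (((piI I).mapHomologicalComplex (ComplexShape.up ℤ)).obj C) k b
    ((CochainComplex.isStrictlyLE_iff _ _).2 fun i hi => (piI I).map_isZero (hz i hi.ne'))
    ((CochainComplex.isStrictlyGE_iff _ _).2 fun i hi =>
      (piI I).map_isZero (C.isZero_of_isStrictlyGE b i hi)) fun i j n hn f => by
      by_cases hi : i = k
      · subst hi
        exact O.H409.van_iso ((piI I).mapIso e) (Iso.refl _) (h j m hm).2 n hn f
      · exact ((sg I).map_isZero ((piI I).map_isZero (hz i hi))).eq_of_src _ _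
  have q := DerivedCategory.quotientCompQhIso (P294Z.Coh (PI I))
  refine ⟨fun g => ?_, fun f => ⟨fun hf => ?_, fun ⟨H⟩ => ?_⟩⟩
  · obtain ⟨g', hg'⟩ := h1.2 (q.hom.app _ ≫ g ≫ q.inv.app _)
    obtain ⟨g'', rfl⟩ := (HomotopyCategory.quotient _ (ComplexShape.up ℤ)).map_surjective g'
    obtain ⟨f, rfl⟩ := O.H409.term_lift (piI I) hb g''
    refine ⟨f, (cancel_epi (q.hom.app _)).1 ((q.hom.naturality _).symm.trans ?_)⟩
    refine (congrArg (· ≫ q.hom.app _) hg').trans ?_
    simp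
  · refine O.H409.term_homotopy (piI I) hb f (HomotopyCategory.homotopyOfEq _ _ (h1.1 ?_))
    refine (cancel_mono (q.hom.app _)).1 ((q.hom.naturality _).trans
      (Eq.trans ?_ (q.hom.naturality _).symm))
    exact congrArg (q.hom.app _ ≫ ·) (hf.trans (DerivedCategory.Q.map_zero _ _).symm)
  · have h2 := HomotopyCategory.eq_of_homotopy _ _ ((piI I).mapHomotopy H)
    refine (cancel_epi (q.hom.app _)).1 ((q.hom.naturality _).symm.trans ?_)
    refine (congrArg (fun t => DerivedCategory.Qh.map t ≫ q.hom.app _) h2).trans ?_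
    simp

variable {W : S6}

/-- multiplication by the variables of the cubic -/
noncomputable def svX (N : Gr.Dg ν ⥤ O.L.GA W) (j : Fin 6) (k l : ℤ) : NY N k ⟶ NY N l where
  app m := O.L.act (N.obj m).obj (X j) k l
  naturality _ _ μ := (O.L.act_natural (N.map μ).hom (X j) k l).symm

omit [Fact (IsHom I)] [HasDerivedCategory.{w} (P294Z.Coh (PI I))] in
theorem Ker.exists_reg (K : Ker W I) : ∃ m, ∀ e, Sv.Reg m (K.Y e).obj := by
  refine Sv.exists_reg_uni (NY K.N) (fun j k => svX K.N j k (k + 1)) (fun e => (K.mem e).2)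
    (fun i j k => ?_) ?_ ?_
  · have h : ∀ i : Fin 6, Hg (2 * (k + 1 - k)) (X i : S6) := fun i => by
      rw [add_sub_cancel_left, mul_one]
      exact isWeightedHomogeneous_X _ _ _
    refine NatTrans.ext (funext fun m => ?_)
    refine (O.L.act_mul _ _ (h i) _).symm.trans (Eq.trans ?_ (O.L.act_mul _ _ (h j) _))
    rw [mul_comm]
  · obtain ⟨e₀, h⟩ := K.low
    exact ⟨e₀, fun k hk a v => (h k hk a).elim _ _⟩
  · obtain ⟨e₁, h⟩ := K.fg
    exact ⟨e₁, fun k hk a v => h k hk a v⟩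

theorem stGlob [Fact (W.IsHomogeneous 3)] : StGlob W I := fun K =>
  let ⟨m, h⟩ := K.exists_reg
  ⟨m, fun e => SV.of_reg (h e)⟩

end Vale.Agent.P287T.Fm
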