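import Vale.Agent.P287T.Fm.Hyp1
import Vale.Agent.P287T.Fm.Sv

/-!
# Steps SV and HYP
-/

open CategoryTheory Limits MvPolynomial Pretriangulated

universe w v u

namespace Vale.Agent.P287T.Fm

open Vale.Agent.P287Z Vale.Agent.P287Z.Gr Hy

section

variable {𝒟 : Type u} [Category.{v} 𝒟] [Preadditive 𝒟] [HasZeroObject 𝒟] [HasShift 𝒟 ℤ]
  [∀ n : ℤ, (shiftFunctor 𝒟 n).Additive] [Pretriangulated 𝒟] {T : Triangle 𝒟}
  (hT : T ∈ distTriang 𝒟) {X : 𝒟} {k : ℤ}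

include hT

theorem Hy.van₂ (h₁ : ∀ f : X ⟶ T.obj₁⟦k⟧, f = 0) (h₃ : ∀ f : X ⟶ T.obj₃⟦k⟧, f = 0)
    (f : X ⟶ T.obj₂⟦k⟧) : f = 0 := by
  obtain ⟨g, hg⟩ := Triangle.coyoneda_exact₂ _ (Triangle.shift_distinguished T hT k) f (h₃ _)
  exact hg.trans ((congrArg (· ≫ _) (h₁ g)).trans zero_comp)

theorem Hy.van₃ (h₂ : ∀ f : X ⟶ T.obj₂⟦k⟧, f = 0) (h₁ : ∀ f : X ⟶ T.obj₁⟦k + 1⟧, f = 0)
    (f : X ⟶ T.obj₃⟦k⟧) : f = 0 := by
  obtain ⟨g, hg⟩ := Triangle.coyoneda_exact₃ _ (Triangle.shift_distinguished T hT k) f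
    ((cancel_mono ((shiftFunctorAdd' 𝒟 k 1 (k + 1) rfl).inv.app T.obj₁)).1
      ((h₁ _).trans zero_comp.symm))
  exact hg.trans ((congrArg (· ≫ _) (h₂ g)).trans zero_comp)

end

variable {ν : ℕ} {I : Ideal (Sn ν)} [Fact (IsHom I)] [HasDerivedCategory.{w} (P294Z.Coh (PI I))]
  {m₀ : ℤ} {S : ShortComplex (GA I)}

omit [HasDerivedCategory.{w} (P294Z.Coh (PI I))] in
theorem Hy.lift_epi {m : ℤ} {A B : GA I} (g : A ⟶ B) [Epi g] (f : Fr I m ⟶ B) :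
    ∃ f' : Fr I m ⟶ A, f' ≫ g = f := by
  obtain ⟨y, hy⟩ := GA_app_surjective I g m (vl f)
  obtain ⟨f', rfl⟩ := vl_surj y
  exact ⟨f', vl_inj hy⟩

theorem SV.quot (hS : S.ShortExact) (h₁ : SV I m₀ S.X₁) (h₂ : SV I m₀ S.X₂) : SV I m₀ S.X₃ := by
  intro m hm
  have hS' := hS.map_of_exact (piI I)
  have := hS.epi_g
  have := hS'.mono_f
  refine ⟨⟨fun f g h => ?_, fun φ => ?_⟩, fun k hk =>
    van₃ hS'.singleTriangle_distinguished ((h₂ m hm).2 k hk) ((h₁ m hm).2 _ (by lia))⟩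
  · obtain ⟨t, ht⟩ := lift_epi S.g (f - g)
    obtain ⟨ψ, hψ⟩ := hS'.exact.lift' ((piI I).map t) (by
      change (piI I).map t ≫ (piI I).map S.g = 0
      rw [← Functor.map_comp, ht, Functor.map_sub, show (piI I).map f = (piI I).map g from h,
        sub_self])
    obtain ⟨s, rfl⟩ := (h₁ m hm).1.2 ψ
    have h3 : s ≫ S.f = t := (h₂ m hm).1.1 (((piI I).map_comp _ _).trans hψ)
    rw [← sub_eq_zero, ← ht, ← h3, Category.assoc, S.zero, comp_zero]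
  · obtain ⟨g, hg⟩ := Triangle.coyoneda_exact₃ _ hS'.singleTriangle_distinguished
      ((sg I).map φ) ((h₁ m hm).2 1 one_pos _)
    obtain ⟨ψ, rfl⟩ := (sg I).map_surjective g
    obtain ⟨f, rfl⟩ := (h₂ m hm).1.2 ψ
    exact ⟨f ≫ S.g, ((piI I).map_comp _ _).trans
      ((sg I).map_injective (((sg I).map_comp _ _).trans hg.symm))⟩

theorem SV.ext (hS : S.ShortExact) (h₁ : SV I m₀ S.X₁) (h₃ : SV I m₀ S.X₃) : SV I m₀ S.X₂ := by
  intro m hm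
  have hS' := hS.map_of_exact (piI I)
  have := hS.epi_g
  have := hS.mono_f
  have := hS'.mono_f
  refine ⟨⟨fun f g h => ?_, fun φ => ?_⟩, fun k hk =>
    van₂ hS'.singleTriangle_distinguished ((h₁ m hm).2 k hk) ((h₃ m hm).2 k hk)⟩
  · have h0 : (piI I).map (f - g) = 0 := by
      rw [Functor.map_sub, show (piI I).map f = (piI I).map g from h, sub_self]
    obtain ⟨s, hs⟩ := hS.exact.lift' (f - g) ((h₃ m hm).1.1 (by
      change (piI I).map _ = (piI I).map _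
      rw [Functor.map_comp, h0, zero_comp, Functor.map_zero]))
    have h4 : s = 0 := (h₁ m hm).1.1 ((cancel_mono (S.map (piI I)).f).1 (by
      change (piI I).map s ≫ (piI I).map S.f = (piI I).map 0 ≫ (piI I).map S.f
      rw [← Functor.map_comp, hs, h0, Functor.map_zero, zero_comp]))
    rw [← sub_eq_zero, ← hs, h4, zero_comp]
  · obtain ⟨c, hc⟩ := (h₃ m hm).1.2 (φ ≫ (piI I).map S.g)
    obtain ⟨t, rfl⟩ := lift_epi S.g c
    obtain ⟨ψ, hψ⟩ := hS'.exact.lift' (φ - (piI I).map t) (by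
      change (φ - (piI I).map t) ≫ (piI I).map S.g = 0
      rw [Preadditive.sub_comp, ← Functor.map_comp]
      exact sub_eq_zero.2 hc.symm)
    obtain ⟨s, rfl⟩ := (h₁ m hm).1.2 ψ
    refine ⟨s ≫ S.f + t, ?_⟩
    change (piI I).map _ = φ
    rw [Functor.map_add, Functor.map_comp]
    exact eq_sub_iff_add_eq.1 hψ

variable (I)

theorem stSv : StSv I :=
  ⟨exists_sv, fun _ => ⟨fun _ _ => SV.iso, fun _ => SV.zero, fun _ _ => SV.biprod,
    fun _ hS h₁ => ⟨SV.ext hS h₁, SV.quot hS h₁⟩⟩⟩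

theorem stHyp : StHyp I := stHyp_of (stSv I)

end Vale.Agent.P287T.Fm
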