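import Vale.Agent.P287T.Fm.St
import Vale.Agent.P287T.Sv.Hom

/-!
# Modules on which a variable is invertible in large degrees; point modules
-/

open CategoryTheory Limits MvPolynomial

universe w

namespace Vale.Agent.P287T.Fm.Hy

open Vale.Agent.P287Z Vale.Agent.P287Z.Gr Vale.Agent.P294.V

variable {ν : ℕ} {I : Ideal (Sn ν)} [Fact (IsHom I)]

variable (I) in
/-- the class of a form in the free module -/
noncomputable def fr (m : ℤ) {b : ℤ} (g : Sn ν) (hg : Hg (2 * (b - m)) g) :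
    (Fr I m).obj.obj ⟨b⟩ := FrO.mk I (fun _ => g) fun _ => by rwa [mul_sub] at hg

theorem fr_surj {m b : ℤ} (x : (Fr I m).obj.obj ⟨b⟩) : ∃ g hg, fr I m g hg = x := by
  obtain ⟨v, hv, rfl⟩ := FrO.mk_surj I x
  exact ⟨v 0, by rw [mul_sub]; exact hv 0,
    FrO.mk_congr I (funext fun i => by rw [Subsingleton.elim i 0])⟩

theorem hg1 (m : ℤ) : Hg (2 * (m - m)) (1 : Sn ν) := by simpa using hga_one

theorem act_fr {m b : ℤ} {g : Sn ν} (hg : Hg (2 * (b - m)) g) :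
    act (Fr I m).obj g m b (fr I m 1 (hg1 m)) = fr I m g hg :=
  (FrO.act_mk I hg _ fun _ => by rw [mul_one]; rwa [mul_sub] at hg).trans
    (FrO.mk_congr I (funext fun _ => mul_one g))

/-- the value on the generator -/
noncomputable def vl {m : ℤ} {N : GA I} (f : Fr I m ⟶ N) : N.obj.obj ⟨m⟩ :=
  f.hom.app ⟨m⟩ (fr I m 1 (hg1 m))

theorem app_fr {m b : ℤ} {N : GA I} (f : Fr I m ⟶ N) {g : Sn ν} (hg : Hg (2 * (b - m)) g) :
    f.hom.app ⟨b⟩ (fr I m g hg) = act N.obj g m b (vl f) := by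
  rw [← act_fr hg]
  exact act_natural_apply f.hom g m b _

theorem vl_inj {m : ℤ} {N : GA I} {f f' : Fr I m ⟶ N} (h : vl f = vl f') : f = f' := by
  refine ObjectProperty.hom_ext _ ?_
  ext ⟨b⟩ x
  obtain ⟨g, hg, rfl⟩ := fr_surj x
  exact (app_fr f hg).trans ((congrArg _ h).trans (app_fr f' hg).symm)

theorem vl_surj {m : ℤ} {N : GA I} (z : N.obj.obj ⟨m⟩) : ∃ f : Fr I m ⟶ N, vl f = z := by
  refine ⟨ObjectProperty.homMk (desc (q := fun _ : Fin 1 => 2 * m) N.property.1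
    fun _ => act N.obj 1 m (2 * m / 2) z), ?_⟩
  refine (desc_mk (q := fun _ : Fin 1 => 2 * m) N.property.1 _ _).trans ?_
  rw [Fin.sum_univ_one, ← act_mul_apply _ (by simpa using hga_one), mul_one, act_one_apply]

theorem vl_comp {m : ℤ} {N N' : GA I} (f : Fr I m ⟶ N) (g : N ⟶ N') :
    vl (f ≫ g) = g.hom.app ⟨m⟩ (vl f) := rfl

theorem vl_zero {m : ℤ} {N : GA I} : vl (0 : Fr I m ⟶ N) = 0 := rfl

theorem vl_sub {m : ℤ} {N : GA I} (f g : Fr I m ⟶ N) : vl (f - g) = vl f - vl g := rfl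

theorem large_of_zero {M N : GA I} {f : M ⟶ N} (h : (piI I).map f = 0) :
    ∃ n : ℤ, ∀ a ≥ n, ∀ x, f.hom.app ⟨a⟩ x = 0 := by
  obtain ⟨L, s, hs, h⟩ := (MorphismProperty.map_eq_iff_precomp (piI I) (tors I).isoModSerre f 0).1
    (h.trans ((piI I).map_zero _ _).symm)
  obtain ⟨n, hn⟩ := (Sv.iso_iff s).1 hs
  refine ⟨n, fun a ha x => ?_⟩
  obtain ⟨u, rfl⟩ := (hn a ha).2 x
  exact congrArg (fun t : L ⟶ N => t.hom.app ⟨a⟩ u) (h.trans comp_zero)

theorem hgp (i : Fin ν) (d : ℕ) : Hg (2 * (d : ℤ)) (X i ^ d : Sn ν) := hg_X_pow i d rfl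

theorem hgp' (i : Fin ν) (d : ℕ) {a b : ℤ} (h : a + d = b) :
    Hg (2 * (b - a)) (X i ^ d : Sn ν) := hg_X_pow i d (by lia)

/-- the variable `i` is invertible in large degrees -/
def Inv (i : Fin ν) (N : GA I) : Prop :=
  ∀ d : ℕ, (tors I).isoModSerre ((mulA I (hgp i d)).app N)

theorem lift_fr (i : Fin ν) (m : ℤ) {Z : GA I} (g : Z ⟶ Fr I m) (hg : (tors I).epiModSerre g) :
    ∃ (d : ℕ) (u : Fr I m ⟶ (twA I d).obj Z),
      u ≫ (twA I d).map g = (mulA I (hgp i d)).app (Fr I m) := by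
  obtain ⟨n, hn⟩ := (epi_iff I g).1 hg
  obtain ⟨z, hz⟩ := hn (m + ((n - m).toNat : ℤ)) (by lia)
    (vl (m := m) (N := (twA I ((n - m).toNat : ℤ)).obj (Fr I m))
      ((mulA I (hgp i (n - m).toNat)).app (Fr I m)))
  obtain ⟨u, hu⟩ := vl_surj (N := (twA I ((n - m).toNat : ℤ)).obj Z) (m := m) z
  exact ⟨_, u, vl_inj ((congrArg (g.hom.app ⟨m + ((n - m).toNat : ℤ)⟩) hu).trans hz)⟩

theorem Inv.ext [HasDerivedCategory.{w} (P294Z.Coh (PI I))] {i : Fin ν} {N : GA I} (hN : Inv i N)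
    (m k : ℤ) (hk : k ≠ 0) (ξ : (sg I).obj (Om I m) ⟶ ((sg I).obj ((piI I).obj N))⟦k⟧) :
    ξ = 0 := by
  refine hom_zero (fun A p hp => ?_) ξ
  have := Localization.essSurj (piI I) (tors I).isoModSerre
  let ε := (piI I).objObjPreimageIso A
  obtain ⟨r, hr⟩ := Localization.exists_rightFraction (piI I) (tors I).isoModSerre (ε.hom ≫ p)
  have h1 : (piI I).map r.s ≫ ε.hom ≫ p = (piI I).map r.f := by rw [hr, r.map_s_comp_map]
  have h0 := Localization.inverts (piI I) _ _ r.hs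
  have h3 : Epi ((piI I).map r.f) := by rw [← h1]; infer_instance
  obtain ⟨d, u, hu⟩ := lift_fr i m r.f
    ((ObjectProperty.SerreClassLocalization.epi_map_iff (piI I) (tors I) _).1 h3)
  obtain ⟨τ, _, _, _, f, e, he⟩ := exists_tw I (piI I) (hgp i d)
  have h2 : IsIso ((piI I).map ((mulA I (hgp i d)).app N)) :=
    Localization.inverts (piI I) _ _ (hN d)
  have h7 : (piI I).map ((twA I d).map r.f) ≫ e.inv.app _ =
      e.inv.app _ ≫ τ.map ((piI I).map r.f) := e.inv.naturality r.f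
  refine ⟨τ, ‹_›, ‹_›, ‹_›, f, by rw [he]; infer_instance,
    (piI I).map u ≫ e.inv.app _ ≫ τ.map ((piI I).map r.s ≫ ε.hom), ?_, Or.inl hk⟩
  rw [he, ← hu, (piI I).map_comp, Category.assoc, Category.assoc, Category.assoc, ← τ.map_comp,
    Category.assoc, h1, h7]

/-- saturation in the degrees `≥ m₀` -/
def Sat (m₀ : ℤ) (N : GA I) : Prop :=
  ∀ m ≥ m₀, Function.Bijective fun f : Fr I m ⟶ N => (piI I).map f

theorem Inv.inj {i : Fin ν} {N : GA I} (hN : Inv i N) {m₀ : ℤ} (hS : Sat m₀ N) {m : ℤ}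
    (hm : m₀ ≤ m) (d : ℕ) (z : N.obj.obj ⟨m⟩) (hz : act N.obj (X i ^ d) m (m + d) z = 0) :
    z = 0 := by
  obtain ⟨f, rfl⟩ := vl_surj z
  have h2 : IsIso ((piI I).map ((mulA I (hgp i d)).app N)) :=
    Localization.inverts (piI I) _ _ (hN d)
  have h1 : f ≫ (mulA I (hgp i d)).app N = 0 := vl_inj hz
  have h3 : (piI I).map f = (piI I).map 0 := by
    rw [← cancel_mono ((piI I).map ((mulA I (hgp i d)).app N)), ← (piI I).map_comp,
      ← (piI I).map_comp]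
    exact congrArg _ (h1.trans zero_comp.symm)
  rw [(hS m hm).1 h3, vl_zero]

theorem Inv.sur {i : Fin ν} {N : GA I} (hN : Inv i N) {m₀ : ℤ} (hS : Sat m₀ N) {m : ℤ}
    (hm : m₀ ≤ m) (d : ℕ) (t : N.obj.obj ⟨m + d⟩) :
    ∃ z, act N.obj (X i ^ d) m (m + d) z = t := by
  obtain ⟨g, hg⟩ := vl_surj (N := (twA I d).obj N) (m := m) t
  have h2 : IsIso ((piI I).map ((mulA I (hgp i d)).app N)) :=
    Localization.inverts (piI I) _ _ (hN d)
  obtain ⟨f, hf⟩ := (hS m hm).2 ((piI I).map g ≫ inv ((piI I).map ((mulA I (hgp i d)).app N)))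
  have h3 : (piI I).map (f ≫ (mulA I (hgp i d)).app N - g) = 0 := by
    rw [Functor.map_sub, Functor.map_comp, show (piI I).map f = _ from hf, Category.assoc,
      IsIso.inv_hom_id, Category.comp_id, sub_self]
  obtain ⟨n, hn⟩ := large_of_zero h3
  have h4 := hn (m + ((n - m).toNat : ℤ)) (by lia) (fr I m _ (hgp' i (n - m).toNat rfl))
  rw [app_fr] at h4
  refine ⟨vl f, sub_eq_zero.1 (hN.inj hS (by lia) (n - m).toNat _ ?_)⟩
  have h5 : act ((twS d).obj N.obj) (X i ^ (n - m).toNat) m (m + ((n - m).toNat : ℤ))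
    (act N.obj (X i ^ d) m (m + d) (vl f) - t) = 0 := by rw [← hg]; exact h4
  rw [act_tw] at h5
  have e : ∀ b, b = m + ((n - m).toNat : ℤ) + d → act N.obj (X i ^ (n - m).toNat) (m + d) b
      (act N.obj (X i ^ d) m (m + d) (vl f) - t) = 0 := by
    rintro _ rfl
    exact h5
  exact e _ (by ring)

omit [Fact (IsHom I)] in
theorem inv_of_tors (i : Fin ν) {N : GA I} (h : tors I N) : Inv i N := fun d => by
  obtain ⟨n, hn⟩ := h
  refine (Sv.iso_iff _).2 ⟨n, fun a ha => ⟨?_, fun y => ⟨0, ?_⟩⟩⟩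
  · exact @Function.injective_of_subsingleton _ _ (hn a ha) _
  · exact @Subsingleton.elim _ (hn (a + d) (by lia)) _ _

theorem Sat.zero {m₀ : ℤ} {N : GA I} (hS : Sat m₀ N) (h : tors I N) {m : ℤ} (hm : m₀ ≤ m)
    (z : N.obj.obj ⟨m⟩) : z = 0 := by
  obtain ⟨f, rfl⟩ := vl_surj z
  have h1 := (ObjectProperty.SerreClassLocalization.isZero_obj_iff (piI I) (tors I) N).2 h
  rw [(hS m hm).1 (h1.eq_of_tgt ((piI I).map f) ((piI I).map 0)), vl_zero]

theorem iso_of_span {F A B : GA I} (p : F ⟶ A) (q : F ⟶ B) (n : ℤ)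
    (hp : ∀ a ≥ n, Function.Surjective (p.hom.app ⟨a⟩))
    (hq : ∀ a ≥ n, Function.Surjective (q.hom.app ⟨a⟩))
    (h : ∀ a ≥ n, ∀ x, p.hom.app ⟨a⟩ x = 0 ↔ q.hom.app ⟨a⟩ x = 0) :
    Nonempty ((piI I).obj A ≅ (piI I).obj B) := by
  have key {A B : GA I} (p : F ⟶ A) (q : F ⟶ B)
      (h : ∀ a ≥ n, ∀ x, p.hom.app ⟨a⟩ x = 0 → q.hom.app ⟨a⟩ x = 0) :
      kernel.ι ((piI I).map p) ≫ (piI I).map q = 0 := by
    rw [← PreservesKernel.iso_inv_ι, Category.assoc, ← Functor.map_comp,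
      Sv.map_eq_of_large (piI I) (f := kernel.ι p ≫ q) (g := 0) n fun a ha x => h a ha _
        (congrArg (fun t : kernel p ⟶ A => t.hom.app ⟨a⟩ x) (kernel.condition p)),
      Functor.map_zero, comp_zero]
  have e1 : Epi ((piI I).map p) := (ObjectProperty.SerreClassLocalization.epi_map_iff (piI I)
    (tors I) _).2 ((epi_iff I p).2 ⟨n, hp⟩)
  have e2 : Epi ((piI I).map q) := (ObjectProperty.SerreClassLocalization.epi_map_iff (piI I)
    (tors I) _).2 ((epi_iff I q).2 ⟨n, hq⟩)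
  refine ⟨⟨Abelian.epiDesc _ _ (key p q fun a ha x => (h a ha x).1),
    Abelian.epiDesc _ _ (key q p fun a ha x => (h a ha x).2), ?_, ?_⟩⟩
  · rw [← cancel_epi ((piI I).map p), Abelian.comp_epiDesc_assoc, Abelian.comp_epiDesc,
      Category.comp_id]
  · rw [← cancel_epi ((piI I).map q), Abelian.comp_epiDesc_assoc, Abelian.comp_epiDesc,
      Category.comp_id]

/-- in the degrees `≥ n` the module is the module of the point `v`, generated by `ξ` -/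
structure PtM (N : GrS ν) (v : Fin ν → ℂ) {a : ℤ} (ξ : N.obj ⟨a⟩) (n : ℤ) : Prop where
  sur : ∀ m ≥ n, ∀ t : N.obj ⟨m⟩, ∃ g, Hg (2 * (m - a)) g ∧ t = act N g a m ξ
  zer : ∀ m ≥ n, ∀ g, Hg (2 * (m - a)) g → (act N g a m ξ = 0 ↔ eval v g = 0)

namespace PtM

variable {N : GrS ν} {v : Fin ν → ℂ} {a n : ℤ} {ξ : N.obj ⟨a⟩} {i : Fin ν}

theorem span (h : PtM N v ξ n) {m : ℤ} (hm : n ≤ m) {g : Sn ν} (hg : Hg (2 * (m - a)) g)
    (h0 : eval v g ≠ 0) (t : N.obj ⟨m⟩) : ∃ c : ℂ, t = c • act N g a m ξ := by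
  obtain ⟨f, hf, rfl⟩ := h.sur m hm t
  refine ⟨eval v f / eval v g, ?_⟩
  rw [← act_smul_apply, ← sub_eq_zero, ← act_sub_apply,
    h.zer m hm _ (hga_sub hf (hga_smul _ hg)), map_sub, smul_eval, div_mul_cancel₀ _ h0, sub_self]

theorem up (h : PtM N v ξ n) (hi : v i ≠ 0) (d : ℕ) {e : ℤ} (he : a + d = e) :
    PtM N v (act N (X i ^ d) a e ξ) (max n e) where
  sur m hm t := by
    obtain ⟨l, hl⟩ : ∃ l : ℕ, e + l = m := ⟨(m - e).toNat, by lia⟩
    obtain ⟨c, rfl⟩ := h.span (m := m) (by lia) (g := X i ^ d * X i ^ l)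
      (hga_mul' (hgp i d) (hgp i l) (by lia)) (by simp [hi]) t
    exact ⟨c • X i ^ l, hga_smul _ (hgp' i l hl), by
      rw [act_smul_apply, act_mul_apply _ (hgp' i d he)]⟩
  zer m hm g hg := by
    rw [← act_mul_apply _ (hgp' i d he), h.zer m (by lia) _
      (hga_mul' (hgp' i d he) hg (by ring))]
    simp [hi]

omit [Fact (IsHom I)] in
theorem inv {N : GA I} {ξ : N.obj.obj ⟨a⟩} (h : PtM N.obj v ξ n) (hi : v i ≠ 0) : Inv i N := by
  refine fun d => (Sv.iso_iff _).2 ⟨max n a, fun m hm => ?_⟩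
  obtain ⟨l, hl⟩ : ∃ l : ℕ, a + l = m := ⟨(m - a).toNat, by lia⟩
  have h1 : Hg (2 * (m + d - a)) (X i ^ l * X i ^ d : Sn ν) :=
    hga_mul' (hgp i l) (hgp i d) (by lia)
  refine ⟨(injective_iff_map_eq_zero _).2 fun t ht => ?_, fun t => ?_⟩
  · obtain ⟨g, hg, rfl⟩ := h.sur m (by lia) t
    have h2 : act N.obj (X i ^ d) m (m + d) (act N.obj g a m ξ) = 0 := ht
    rw [← act_mul_apply _ hg, h.zer _ (by lia) _ (hga_mul' hg (hgp i d) (by ring))] at h2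
    exact (h.zer m (by lia) g hg).2 (by simpa [hi] using h2)
  · obtain ⟨c, rfl⟩ := h.span (m := m + d) (by lia) h1 (by simp [hi]) t
    refine ⟨c • act N.obj (X i ^ l) a m ξ, ?_⟩
    rw [map_smul, act_mul_apply _ (hgp' i l hl)]
    rfl

theorem iso₀ {N N' : GA I} {ξ : N.obj.obj ⟨a⟩} {ξ' : N'.obj.obj ⟨a⟩} {n' : ℤ}
    (h : PtM N.obj v ξ n) (h' : PtM N'.obj v ξ' n') :
    Nonempty ((piI I).obj N ≅ (piI I).obj N') := by
  obtain ⟨p, rfl⟩ := vl_surj ξ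
  obtain ⟨q, rfl⟩ := vl_surj ξ'
  refine iso_of_span p q (max n n') (fun m hm t => ?_) (fun m hm t => ?_) fun m hm x => ?_
  · obtain ⟨g, hg, rfl⟩ := h.sur m (by lia) t
    exact ⟨_, app_fr p hg⟩
  · obtain ⟨g, hg, rfl⟩ := h'.sur m (by lia) t
    exact ⟨_, app_fr q hg⟩
  · obtain ⟨g, hg, rfl⟩ := fr_surj x
    rw [app_fr, app_fr, h.zer m (by lia) g hg, h'.zer m (by lia) g hg]

theorem cyc (v : Fin ν → ℂ) :
    PtM (FrO (ptI v) z1) v (cl (ptI v) (a := 0) 1 (by simpa using hga_one)) 0 where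
  sur m _ t := by
    obtain ⟨f, hf, rfl⟩ := cl_surj _ t
    have h1 : Hg (2 * (m - 0)) f := by rwa [sub_zero]
    exact ⟨f, h1, by rw [act_cl h1]; exact cl_eq.2 (by simp)⟩
  zer m _ g hg := by
    rw [act_cl hg, cl_eq_zero, mul_one, mem_ptI hg]

theorem iso {N : GA I} {ξ : N.obj.obj ⟨a⟩} (h : PtM N.obj v ξ n) (hv : Pt I v) :
    Nonempty ((piI I).obj N ≅ Ov I hv) := by
  obtain ⟨i, hi⟩ := Function.ne_iff.1 hv.1
  exact iso₀ (N' := cy (ih_ptI v) hv.2) (h.up hi (-a).toNat (e := a.toNat) (by lia))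
    ((cyc v).up hi a.toNat (by lia))

end PtM

end Vale.Agent.P287T.Fm.Hy
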