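import Vale.Agent.P287T.Fm.Hyp0
import Vale.Agent.P287T.Fm.ExL

/-!
# Step HYP: the cohomology of a resolution of a point
-/

open CategoryTheory Limits MvPolynomial

universe w

namespace Vale.Agent.P287T.Fm.Hy

open Vale.Agent.P287Z Vale.Agent.P287Z.Gr Vale.Agent.P294.V

variable {ν : ℕ} {I : Ideal (Sn ν)}

section Fib

theorem actT_single (N : GrS ν) {g : Sn ν} {a b : ℤ} (hg : Hg (2 * (b - a)) g) (x : N.obj ⟨a⟩) :
    actT N g (DFinsupp.single a x) = DFinsupp.single b (act N g a b x) := by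
  conv_lhs => rw [← MvPolynomial.support_sum_monomial_coeff g]
  rw [map_sum, LinearMap.sum_apply, act_apply_eq, ← DFinsupp.lsingle_apply (R := ℂ) b, map_sum]
  refine Finset.sum_congr rfl fun μ hμ => ?_
  have h : a + (μ.degree : ℤ) = b := by have := (hg_iff.1 hg) μ hμ; lia
  rw [map_smul, mon_apply_of_eq μ h, DFinsupp.lsingle_apply, ← shT_single N μ h]
  exact congrArg (fun t : Module.End ℂ (Π₀ m : ℤ, N.obj ⟨m⟩) => t (DFinsupp.single a x))
    (AddMonoidAlgebra.lift_single _ μ (coeff μ g))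

theorem actT_C (N : GrS ν) (c : ℂ) (t : Π₀ m : ℤ, N.obj ⟨m⟩) : actT N (C c) t = c • t :=
  congrArg (fun s : Module.End ℂ _ => s t) ((actT N).commutes c)

variable {A B : GA I} (f : A ⟶ B) (v : Fin ν → ℂ)

/-- the elements which are boundaries in the fibre at `v` -/
noncomputable def fb : Submodule ℂ (Π₀ m : ℤ, B.obj.obj ⟨m⟩) where
  carrier := {t | ∃ s, InI B.obj (mv v) (t - totL f.hom s)}
  zero_mem' := ⟨0, by rw [map_zero, sub_zero]; exact Submodule.zero_mem _⟩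
  add_mem' := by
    rintro t t' ⟨s, h⟩ ⟨s', h'⟩
    refine ⟨s + s', ?_⟩
    rw [map_add, add_sub_add_comm]
    exact Submodule.add_mem _ h h'
  smul_mem' := by
    rintro c t ⟨s, h⟩
    refine ⟨c • s, ?_⟩
    rw [map_smul, ← smul_sub, ← actT_C]
    exact Submodule.smul_mem _ (C c : Sn ν) h

theorem nb_iff (t : Π₀ m : ℤ, B.obj.obj ⟨m⟩) : NB f v t ↔ t ∉ fb f v := not_exists.symm

theorem bd_mem (m : ℤ) (y : A.obj.obj ⟨m⟩) :
    DFinsupp.single m (f.hom.app ⟨m⟩ y) ∈ fb f v := by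
  refine ⟨DFinsupp.single m y, ?_⟩
  have : totL f.hom (DFinsupp.single m y) = DFinsupp.single m (f.hom.app ⟨m⟩ y) :=
    DFinsupp.mapRange_single (hf := fun _ => map_zero _)
  rw [this, sub_self]
  exact Submodule.zero_mem _

theorem act_mem {g : Sn ν} {a b : ℤ} (hg : Hg (2 * (b - a)) g) (x : B.obj.obj ⟨a⟩) :
    DFinsupp.single b (act B.obj g a b x) - eval v g • DFinsupp.single a x ∈ fb f v := by
  refine ⟨0, ?_⟩
  rw [map_zero, sub_zero, ← actT_single _ hg, ← actT_C, ← LinearMap.sub_apply, ← map_sub]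
  exact Submodule.smul_mem_smul (M := Tot B.obj) (r := g - C (eval v g))
    (by simp [mv, RingHom.mem_ker]) Submodule.mem_top

variable {f v}

theorem nb_of {a b m : ℤ} {x : B.obj.obj ⟨a⟩} (hx : NB f v (DFinsupp.single a x)) {g g' : Sn ν}
    (hg : Hg (2 * (b - a)) g) (hg' : Hg (2 * (b - m)) g') (h0 : eval v g ≠ 0)
    {z : B.obj.obj ⟨m⟩} {y : A.obj.obj ⟨b⟩}
    (e : act B.obj g a b x - act B.obj g' m b z = f.hom.app ⟨b⟩ y) :
    NB f v (DFinsupp.single m z) := by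
  rw [nb_iff] at hx ⊢
  refine fun hz => hx (((fb f v).smul_mem_iff h0).1 ?_)
  have h1 := bd_mem f v b y
  rw [← e, DFinsupp.single_sub] at h1
  have h2 := (fb f v).sub_mem ((fb f v).add_mem ((fb f v).add_mem h1 (act_mem f v hg' z))
    ((fb f v).smul_mem (eval v g') hz)) (act_mem f v hg x)
  rwa [sub_add_sub_cancel, sub_add_cancel, sub_sub_cancel] at h2

end Fib

section Hs

variable (S : ShortComplex (GA I))

/-- the map induced on the cokernel -/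
noncomputable abbrev ga : cokernel S.f ⟶ S.X₃ := cokernel.desc S.f S.g S.zero

/-- `h` is the class of `x` -/
def Cls {m : ℤ} (h : (kernel (ga S)).obj.obj ⟨m⟩) (x : S.X₂.obj.obj ⟨m⟩) : Prop :=
  (kernel.ι (ga S)).hom.app ⟨m⟩ h = (cokernel.π S.f).hom.app ⟨m⟩ x

variable {S} {m : ℤ}

theorem ga_app (x : S.X₂.obj.obj ⟨m⟩) :
    (ga S).hom.app ⟨m⟩ ((cokernel.π S.f).hom.app ⟨m⟩ x) = S.g.hom.app ⟨m⟩ x :=
  congrArg (fun t : S.X₂ ⟶ S.X₃ => t.hom.app ⟨m⟩ x) (cokernel.π_desc S.f S.g S.zero)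

theorem exists_cyc (h : (kernel (ga S)).obj.obj ⟨m⟩) : ∃ x, Cls S h x ∧ S.g.hom.app ⟨m⟩ x = 0 := by
  obtain ⟨x, hx⟩ := GA_app_surjective I (cokernel.π S.f) m ((kernel.ι (ga S)).hom.app ⟨m⟩ h)
  refine ⟨x, hx.symm, ?_⟩
  rw [← ga_app, hx]
  exact congrArg (fun t : kernel (ga S) ⟶ S.X₃ => t.hom.app ⟨m⟩ h) (kernel.condition (ga S))

theorem exists_cls (x : S.X₂.obj.obj ⟨m⟩) (hx : S.g.hom.app ⟨m⟩ x = 0) : ∃ h, Cls S h x :=
  GA_exact_apply I (ShortComplex.exact_kernel (ga S)) m _ ((ga_app x).trans hx)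

theorem Cls.zero_iff {h : (kernel (ga S)).obj.obj ⟨m⟩} {x : S.X₂.obj.obj ⟨m⟩} (c : Cls S h x) :
    h = 0 ↔ ∃ y, x = S.f.hom.app ⟨m⟩ y := by
  constructor
  · rintro rfl
    obtain ⟨y, hy⟩ := GA_exact_apply I (ShortComplex.exact_cokernel S.f) m x
      (c.symm.trans (map_zero _))
    exact ⟨y, hy.symm⟩
  · rintro ⟨y, rfl⟩
    refine GA_app_injective I (kernel.ι (ga S)) m (c.trans (Eq.trans ?_ (map_zero _).symm))
    exact congrArg (fun t : S.X₁ ⟶ cokernel S.f => t.hom.app ⟨m⟩ y) (cokernel.condition S.f)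

theorem Cls.act {h : (kernel (ga S)).obj.obj ⟨m⟩} {x : S.X₂.obj.obj ⟨m⟩} (c : Cls S h x)
    (g : Sn ν) (b : ℤ) : Cls S (act _ g m b h) (act _ g m b x) := by
  unfold Cls at c ⊢
  rw [act_natural_apply, act_natural_apply, c]

theorem Cls.sub {h h' : (kernel (ga S)).obj.obj ⟨m⟩} {x x' : S.X₂.obj.obj ⟨m⟩} (c : Cls S h x)
    (c' : Cls S h' x') : Cls S (h - h') (x - x') := by
  unfold Cls at c c' ⊢
  rw [map_sub, map_sub, c, c']

theorem Cls.smul {h : (kernel (ga S)).obj.obj ⟨m⟩} {x : S.X₂.obj.obj ⟨m⟩} (c : Cls S h x)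
    (r : ℂ) : Cls S (r • h) (r • x) := by
  unfold Cls at c ⊢
  rw [map_smul, map_smul, c]

theorem tors_of_exL (h : ExL S.f S.g) : tors I (kernel (ga S)) := by
  obtain ⟨n, hn⟩ := h
  refine ⟨n, fun a ha => subsingleton_of_forall_eq 0 fun h => ?_⟩
  obtain ⟨x, c, hx⟩ := exists_cyc h
  obtain ⟨y, hy⟩ := hn a ha x hx
  exact c.zero_iff.2 ⟨y, hy.symm⟩

theorem ptM_of {v : Fin ν → ℂ} {a n : ℤ} {x : S.X₂.obj.obj ⟨a⟩}
    {ξ : (kernel (ga S)).obj.obj ⟨a⟩} (c : Cls S ξ x) (hx : NB S.f v (DFinsupp.single a x))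
    (h : ∀ m ≥ n, (∀ z : S.X₂.obj.obj ⟨m⟩, S.g.hom.app ⟨m⟩ z = 0 → ∃ g y,
      Hg (2 * (m - a)) g ∧ z = act _ g a m x + S.f.hom.app ⟨m⟩ y) ∧
      ∀ g, Hg (2 * (m - a)) g → eval v g = 0 → ∃ y, act _ g a m x = S.f.hom.app ⟨m⟩ y) :
    PtM (kernel (ga S)).obj v ξ n where
  sur m hm t := by
    obtain ⟨z, cz, hz⟩ := exists_cyc t
    obtain ⟨g, y, hg, e⟩ := (h m hm).1 z hz
    exact ⟨g, hg, sub_eq_zero.1 ((cz.sub (c.act g m)).zero_iff.2 ⟨y, by rw [e, add_sub_cancel_left]⟩)⟩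
  zer m hm g hg := by
    rw [(c.act g m).zero_iff]
    refine ⟨fun ⟨y, hy⟩ => ?_, (h m hm).2 g hg⟩
    by_contra h0
    refine nb_of hx hg (hg1 m) h0 (z := 0) (y := y) (by rw [map_zero, sub_zero, hy]) 0 ?_
    rw [DFinsupp.single_zero, map_zero, sub_zero]
    exact Submodule.zero_mem _

variable [Fact (IsHom I)] [HasDerivedCategory.{w} (P294Z.Coh (PI I))]

theorem sv_ker {A B : GA I} (γ : A ⟶ B) {m₀ : ℤ} (hA : SV I m₀ A) (hB : SV I m₀ B) {i : Fin ν}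
    (hi : Inv i (kernel γ)) : SV I m₀ (kernel γ) := fun m hm => by
  refine ⟨⟨fun f g h => ?_, fun φ => ?_⟩, fun k hk => hi.ext m k hk.ne'⟩
  · rw [← cancel_mono (kernel.ι γ)]
    refine (hA m hm).1.1 ?_
    change (piI I).map _ = (piI I).map _
    rw [Functor.map_comp, Functor.map_comp, show (piI I).map f = (piI I).map g from h]
  · obtain ⟨f, hf⟩ := (hA m hm).1.2 (φ ≫ (piI I).map (kernel.ι γ))
    have h1 : f ≫ γ = 0 := by
      refine (hB m hm).1.1 ?_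
      change (piI I).map _ = (piI I).map _
      rw [Functor.map_comp, show (piI I).map f = _ from hf, Category.assoc, ← Functor.map_comp,
        kernel.condition, Functor.map_zero, comp_zero, Functor.map_zero]
    refine ⟨kernel.lift γ f h1, ?_⟩
    change (piI I).map _ = _
    rw [← cancel_mono ((piI I).map (kernel.ι γ)), ← Functor.map_comp, kernel.lift_ι]
    exact hf

theorem sv_step (hS : StSv I) {m₀ : ℤ} (h₁ : SV I m₀ (cokernel S.f)) (h₃ : SV I m₀ S.X₃)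
    (hK : SV I m₀ (kernel (ga S))) : SV I m₀ (cokernel S.g) := by
  have h4 := ((hS.2 m₀).2.2.2 (ShortComplex.mk (kernel.ι (ga S)) (Abelian.coimage.π (ga S))
    (cokernel.condition _)) (ShortComplex.ShortExact.mk (ShortComplex.exact_cokernel _)) hK).2 h₁
  have w : Abelian.factorThruCoimage (ga S) ≫ cokernel.π S.g = 0 := by
    rw [← cancel_epi (Abelian.coimage.π (ga S)), ← Category.assoc, Abelian.coimage.fac,
      ← cancel_epi (cokernel.π S.f), cokernel.π_desc_assoc, cokernel.condition, comp_zero,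
      comp_zero]
  refine ((hS.2 m₀).2.2.2 (ShortComplex.mk _ _ w) (ShortComplex.ShortExact.mk
    (GA_exact_of_apply I fun a x hx => ?_)) h4).2 h₃
  obtain ⟨y, rfl⟩ := GA_exact_apply I (ShortComplex.exact_cokernel S.g) a x hx
  refine ⟨(Abelian.coimage.π (ga S)).hom.app ⟨a⟩ ((cokernel.π S.f).hom.app ⟨a⟩ y), ?_⟩
  exact (congrArg (fun t : cokernel S.f ⟶ S.X₃ => t.hom.app ⟨a⟩ ((cokernel.π S.f).hom.app ⟨a⟩ y))
    (Abelian.coimage.fac (ga S))).trans (ga_app y)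

end Hs

variable [Fact (IsHom I)] [HasDerivedCategory.{w} (P294Z.Coh (PI I))]

theorem sv_all (hS : StSv I) (C : CochainComplex (GA I) ℤ) {m₀ b : ℤ} (hb : C.IsStrictlyGE b)
    (hC : ∀ j, SV I m₀ (C.X j)) {i : Fin ν}
    (hi : ∀ j k l, j + 1 = k → k + 1 = l → Inv i (kernel (ga (C.sc' j k l)))) (k : ℤ) :
    ∀ j, j + 1 = k → SV I m₀ (cokernel (C.d j k)) := by
  have h0 : ∀ k < b, ∀ j, j + 1 = k → SV I m₀ (cokernel (C.d j k)) := fun k hk j _ =>
    (hS.2 m₀).2.1 _ ((C.isZero_of_isStrictlyGE b k hk).of_epi (cokernel.π _))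
  obtain ⟨r, hr⟩ : ∃ r : ℕ, k < b + r := ⟨(k - b).toNat + 1, by lia⟩
  induction r generalizing k with
  | zero => exact h0 k (by lia)
  | succ r ih =>
    intro j hj
    have h1 := ih j (by lia) (j - 1) (by lia)
    exact sv_step (S := C.sc' (j - 1) j k) hS h1 (hC _)
      (sv_ker (ga (C.sc' (j - 1) j k)) h1 (hC _) (hi _ _ _ (by lia) hj))

end Vale.Agent.P287T.Fm.Hy

namespace Vale.Agent.P287T.Fm

open Vale.Agent.P287Z Vale.Agent.P287Z.Gr Vale.Agent.P294.V Hy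

variable {ν : ℕ} {I : Ideal (Sn ν)} [Fact (IsHom I)] [HasDerivedCategory.{w} (P294Z.Coh (PI I))]

theorem PtCx.iso {C : CochainComplex (GA I) ℤ} {v : Fin ν → ℂ} (h : PtCx C v) (hv : Pt I v) :
    Nonempty ((QS I).obj C ≅ (DerivedCategory.singleFunctor _ 2).obj (Ov I hv)) := by
  obtain ⟨a, x, hx, hn, n, h2⟩ := h.gen
  obtain ⟨ξ, c⟩ := exists_cls (S := C.sc' 1 2 3) x hx
  obtain ⟨e⟩ := (ptM_of c hn h2).iso hv
  have := exL_isGE C 2 fun k hk => h.ex k hk.ne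
  have := exL_isLE C 2 fun k hk => h.ex k hk.ne'
  obtain ⟨Y, ⟨ε⟩⟩ := DerivedCategory.exists_iso_singleFunctor_obj_of_isGE_of_isLE ((QS I).obj C) 2
  exact ⟨ε ≪≫ (DerivedCategory.singleFunctor _ 2).mapIso
    ((DerivedCategory.singleFunctorCompHomologyFunctorIso _ 2).symm.app Y ≪≫
      (DerivedCategory.homologyFunctor _ 2).mapIso ε.symm ≪≫
      (DerivedCategory.homologyFunctorFactors _ 2).app _ ≪≫
      HomologicalComplex.homologyIsoSc' _ 1 2 3 (by simp) (by simp) ≪≫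
      (C.sc' 1 2 3).mapHomologyIso (piI I) ≪≫
      (piI I).mapIso (C.sc' 1 2 3).homologyIsoKernelDesc ≪≫ e)⟩

theorem stHyp_of (hS : StSv I) : StHyp I := by
  refine fun C v hv h => ⟨h.iso hv, fun m₀ b hb hC m hm => ?_⟩
  obtain ⟨i, hi⟩ := Function.ne_iff.1 hv.1
  obtain ⟨a, x, hx, hn, n, h2⟩ := h.gen
  obtain ⟨ξ, c⟩ := exists_cls (S := C.sc' 1 2 3) x hx
  have hP := ptM_of c hn h2
  have hT : ∀ k, k ≠ 2 → tors I (kernel (ga (C.sc' (k - 1) k (k + 1)))) := fun k hk =>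
    tors_of_exL (h.ex k hk)
  have hI : ∀ j k l, j + 1 = k → k + 1 = l → Inv i (kernel (ga (C.sc' j k l))) := by
    intro j k l hj hl
    by_cases hk : k = 2
    · obtain rfl : j = 1 := by lia
      obtain rfl : l = 3 := by lia
      subst hk
      exact hP.inv hi
    · obtain rfl : j = k - 1 := by lia
      subst hl
      exact inv_of_tors i (hT k hk)
  have hK : ∀ j k l, j + 1 = k → k + 1 = l → Sat m₀ (kernel (ga (C.sc' j k l))) :=
    fun j k l hj hl m hm =>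
      (sv_ker (ga (C.sc' j k l)) (sv_all hS C hb hC hI k j hj) (hC l) (hI j k l hj hl) m hm).1
  refine ⟨fun k hk z hz => ?_, ?_⟩
  · obtain ⟨t, ct⟩ := exists_cls (S := C.sc' (k - 1) k (k + 1)) z hz
    exact ct.zero_iff.1 ((hK _ _ _ (by lia) rfl).zero (hT k hk) hm t)
  obtain ⟨d, hd⟩ : ∃ d : ℕ, max n a ≤ m + d := ⟨(max n a - m).toNat, by lia⟩
  obtain ⟨l, hl⟩ : ∃ l : ℕ, a + l = m + d := ⟨(m + d - a).toNat, by lia⟩
  have h0 : eval v (X i ^ l : Sn ν) ≠ 0 := by simpa using fun h => absurd h hi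
  obtain ⟨t, ht⟩ := (hP.inv hi).sur (hK 1 2 3 rfl rfl) hm d (act _ (X i ^ l) a (m + d) ξ)
  obtain ⟨z, cz, hz⟩ := exists_cyc t
  obtain ⟨y, hy⟩ := ((c.act (X i ^ l) (m + d)).sub (cz.act (X i ^ d) (m + d))).zero_iff.1
    (by rw [ht, sub_self])
  refine ⟨z, hz, nb_of hn (hgp' i l hl) (hgp' i d rfl) h0 hy, fun z' hz' => ?_⟩
  obtain ⟨t', ct'⟩ := exists_cls (S := C.sc' 1 2 3) z' hz'
  obtain ⟨r, hr⟩ := hP.span (m := m + d) (by lia) (hgp' i l hl) h0 (act _ (X i ^ d) m (m + d) t')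
  obtain ⟨y', hy'⟩ := (ct'.sub (cz.smul r)).zero_iff.1 ((hP.inv hi).inj (hK 1 2 3 rfl rfl) hm d _
    (by rw [map_sub, map_smul, hr, ht, sub_self]))
  exact ⟨r, y', sub_eq_iff_eq_add'.1 hy'⟩

end Vale.Agent.P287T.Fm
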