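import Vale.Agent.P287T.Fm.St
import Vale.Agent.P287T.Gb.Alg
import Vale.Agent.P287T.Dt.Del

/-!
# Idempotents split in the homotopy category of matrix factorizations
-/

namespace Vale.Agent.P287T.Fm

open Vale.Agent.P287Z Vale.Agent.P287Z.O.V Vale.Agent.P287T.Cy Vale.Agent.P287T.Fa

namespace IdB

open Polynomial in
theorem poly {μ : ℂ[X]} (h : μ ≠ 0) :
    ∃ e g k : ℂ[X], e * e - e = μ * g ∧ e - X = (X * X - X) * k := by
  obtain ⟨q, h1, h2⟩ := exists_eq_pow_rootMultiplicity_mul_and_not_dvd μ h 1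
  generalize rootMultiplicity 1 μ = N at h1
  have h3 : IsCoprime (X - C (1 : ℂ)) X := ⟨-1, 1, by rw [map_one]; ring⟩
  obtain ⟨a, b, h4⟩ := (h3.mul_right ((irreducible_X_sub_C 1).coprime_iff_not_dvd.2 h2)).pow_left
    (m := N + 1)
  rw [map_one] at h1 h4
  refine ⟨b * (X * q), -(a * b * X * (X - 1)), -(b * q) - a * (X - 1) ^ N, ?_, ?_⟩
  · rw [h1]
    linear_combination b * (X * q) * h4
  · linear_combination X * h4

variable {ι : Type} [Fintype ι] [DecidableEq ι] {p : ι → ℤ} {d f : Matrix ι ι S6}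

theorem lift (hf : f ∈ ZZ p d p d 0) (h : f * f - f ∈ BB p d p d 0) :
    ∃ e ∈ ZZ p d p d 0, e * e = e ∧ e - f ∈ BB p d p d 0 := by
  let Z : Subalgebra ℂ (Matrix ι ι S6) :=
    (ZZ p d p d 0).toSubalgebra Dt.one_zz fun _ _ => Dt.ZZ_mul
  have h1 : ∀ g, Polynomial.aeval f g ∈ Z := fun g =>
    Algebra.adjoin_le (Set.singleton_subset_iff.2 hf) (Polynomial.aeval_mem_adjoin_singleton ℂ f)
  obtain ⟨μ, h2, h3⟩ := IsIntegral.of_mem_of_fg Z (Module.Finite.iff_fg.1 Dt.zz_fin) f hf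
  obtain ⟨e, g, k, h4, h5⟩ := poly h2.ne_zero
  have h6 := congrArg (Polynomial.aeval f) h4
  have h7 := congrArg (Polynomial.aeval f) h5
  simp only [map_sub, map_mul, Polynomial.aeval_X] at h6 h7
  rw [show Polynomial.aeval f μ = 0 from h3, zero_mul, sub_eq_zero] at h6
  exact ⟨_, h1 e, h6, h7 ▸ Dt.BZ_mul h (h1 k)⟩

end IdB

theorem stIdemB (W : S6) : StIdem W := by
  intro n E f hf h
  have z : ∀ {m n : ℕ} (X : GMF W m) (Y : GMF W n) g, Cl X Y g ↔ g ∈ ZZ X.p X.d Y.p Y.d 0 :=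
    fun X Y g => by simp only [Cl, mem_ZZ, mem_MM, zero_add]
  have b : ∀ {m n : ℕ} (X : GMF W m) (Y : GMF W n) g, Nh X Y g ↔ g ∈ BB X.p X.d Y.p Y.d 0 :=
    fun X Y g => by
      simp only [Nh, mem_BB, mem_MM, show ∀ x y : ℤ, 0 - 3 + x - y = x - y - 3 from
        fun x y => by ring]
  obtain ⟨e, h1, h2, h3⟩ := IdB.lift ((z _ _ _).1 hf) ((b _ _ _).1 h)
  obtain ⟨h4, h5⟩ := mem_ZZ.1 h1
  obtain ⟨m, q, a, c, s⟩ := exists_spl (Gb.c0_blk h4) (Gb.c0_idem h2)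
  obtain ⟨i, r, hi, hr, k1, k2⟩ : ∃ (i : Matrix (Fin n) (Fin m) S6) (r : Matrix (Fin m) (Fin n) S6),
      i ∈ MM q E.p 0 ∧ r ∈ MM E.p q 0 ∧ r * i = 1 ∧ i * r = e := by
    refine ⟨Gb.cj e * cM c, cM a * Gb.ci E.p e, Gb.mm_mul (Gb.cj_mm h4) s.bb.mm rfl,
      Gb.mm_mul s.ba.mm (Gb.ci_mm h4) rfl, ?_, ?_⟩
    · rw [Matrix.mul_assoc, ← Matrix.mul_assoc _ (Gb.cj e), Gb.ci_cj h4 h2, Matrix.one_mul,
        ← cM_mul, s.one, cM_one]
    · rw [Matrix.mul_assoc, ← Matrix.mul_assoc (cM c), ← cM_mul, s.eq, ← Gb.ci_conj h4 h2,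
        Matrix.mul_assoc, Gb.cj_ci h4 h2, Matrix.mul_one, ← Matrix.mul_assoc, Gb.cj_ci h4 h2,
        Matrix.one_mul]
  have k3 : E.d * i = i * (r * E.d * i) := by
    rw [← Matrix.mul_assoc, ← Matrix.mul_assoc, k2, ← h5, ← k2, Matrix.mul_assoc, Matrix.mul_assoc,
      k1, Matrix.mul_one]
  have k4 : r * E.d * i * r = r * E.d := by
    rw [Matrix.mul_assoc, k2, Matrix.mul_assoc, h5, ← k2, ← Matrix.mul_assoc, ← Matrix.mul_assoc,
      k1, Matrix.one_mul]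
  refine ⟨m, ⟨q, r * E.d * i, Gb.mm_mul (Gb.mm_mul hr E.deg rfl) hi rfl, ?_⟩, i, r,
    (z _ _ _).2 ⟨hi, k3⟩, (z _ _ _).2 ⟨hr, k4⟩, (b _ _ _).2 ?_, (b _ _ _).2 (k2 ▸ h3)⟩
  · rw [Matrix.mul_assoc _ i, ← k3, Matrix.mul_assoc, ← Matrix.mul_assoc E.d, E.sq,
      Matrix.smul_mul, Matrix.one_mul, Matrix.mul_smul, k1]
  · exact (sub_eq_zero.2 k1).symm ▸ zero_mem _

end Vale.Agent.P287T.Fm
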