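import Vale.Agent.P287T.Fm.St
import Vale.Agent.P287T.Gb.Alg

/-!
# Idempotents split in the homotopy category of graded matrix factorizations
-/

open Polynomial

namespace Vale.Agent.P287T.Fm.Idm

open Vale.Agent.P287Z Vale.Agent.P287Z.O.V Vale.Agent.P287T.Cy Fa Gb

theorem exists_poly {μ : ℂ[X]} (h : μ ≠ 0) : ∃ e w : ℂ[X], μ ∣ e * e - e ∧
    e - X = w * (X * X - X) := by
  obtain ⟨ν, h1, h2⟩ := exists_eq_pow_rootMultiplicity_mul_and_not_dvd μ h 1
  generalize rootMultiplicity 1 μ = b at h1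
  have c : IsCoprime (X : ℂ[X]) (X - C 1) := ⟨1, -1, by simp⟩
  obtain ⟨u, v, huv⟩ : IsCoprime (X * ν) ((X - C 1) ^ (b + 1)) :=
    (c.mul_left ((irreducible_X_sub_C 1).coprime_iff_not_dvd.2 h2).symm).pow_right
  have e : u * (X * ν) - 1 = -v * (X - C 1) ^ (b + 1) := by linear_combination huv
  obtain ⟨w, hw⟩ : X * (X - C 1) ∣ u * (X * ν) - X :=
    c.mul_dvd ⟨u * ν - 1, by ring⟩ ⟨-v * (X - C 1) ^ b - 1, by
      rw [C_1] at e ⊢; linear_combination e⟩
  exact ⟨u * (X * ν), w, ⟨u * X * -v * (X - C 1), by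
    rw [h1]; linear_combination (u * (X * ν)) * e⟩, by rw [hw, C_1]; ring⟩

variable {ι : Type} [Fintype ι] [DecidableEq ι] (p : ι → ℤ) (d : Matrix ι ι S6)

/-- the algebra of closed endomorphisms -/
noncomputable def En : Subalgebra ℂ (Matrix ι ι S6) := (ZZ p d p d 0).toSubalgebra
  ⟨Fa.MM_one, (mul_one d).trans (one_mul d).symm⟩ fun _ _ a b => ⟨mm_mul a.1 b.1 rfl, by
    rw [← mul_assoc, a.2, mul_assoc, b.2, mul_assoc]⟩

variable {p d}

theorem exists_idem {f : Matrix ι ι S6} (hf : f ∈ ZZ p d p d 0) :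
    ∃ e ∈ ZZ p d p d 0, ∃ w ∈ ZZ p d p d 0, e * e = e ∧ e - f = w * (f * f - f) := by
  have : Module.Finite ℂ (En p d) :=
    Submodule.finiteDimensional_of_le (S₂ := MM p p 0) (S₁ := ZZ p d p d 0) fun _ h => h.1
  let g : En p d := ⟨f, hf⟩
  obtain ⟨e, w, ⟨k, h1⟩, h2⟩ := exists_poly (minpoly.ne_zero (IsIntegral.of_finite ℂ g))
  refine ⟨_, (aeval g e).2, _, (aeval g w).2, ?_, ?_⟩
  · have := congrArg (fun q => (aeval g q).1) h1
    simp only [map_sub, map_mul, minpoly.aeval, zero_mul] at this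
    exact sub_eq_zero.1 this
  · have := congrArg (fun q => (aeval g q).1) h2
    simp only [map_sub, map_mul, aeval_X] at this
    exact this

/-- **Idempotents split.** -/
theorem stIdem (W : S6) : StIdem W := fun E f hf ⟨h, h1, h2⟩ => by
  have z : ∀ {m n : ℕ} {p : Fin m → ℤ} {q : Fin n → ℤ} {g : Matrix (Fin n) (Fin m) S6},
      g ∈ MM p q 0 ↔ ∀ i j, Hg (p j - q i) (g i j) := by
    simp only [mem_MM, zero_add, implies_true]
  obtain ⟨e, he, w, hw, ee, ef⟩ := exists_idem (p := E.p) (d := E.d) ⟨z.2 hf.1, hf.2⟩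
  obtain ⟨m, q, a, b, k⟩ := exists_spl (c0_blk he.1) (c0_idem ee)
  have hi := mm_mul (cj_mm he.1) k.bb.mm rfl
  have hr := mm_mul k.ba.mm (ci_mm he.1) rfl
  have ri : cM a * ci E.p e * (cj e * cM b) = 1 := by
    rw [Matrix.mul_assoc, ← Matrix.mul_assoc _ (cj e), ci_cj he.1 ee, Matrix.one_mul, k.ab]
  have ir : cj e * cM b * (cM a * ci E.p e) = e := by
    rw [Matrix.mul_assoc, ← Matrix.mul_assoc (cM b), k.ba', ← ci_conj he.1 ee]
    simp only [← mul_assoc, cj_ci he.1 ee, one_mul]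
    rw [mul_assoc, cj_ci he.1 ee, mul_one]
  generalize cj e * cM b = i at hi ri ir
  generalize cM a * ci E.p e = r at hr ri ir
  have ei : e * i = i := by rw [← ir, Matrix.mul_assoc, ri, Matrix.mul_one]
  have re : r * e = r := by rw [← ir, ← Matrix.mul_assoc, ri, Matrix.one_mul]
  have c1 : E.d * i = i * (r * E.d * i) := by
    rw [← Matrix.mul_assoc, ← Matrix.mul_assoc, ir, ← he.2, Matrix.mul_assoc, ei]
  refine ⟨m, ⟨q, r * E.d * i, mm_mul (mm_mul hr (isMF_gmf E).deg (zero_add 3).symm) hi rfl, ?_⟩,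
    i, r, ⟨z.1 hi, c1⟩, ⟨z.1 hr, ?_⟩, ⟨0, fun _ _ => O.L.hga_zero _, by simp [ri]⟩,
    w * h, fun s t => ?_, ?_⟩
  · rw [Matrix.mul_assoc, ← c1, Matrix.mul_assoc, ← Matrix.mul_assoc E.d, E.sq, Matrix.smul_mul,
      Matrix.one_mul, Matrix.mul_smul, ri]
  · show r * E.d * i * r = r * E.d
    rw [Matrix.mul_assoc, ir, Matrix.mul_assoc, he.2, ← Matrix.mul_assoc, re]
  · have := mm_mul (q := E.p) (r := E.p) hw.1 (show h ∈ MM E.p E.p (-3) from fun s t => by
      have := h1 s t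
      rwa [show E.p t - E.p s - 3 = -3 + E.p t - E.p s by ring] at this) (zero_add _) s t
    rwa [show -3 + E.p t - E.p s = E.p t - E.p s - 3 by ring] at this
  · rw [ir, ef, h2, mul_add, ← mul_assoc, ← hw.2, mul_assoc, mul_assoc]

end Vale.Agent.P287T.Fm.Idm
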