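import Vale.Agent.P287T.Cy.Alg

/-!
# Clifford matrices and the stabilised residue field
-/

open MvPolynomial Matrix

namespace Vale.Agent.P287T.Fm

open Vale.Agent.P287T.Cy Vale.Agent.P287Z.O Vale.Agent.P287Z.O.L

/-- contractions and exterior multiplications -/
structure KapC (k : ℕ) where
  ι : Type
  [fι : Fintype ι]
  [dι : DecidableEq ι]
  n : ι → ℕ
  o : ι
  c : Fin k → Matrix ι ι ℂ
  b : Fin k → Matrix ι ι ℂ
  no : ∀ J, n J = 0 ↔ J = o
  hc : ∀ i J J', c i J J' ≠ 0 → n J + 1 = n J'
  hb : ∀ i J J', b i J J' ≠ 0 → n J = n J' + 1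
  cc : ∀ i j, c i * c j + c j * c i = 0
  bb : ∀ i j, b i * b j + b j * b i = 0
  cb : ∀ i j, c i * b j + b j * c i = if i = j then 1 else 0
  num : ∑ i, b i * c i = diagonal fun J => (n J : ℂ)

attribute [instance] KapC.fι KapC.dι

/-- one more generator -/
noncomputable def KapC.succ {k : ℕ} (K : KapC k) : KapC (k + 1) where
  ι := K.ι ⊕ K.ι
  n := Sum.elim K.n fun J => K.n J + 1
  o := Sum.inl K.o
  c := Fin.cons (fromBlocks 0 1 0 0) fun i => fromBlocks (K.c i) 0 0 (-K.c i)
  b := Fin.cons (fromBlocks 0 0 1 0) fun i => fromBlocks (K.b i) 0 0 (-K.b i)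
  no J := by
    rcases J with J | J
    · exact (K.no J).trans Sum.inl_injective.eq_iff.symm
    · exact iff_of_false (Nat.succ_ne_zero _) Sum.inr_ne_inl
  hc i J J' h := by
    induction i using Fin.cases with
    | zero =>
      rcases J with J | J <;> rcases J' with J' | J'
      any_goals exact absurd rfl h
      obtain rfl : J = J' := by_contra fun e => h (one_apply_ne e)
      rfl
    | succ i =>
      rcases J with J | J <;> rcases J' with J' | J'
      any_goals exact absurd rfl h
      · exact K.hc i J J' h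
      · exact congrArg (· + 1) (K.hc i J J' (neg_ne_zero.1 h))
  hb i J J' h := by
    induction i using Fin.cases with
    | zero =>
      rcases J with J | J <;> rcases J' with J' | J'
      any_goals exact absurd rfl h
      obtain rfl : J = J' := by_contra fun e => h (one_apply_ne e)
      rfl
    | succ i =>
      rcases J with J | J <;> rcases J' with J' | J'
      any_goals exact absurd rfl h
      · exact K.hb i J J' h
      · exact congrArg (· + 1) (K.hb i J J' (neg_ne_zero.1 h))
  cc i j := by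
    induction i using Fin.cases <;> induction j using Fin.cases <;>
      simp [fromBlocks_multiply, fromBlocks_add, K.cc]
  bb i j := by
    induction i using Fin.cases <;> induction j using Fin.cases <;>
      simp [fromBlocks_multiply, fromBlocks_add, K.bb]
  cb i j := by
    induction i using Fin.cases <;> induction j using Fin.cases
    · simp [fromBlocks_multiply, fromBlocks_add]
    · simp [fromBlocks_multiply, fromBlocks_add, (Fin.succ_ne_zero _).symm]
    · simp [fromBlocks_multiply, fromBlocks_add]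
    · simp only [Fin.cons_succ, fromBlocks_multiply, fromBlocks_add, Matrix.mul_zero,
        Matrix.zero_mul, add_zero, zero_add, neg_mul_neg, K.cb, Fin.succ_inj]
      split_ifs
      · exact fromBlocks_one
      · exact fromBlocks_zero
  num := by
    rw [Fin.sum_univ_succ]
    simp only [Fin.cons_succ, Fin.cons_zero, fromBlocks_multiply, Matrix.mul_zero,
      Matrix.zero_mul, add_zero, zero_add, neg_mul_neg, Matrix.mul_one]
    ext J J'
    have h := congrFun₂ K.num
    rcases J with J | J <;> rcases J' with J' | J'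
    · simpa [Matrix.sum_apply, diagonal_apply] using h J J'
    · simp [Matrix.sum_apply]
    · simp [Matrix.sum_apply]
    · have := h J J'
      simp only [Matrix.sum_apply, diagonal_apply] at this
      simp only [Matrix.add_apply, Matrix.sum_apply, fromBlocks_apply₂₂, this, diagonal_apply,
        Sum.inr.injEq, Sum.elim_inr, one_apply]
      split_ifs
      · push_cast; ring
      · exact add_zero _

theorem kap_exists : ∀ k, Nonempty (KapC k)
  | 0 => ⟨{ ι := Unit, n := fun _ => 0, o := (), c := Fin.elim0, b := Fin.elim0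
            no := fun _ => iff_of_true rfl rfl, hc := fun i => i.elim0, hb := fun i => i.elim0
            cc := fun i => i.elim0, bb := fun i => i.elim0, cb := fun i => i.elim0
            num := by ext; simp }⟩
  | k + 1 => (kap_exists k).map KapC.succ

theorem kap_der {ι κ μ : Type} [Fintype κ] (i : Fin 6) (A : Matrix μ κ S6) (B : Matrix κ ι S6) :
    (A * B).map (pderiv i) = A.map (pderiv i) * B + A * B.map (pderiv i) := by
  ext1 a b
  simp only [Matrix.map_apply, Matrix.mul_apply, Matrix.add_apply, map_sum, Derivation.leibniz,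
    smul_eq_mul, ← Finset.sum_add_distrib]
  exact Finset.sum_congr rfl fun k _ => by ring

theorem kap_euler (f : S6) (m : Fin 6 →₀ ℕ) :
    coeff m (∑ i, X i * pderiv i f) = (m.degree : ℂ) * coeff m f := by
  classical
  induction f using MvPolynomial.induction_on' with
  | monomial u a =>
    simp only [X_mul_pderiv_monomial, ← Finset.sum_smul, coeff_smul, coeff_monomial]
    split_ifs with h
    · rw [h, Finsupp.degree_eq_sum, nsmul_eq_mul]
    · rw [smul_zero, mul_zero]
  | add f g hf hg =>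
    simp only [map_add, mul_add, Finset.sum_add_distrib, coeff_add, hf, hg]

theorem kap_two {ι κ : Type} {A : Matrix κ ι S6} (h : A + A = 0) : A = 0 := by
  rw [← two_smul ℂ] at h
  exact (smul_eq_zero.1 h).resolve_left two_ne_zero

theorem kap_const {ι κ : Type} {p : ι → ℤ} {q : κ → ℤ} {j : ℤ} {a : Matrix κ ι ℂ}
    (h : ∀ i l, a i l ≠ 0 → j + p l - q i = 0) : a.map C ∈ MM p q j := fun i l => by
  rw [Matrix.map_apply]
  by_cases e : a i l = 0
  · rw [e, C_0]
    exact hga_zero _
  · rw [h i l e]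
    exact isWeightedHomogeneous_C _ _

namespace KapC

variable (K : KapC 6) (W : S6)

/-- the charges -/
def p (J : K.ι) : ℤ := -(K.n J : ℤ)

/-- the contractions -/
noncomputable def cs (i : Fin 6) : Matrix K.ι K.ι S6 := (K.c i).map C

/-- the exterior multiplications -/
noncomputable def bs (i : Fin 6) : Matrix K.ι K.ι S6 := (K.b i).map C

theorem cs_mem (i : Fin 6) : K.cs i ∈ MM K.p K.p 1 :=
  kap_const fun J J' h => by have := K.hc i J J' h; simp only [p]; omega

theorem bs_mem (i : Fin 6) : K.bs i ∈ MM K.p K.p (-1) :=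
  kap_const fun J J' h => by have := K.hb i J J' h; simp only [p]; omega

theorem map_ac {A B D : Matrix K.ι K.ι ℂ} (h : A * B + B * A = D) :
    A.map C * B.map C + B.map C * A.map (C : ℂ →+* S6) = D.map C := by
  rw [← Matrix.map_mul, ← Matrix.map_mul, ← Matrix.map_add _ (map_add _), h]

theorem cs_cs (i j : Fin 6) : K.cs i * K.cs j + K.cs j * K.cs i = 0 :=
  (K.map_ac (K.cc i j)).trans (Matrix.map_zero _ C_0)

theorem bs_bs (i j : Fin 6) : K.bs i * K.bs j + K.bs j * K.bs i = 0 :=
  (K.map_ac (K.bb i j)).trans (Matrix.map_zero _ C_0)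

theorem cs_bs (i j : Fin 6) : K.cs i * K.bs j + K.bs j * K.cs i = if i = j then 1 else 0 := by
  refine (K.map_ac (K.cb i j)).trans ?_
  split_ifs
  · exact Matrix.map_one _ C_0 C_1
  · exact Matrix.map_zero _ C_0

theorem num_s : ∑ i, K.bs i * K.cs i = diagonal fun J => (K.n J : S6) := by
  have := congrArg (C : ℂ →+* S6).mapMatrix K.num
  rw [map_sum, RingHom.mapMatrix_apply, diagonal_map C_0] at this
  simp only [map_mul, map_natCast] at this
  exact this

theorem der_cs (i j : Fin 6) : (K.cs i).map (pderiv j) = 0 := Matrix.ext fun _ _ => pderiv_C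

theorem der_bs (i j : Fin 6) : (K.bs i).map (pderiv j) = 0 := Matrix.ext fun _ _ => pderiv_C

/-- the element of the Clifford algebra with the given coordinates -/
noncomputable def el (u v : Fin 6 → S6) : Matrix K.ι K.ι S6 := ∑ i, (u i • K.cs i + v i • K.bs i)

theorem el_cs (u v : Fin 6 → S6) (j : Fin 6) :
    K.el u v * K.cs j + K.cs j * K.el u v = v j • 1 := by
  have h : ∀ i, (u i • K.cs i + v i • K.bs i) * K.cs j + K.cs j * (u i • K.cs i + v i • K.bs i) =
      if j = i then v i • 1 else 0 := fun i => by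
    calc _ = u i • (K.cs i * K.cs j + K.cs j * K.cs i) +
          v i • (K.cs j * K.bs i + K.bs i * K.cs j) := by
          simp only [Matrix.add_mul, Matrix.mul_add, Matrix.smul_mul, Matrix.mul_smul, smul_add]
          abel
      _ = _ := by rw [cs_cs, cs_bs, smul_zero, zero_add, smul_ite, smul_zero]
  rw [el, Finset.sum_mul, Finset.mul_sum, ← Finset.sum_add_distrib]
  simp only [h, Finset.sum_ite_eq, Finset.mem_univ, if_true]

theorem el_bs (u v : Fin 6 → S6) (j : Fin 6) :
    K.el u v * K.bs j + K.bs j * K.el u v = u j • 1 := by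
  have h : ∀ i, (u i • K.cs i + v i • K.bs i) * K.bs j + K.bs j * (u i • K.cs i + v i • K.bs i) =
      if i = j then u i • 1 else 0 := fun i => by
    calc _ = u i • (K.cs i * K.bs j + K.bs j * K.cs i) +
          v i • (K.bs i * K.bs j + K.bs j * K.bs i) := by
          simp only [Matrix.add_mul, Matrix.mul_add, Matrix.smul_mul, Matrix.mul_smul, smul_add]
          abel
      _ = _ := by rw [bs_bs, cs_bs, smul_zero, add_zero, smul_ite, smul_zero]
  rw [el, Finset.sum_mul, Finset.mul_sum, ← Finset.sum_add_distrib]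
  simp only [h, Finset.sum_ite_eq', Finset.mem_univ, if_true]

theorem el_el (u v u' v' : Fin 6 → S6) : K.el u v * K.el u' v' + K.el u' v' * K.el u v =
    (∑ i, (u' i * v i + v' i * u i)) • 1 := by
  conv_lhs => rw [show K.el u' v' = ∑ i, (u' i • K.cs i + v' i • K.bs i) from rfl]
  rw [Finset.sum_mul, Finset.mul_sum, ← Finset.sum_add_distrib, Finset.sum_smul]
  refine Finset.sum_congr rfl fun i _ => ?_
  rw [add_smul, mul_smul, mul_smul, ← K.el_cs u v i, ← K.el_bs u v i]
  simp only [Matrix.add_mul, Matrix.mul_add, Matrix.smul_mul, Matrix.mul_smul, smul_add]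
  abel

theorem el_mem {u v : Fin 6 → S6} {j : ℤ} (hu : ∀ i, V.Hg (j - 1) (u i))
    (hv : ∀ i, V.Hg (j + 1) (v i)) : K.el u v ∈ MM K.p K.p j :=
  sum_mem fun i _ => add_mem (MM_smul (hu i) (K.cs_mem i) (by ring))
    (MM_smul (hv i) (K.bs_mem i) (by ring))

theorem der_el (u v : Fin 6 → S6) (j : Fin 6) :
    (K.el u v).map (pderiv j) = K.el (fun i => pderiv j (u i)) fun i => pderiv j (v i) := by
  ext1 a b
  simp only [el, cs, bs, Matrix.map_apply, Matrix.sum_apply, Matrix.add_apply, Matrix.smul_apply,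
    smul_eq_mul, map_sum, map_add, Derivation.leibniz, pderiv_C, mul_zero, zero_add, mul_comm]

end KapC

/-- the cofactors -/
noncomputable def kapW (W : S6) (i : Fin 6) : S6 := (1 / 3 : ℂ) • pderiv i W

theorem kap_hg_X (i : Fin 6) : V.Hg 2 (X i : S6) := isWeightedHomogeneous_X _ _ i

theorem kap_hg_der {n : ℤ} {f : S6} (hf : V.Hg n f) (i : Fin 6) : V.Hg (n - 2) (pderiv i f) :=
  IsWeightedHomogeneous.pderiv hf (by lia)

theorem kap_cc {n : ℤ} {f : S6} (hf : V.Hg n f) (hn : n ≠ 0) : constantCoeff f = 0 :=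
  by_contra fun h => hn (by
    have := hg_iff.1 hf 0 (mem_support_iff.2 h)
    rw [map_zero] at this
    omega)

theorem kap_comm (i j : Fin 6) (f : S6) : pderiv i (pderiv j f) = pderiv j (pderiv i f) := by
  classical
  induction f using MvPolynomial.induction_on with
  | C a => simp only [pderiv_C, map_zero]
  | add f g hf hg => simp only [map_add, hf, hg]
  | mul_X f k hf =>
    simp only [Derivation.leibniz, pderiv_X, smul_eq_mul, map_add, hf, Pi.single_apply,
      apply_ite (pderiv (R := ℂ) i), apply_ite (pderiv (R := ℂ) j), Derivation.map_one_eq_zero,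
      map_zero, ite_self, mul_zero, zero_add]
    ring

theorem kap_sum {n : ℕ} {f : S6} (hf : V.Hg (2 * n) f) : ∑ i, X i * pderiv i f = (n : ℂ) • f := by
  ext m
  rw [kap_euler, coeff_smul, smul_eq_mul]
  by_cases h : coeff m f = 0
  · rw [h, mul_zero, mul_zero]
  · have := hg_iff.1 hf m (mem_support_iff.2 h)
    rw [show m.degree = n by omega]

theorem kap_sum' {n : ℕ} (hn : n ≠ 0) {f : S6} (hf : V.Hg (2 * n) f) :
    ∑ i, X i * ((1 / n : ℂ) • pderiv i f) = f := by
  simp only [mul_smul_comm, ← Finset.smul_sum]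
  rw [kap_sum hf, smul_smul, one_div_mul_cancel (Nat.cast_ne_zero.2 hn), one_smul]

namespace KapC

variable (K : KapC 6) {W : S6} {κ : Type} [Fintype κ] {q : κ → ℤ} {j : ℤ}

variable (W) in
/-- the differential -/
noncomputable def d : Matrix K.ι K.ι S6 := K.el X (kapW W)

theorem isMF (hW : V.Hg 6 W) : IsMF W K.p (K.d W) := by
  refine ⟨K.el_mem kap_hg_X fun i => hga_smul _ (kap_hg_der hW i), sub_eq_zero.1 (kap_two ?_)⟩
  have h : ∑ i, X i * kapW W i = W := by
    simpa only [Nat.cast_ofNat, kapW] using kap_sum' (n := 3) (by norm_num) hW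
  rw [← add_sub_add_comm, d, el_el, Finset.sum_add_distrib, h]
  simp only [mul_comm (kapW W _), h, add_smul, sub_self]

theorem d_zero (hW : V.Hg 6 W) (J J' : K.ι) : constantCoeff (K.d W J J') = 0 := by
  have h : ∀ i, constantCoeff (kapW W i) = 0 := fun i =>
    kap_cc (hga_smul _ (kap_hg_der hW i)) (by norm_num)
  simp only [d, el, Matrix.sum_apply, Matrix.add_apply, Matrix.smul_apply, smul_eq_mul, map_sum,
    map_add, map_mul, constantCoeff_X, h, zero_mul, add_zero, Finset.sum_const_zero]

/-- the homotopy -/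
noncomputable def T (g : Matrix K.ι κ S6) : Matrix K.ι κ S6 := ∑ i, K.bs i * g.map (pderiv i)

/-- the operator which is homotopic to zero -/
noncomputable def Φ (e : Matrix κ κ S6) : Matrix K.ι κ S6 →ₗ[ℂ] Matrix K.ι κ S6 where
  toFun g := ∑ i, (X i : S6) • g.map (pderiv i) + diagonal (fun J => (K.n J : S6)) * g -
    ∑ i, K.bs i * (g * e.map (pderiv i))
  map_add' g h := by
    simp only [Matrix.map_add _ (map_add _), smul_add, Finset.sum_add_distrib, Matrix.mul_add,
      Matrix.add_mul]
    abel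
  map_smul' c g := by
    have h : ∀ i : Fin 6, (c • g).map (pderiv i) = c • g.map (pderiv i) := fun i =>
      Matrix.ext fun a b => (pderiv i).map_smul c (g a b)
    simp only [h, RingHom.id_apply, smul_sub, smul_add, Finset.smul_sum, Matrix.mul_smul,
      Matrix.smul_mul, smul_comm c]

theorem hess : ∑ i, K.bs i * (K.d W).map (pderiv i) = diagonal fun J => (K.n J : S6) := by
  classical
  have h1 : ∀ i, (K.d W).map (pderiv i) = K.cs i + ∑ j, pderiv i (kapW W j) • K.bs j := fun i => by
    rw [d, der_el, el, Finset.sum_add_distrib]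
    simp only [pderiv_X, Pi.single_apply, ite_smul, one_smul, zero_smul, Finset.sum_ite_eq',
      Finset.mem_univ, if_true]
  have h2 : ∑ i, ∑ j, pderiv i (kapW W j) • (K.bs i * K.bs j) = 0 := by
    refine kap_two ?_
    nth_rewrite 2 [Finset.sum_comm]
    simp only [← Finset.sum_add_distrib]
    refine Finset.sum_eq_zero fun i _ => Finset.sum_eq_zero fun j _ => ?_
    have : pderiv j (kapW W i) = pderiv i (kapW W j) := by
      rw [kapW, kapW, Derivation.map_smul, Derivation.map_smul, kap_comm]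
    rw [this, ← smul_add, bs_bs, smul_zero]
  simp only [h1, Matrix.mul_add, Finset.mul_sum, Matrix.mul_smul, Finset.sum_add_distrib, h2,
    add_zero, num_s]

theorem htpy (e : Matrix κ κ S6) (g : Matrix K.ι κ S6) :
    K.d W * K.T g + K.T g * e + K.T (K.d W * g - g * e) = K.Φ e g := by
  have h1 : ∀ i : Fin 6, K.d W * (K.bs i * g.map (pderiv i)) + K.bs i * g.map (pderiv i) * e +
      K.bs i * (K.d W * g - g * e).map (pderiv i) = (X i : S6) • g.map (pderiv i) +
        K.bs i * (K.d W).map (pderiv i) * g - K.bs i * (g * e.map (pderiv i)) := fun i => by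
    have := congrArg (· * g.map (pderiv i)) (K.el_bs X (kapW W) i)
    simp only [Matrix.smul_mul, Matrix.one_mul, Matrix.add_mul, Matrix.mul_assoc] at this
    rw [Matrix.map_sub _ (map_sub _), kap_der, kap_der, ← this, d]
    simp only [Matrix.mul_add, Matrix.mul_sub, Matrix.mul_assoc]
    abel
  rw [T, T, Matrix.mul_sum, Matrix.sum_mul, ← Finset.sum_add_distrib, ← Finset.sum_add_distrib]
  simp only [h1, Finset.sum_sub_distrib, Finset.sum_add_distrib, ← Matrix.sum_mul, K.hess]
  rfl

/-- the matrices whose first row has no constant term -/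
def M0 (κ : Type) : Submodule ℂ (Matrix K.ι κ S6) where
  carrier := {g | ∀ l, constantCoeff (g K.o l) = 0}
  zero_mem' _ := map_zero _
  add_mem' h h' l := by rw [Matrix.add_apply, map_add, h l, h' l, add_zero]
  smul_mem' c g h l := by rw [Matrix.smul_apply, constantCoeff_smul, h l, smul_zero]

omit [Fintype κ] in
theorem bs_row (i : Fin 6) (g : Matrix K.ι κ S6) (J : K.ι) (l : κ)
    (h : ∀ J', K.n J = K.n J' + 1 → g J' l = 0) : (K.bs i * g) J l = 0 :=
  Finset.sum_eq_zero fun J' _ => by
    by_cases e : K.b i J J' = 0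
    · exact mul_eq_zero_of_left ((congrArg C e).trans C_0) _
    · exact mul_eq_zero_of_right _ (h J' (K.hb i J J' e))

omit [Fintype κ] in
theorem bs_M0 (i : Fin 6) (g : Matrix K.ι κ S6) : K.bs i * g ∈ K.M0 κ := fun l => by
  rw [K.bs_row i g _ l fun J' e => absurd ((K.no _).2 rfl) (by omega), map_zero]

theorem Φ_inj (e : Matrix κ κ S6) {g : Matrix K.ι κ S6} (hg : g ∈ K.M0 κ) (h : K.Φ e g = 0) :
    g = 0 := by
  have key : ∀ n J, K.n J = n → ∀ l, g J l = 0 := fun n => by
    induction n using Nat.strong_induction_on with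
    | _ n ih =>
    intro J hJ l
    have h1 := congrFun₂ h J l
    have h2 : ∀ i : Fin 6, (K.bs i * (g * e.map (pderiv i))) J l = 0 := fun i =>
      K.bs_row i _ J l fun J' e' => Finset.sum_eq_zero fun a _ =>
        mul_eq_zero_of_left (ih _ (by omega) J' rfl a) _
    change (∑ i, (X i : S6) • g.map (pderiv i) + diagonal (fun J => (K.n J : S6)) * g -
      ∑ i, K.bs i * (g * e.map (pderiv i))) J l = 0 at h1
    simp only [Matrix.sub_apply, Matrix.add_apply, Matrix.sum_apply, h2, Finset.sum_const_zero,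
      sub_zero, diagonal_mul, Matrix.smul_apply, Matrix.map_apply, smul_eq_mul] at h1
    ext m
    have h3 := congrArg (coeff m) h1
    rw [coeff_add, kap_euler, ← nsmul_eq_mul (K.n J), coeff_smul, nsmul_eq_mul, ← add_mul, coeff_zero,
      ← Nat.cast_add, mul_eq_zero, Nat.cast_eq_zero, Nat.add_eq_zero_iff,
      Finsupp.degree_eq_zero_iff, K.no] at h3
    rcases h3 with ⟨rfl, rfl⟩ | h3
    · exact hg l
    · exact h3
  exact Matrix.ext fun J l => key _ J rfl l

omit [Fintype κ] in
theorem T_mem {g : Matrix K.ι κ S6} (hg : g ∈ MM q K.p j) : K.T g ∈ MM q K.p (j - 3) :=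
  sum_mem fun i _ => MM_mul (K.bs_mem i) (MM_pderiv hg i) (by ring)

theorem T_M0 (g : Matrix K.ι κ S6) : K.T g ∈ K.M0 κ := sum_mem fun i _ => K.bs_M0 i _

theorem del_mem (hW : V.Hg 6 W) {e : Matrix κ κ S6} (he : e ∈ MM q q 3) {g : Matrix K.ι κ S6}
    (hg : g ∈ MM q K.p j) : K.d W * g - g * e ∈ MM q K.p (j + 3) :=
  sub_mem (MM_mul (K.isMF hW).deg hg rfl) (MM_mul hg he (add_comm _ _))

omit [Fintype κ] in
theorem dmul_M0 (hW : V.Hg 6 W) (g : Matrix K.ι κ S6) : K.d W * g ∈ K.M0 κ := fun l => by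
  simp only [Matrix.mul_apply, map_sum, map_mul, K.d_zero hW, zero_mul, Finset.sum_const_zero]

theorem mul_M0 {g : Matrix K.ι κ S6} (hg : g ∈ K.M0 κ) (e : Matrix κ κ S6) : g * e ∈ K.M0 κ :=
  fun l => by simp only [Matrix.mul_apply, map_sum, map_mul, hg _, zero_mul, Finset.sum_const_zero]

variable [DecidableEq κ]

/-- **closed maps to the stabilised residue field are determined by their constant first row** -/
theorem fact (hW : V.Hg 6 W) {e : Matrix κ κ S6} (he : IsMF W q e) {g : Matrix K.ι κ S6}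
    (hg : g ∈ ZZ q e K.p (K.d W) j) (h0 : g ∈ K.M0 κ) :
    ∃ h ∈ MM q K.p (j - 3), h ∈ K.M0 κ ∧ g = K.d W * h + h * e := by
  have := finite_MM q K.p j
  have : Module.Finite ℂ (MM q K.p j ⊓ K.M0 κ : Submodule ℂ _) :=
    Submodule.finiteDimensional_of_le inf_le_left
  have hm : ∀ x ∈ MM q K.p j ⊓ K.M0 κ, K.Φ e x ∈ MM q K.p j ⊓ K.M0 κ := fun x hx => by
    rw [← K.htpy (W := W)]
    exact ⟨add_mem (add_mem (MM_mul (K.isMF hW).deg (K.T_mem hx.1) (by ring))
      (MM_mul (K.T_mem hx.1) he.deg (by ring)))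
      (add_sub_cancel_right j 3 ▸ K.T_mem (K.del_mem hW he.deg hx.1)),
      add_mem (add_mem (K.dmul_M0 hW _) (K.mul_M0 (K.T_M0 _) _)) (K.T_M0 _)⟩
  obtain ⟨⟨x, hx⟩, e1⟩ := (LinearMap.injective_iff_surjective (f := (K.Φ e).restrict hm)).1
    ((injective_iff_map_eq_zero _).2 fun a ha =>
      Subtype.ext (K.Φ_inj e a.2.2 (congrArg Subtype.val ha))) ⟨g, hg.1, h0⟩
  have e2 : K.Φ e x = g := congrArg Subtype.val e1
  have d1 : ∀ y : Matrix K.ι κ S6, K.d W * (K.d W * y - y * e) - (K.d W * y - y * e) * -e = 0 :=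
    fun y => by
      rw [Matrix.mul_neg, Matrix.mul_sub, Matrix.sub_mul, ← Matrix.mul_assoc, (K.isMF hW).sq,
        Matrix.mul_assoc y, he.sq, Matrix.mul_assoc, Matrix.smul_mul, Matrix.mul_smul,
        Matrix.one_mul, Matrix.mul_one]
      abel
  have d2 : ∀ y : Matrix K.ι κ S6, K.d W * (K.d W * y + y * e) - (K.d W * y + y * e) * e = 0 :=
    fun y => by
      rw [Matrix.mul_add, Matrix.add_mul, ← Matrix.mul_assoc, (K.isMF hW).sq,
        Matrix.mul_assoc y, he.sq, Matrix.mul_assoc, Matrix.smul_mul, Matrix.mul_smul,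
        Matrix.one_mul, Matrix.mul_one]
      abel
  have t0 : K.T (0 : Matrix K.ι κ S6) = 0 := by
    simp only [T, Matrix.map_zero _ (map_zero _), Matrix.mul_zero, Finset.sum_const_zero]
  have e3 : K.d W * x - x * e = 0 := by
    refine K.Φ_inj (-e) (sub_mem (K.dmul_M0 hW _) (K.mul_M0 hx.2 _)) ?_
    have h1 := K.htpy (W := W) e x
    rw [e2, ← eq_sub_iff_add_eq'] at h1
    rw [← K.htpy (W := W), d1, t0, add_zero, h1, Matrix.mul_neg, Matrix.mul_sub, Matrix.sub_mul,
      hg.2, sub_eq_zero.1 (d2 _)]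
    abel
  refine ⟨K.T x, K.T_mem hx.1, K.T_M0 x, ?_⟩
  rw [← e2, ← K.htpy (W := W), e3, t0, add_zero]

/-- an object without maps to the twists of the residue field has no minimal generators -/
theorem detect (hW : V.Hg 6 W) {e : Matrix κ κ S6} (he : IsMF W q e)
    (hm : ∀ a b, constantCoeff (e a b) = 0)
    (h : ∀ j, ZZ q e K.p (K.d W) j ≤ BB q e K.p (K.d W) j) : IsEmpty κ := ⟨fun i => by
  have he' : IsMF W q (-e) := ⟨neg_mem he.deg, by rw [neg_mul_neg, he.sq]⟩
  have r0 : ∀ g : Matrix K.ι κ S6, g * e ∈ K.M0 κ := fun g l => by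
    simp only [Matrix.mul_apply, map_sum, map_mul, hm, mul_zero, Finset.sum_const_zero]
  let g : Matrix K.ι κ S6 := (Matrix.single K.o i (1 : ℂ)).map C
  have hg : g ∈ MM q K.p (K.p K.o - q i) := kap_const fun a b hab => by
    obtain ⟨rfl, rfl⟩ : K.o = a ∧ i = b := by_contra fun e => hab (single_apply_of_ne _ _ _ _ _ e)
    ring
  obtain ⟨x, hx, x0, e1⟩ := K.fact hW he' (g := K.d W * g - g * e) ⟨K.del_mem hW he.deg hg, by
    rw [Matrix.mul_neg, Matrix.mul_sub, Matrix.sub_mul, ← Matrix.mul_assoc, (K.isMF hW).sq,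
      Matrix.mul_assoc g, he.sq, Matrix.mul_assoc, Matrix.smul_mul, Matrix.mul_smul,
      Matrix.one_mul, Matrix.mul_one, neg_sub']
    abel⟩ (sub_mem (K.dmul_M0 hW _) (r0 _))
  rw [add_sub_cancel_right] at hx
  obtain ⟨y, -, e2⟩ := h _ (show g - x ∈ ZZ q e K.p (K.d W) _ from ⟨sub_mem hg hx, by
    rw [Matrix.mul_sub, Matrix.sub_mul, sub_eq_iff_eq_add.1 e1, Matrix.mul_neg]
    abel⟩)
  have h1 : g ∈ K.M0 κ := by
    rw [sub_eq_iff_eq_add.1 e2]
    exact add_mem (add_mem (K.dmul_M0 hW _) (r0 _)) x0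
  have h2 := h1 i
  simp only [g, Matrix.map_apply, single_apply_same, constantCoeff_C] at h2
  exact one_ne_zero h2⟩

theorem scalar (hW : V.Hg 6 W) {f : Matrix K.ι K.ι S6} (hf : f ∈ ZZ K.p (K.d W) K.p (K.d W) 0) :
    ∃ c : ℂ, f - c • 1 ∈ BB K.p (K.d W) K.p (K.d W) 0 := by
  have h1 : f - constantCoeff (f K.o K.o) • 1 ∈ ZZ K.p (K.d W) K.p (K.d W) 0 :=
    sub_mem hf (Submodule.smul_mem _ _ ⟨MM_one _, by rw [mul_one, one_mul]⟩)
  obtain ⟨x, hx, -, e⟩ := K.fact hW (K.isMF hW) h1 fun l => by
    by_cases hl : K.o = l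
    · subst hl
      rw [Matrix.sub_apply, Matrix.smul_apply, one_apply_eq, map_sub, constantCoeff_smul, map_one,
        smul_eq_mul, mul_one, sub_self]
    · refine kap_cc (h1.1 K.o l) ?_
      have a1 := (K.no K.o).2 rfl
      have a2 := mt (K.no l).1 (Ne.symm hl)
      simp only [p]
      omega
  exact ⟨_, x, hx, e⟩

theorem link (hW : V.Hg 6 W) :
    ∃ f ∈ ZZ K.p (K.d W) K.p (K.d W) 1, f ∉ BB K.p (K.d W) K.p (K.d W) 1 := by
  classical
  have w4 : V.Hg (2 * (2 : ℕ)) (kapW W 0) := hga_smul _ (kap_hg_der hW 0)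
  let a : Fin 6 → S6 := fun i => -((1 / (2 : ℕ) : ℂ) • pderiv i (kapW W 0))
  have ha : ∀ i, V.Hg 2 (a i) := fun i => hga_neg (hga_smul _ (kap_hg_der w4 i))
  let ξ := K.el (Pi.single 0 1) a
  have h1 : ξ ∈ MM K.p K.p 1 := K.el_mem (fun i => by
    rw [Pi.single_apply]
    split_ifs
    · exact hga_one
    · exact hga_zero _) ha
  have h2 : K.d W * ξ + ξ * K.d W = 0 := by
    rw [d, el_el, Finset.sum_add_distrib]
    simp only [Pi.single_apply, ite_mul, one_mul, zero_mul, Finset.sum_ite_eq', Finset.mem_univ,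
      if_true, a, mul_comm _ (X _ : S6), Finset.sum_neg_distrib, mul_neg,
      kap_sum' two_ne_zero w4, add_neg_cancel, zero_smul]
  refine ⟨ξ * eps K.p, ⟨MM_mul h1 (eps_mem _) (zero_add 1), ?_⟩, ?_⟩
  · rw [← Matrix.mul_assoc, eq_neg_of_add_eq_zero_left h2, Matrix.neg_mul, Matrix.mul_assoc,
      d_mul_eps (K.isMF hW).deg, Matrix.mul_neg, neg_neg, Matrix.mul_assoc]
  · rintro ⟨x, -, e⟩
    have e1 : ξ = (K.d W * x + x * K.d W) * eps K.p := by
      rw [← e, Matrix.mul_assoc, eps_mul_eps, Matrix.mul_one]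
    have e2 : K.c 0 = 0 := Matrix.ext fun J J' => by
      have e3 := congrArg constantCoeff (congrFun₂ e1 J J')
      simp only [ξ, el, cs, Matrix.mul_apply, Matrix.add_apply, Matrix.sum_apply, map_sum, map_mul,
        map_add, K.d_zero hW, zero_mul, mul_zero, Finset.sum_const_zero, add_zero,
        Matrix.smul_apply, smul_eq_mul, kap_cc (ha _) two_ne_zero, Pi.single_apply, ite_mul,
        one_mul, apply_ite constantCoeff, map_zero, Finset.sum_ite_eq', Finset.mem_univ, if_true,
        Matrix.map_apply, constantCoeff_C] at e3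
      exact e3
    have e4 := congrFun₂ (K.cb 0 0) K.o K.o
    rw [e2, Matrix.zero_mul, Matrix.mul_zero, add_zero, if_pos rfl, one_apply_eq] at e4
    exact zero_ne_one e4

end KapC

end Vale.Agent.P287T.Fm
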