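import Vale.Agent.P287T.Fm.St
import Vale.Agent.P287T.Fm.Kap0
import Vale.Agent.P287T.G3.Br2

/-!
# Step KAP: the twists of the stabilised residue field
-/

open CategoryTheory Limits MvPolynomial

namespace Vale.Agent.P287T.Fm

open Vale.Agent.P287Z Vale.Agent.P287Z.O.V Vale.Agent.P287T.Cy Vale.Agent.P287T.G3

theorem kap_MM {ι κ : Type} (p : ι → ℤ) (q : κ → ℤ) (a b j : ℤ) :
    MM (fun i => p i - a) (fun i => q i - b) j = MM p q (j + b - a) :=
  Submodule.ext fun g => forall_congr' fun i => forall_congr' fun l => by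
    rw [show j + b - a + p l - q i = j + (p l - a) - (q i - b) by ring]

theorem kap_ZZ {ι κ : Type} [Fintype ι] [Fintype κ] (p : ι → ℤ) (d : Matrix ι ι S6) (q : κ → ℤ)
    (e : Matrix κ κ S6) (a b : ℤ) :
    ZZ (fun i => p i - a) d (fun i => q i - b) e 0 = ZZ p d q e (b - a) :=
  Submodule.ext fun g => by rw [mem_ZZ, mem_ZZ, kap_MM, zero_add]

theorem kap_BB {ι κ : Type} [Fintype ι] [Fintype κ] (p : ι → ℤ) (d : Matrix ι ι S6) (q : κ → ℤ)
    (e : Matrix κ κ S6) (a b : ℤ) :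
    BB (fun i => p i - a) d (fun i => q i - b) e 0 = BB p d q e (b - a) :=
  Submodule.ext fun g => by
    rw [mem_BB, mem_BB, kap_MM, show 0 - 3 + b - a = b - a - 3 by ring]

namespace KapC

variable (K : KapC 6) {W : S6} (hW : Hg 6 W)
include hW

theorem isMF' (c : ℤ) : IsMF W (fun J => K.p J - c) (K.d W) :=
  ⟨by rw [kap_MM, add_sub_cancel_right]; exact (K.isMF hW).deg, (K.isMF hW).sq⟩

/-- the twists of the stabilised residue field -/
noncomputable def ob (c : ℤ) : HM W := ofRaw (K.isMF' hW c)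

theorem isZero_of (E : HM W) (h : ∀ (c : ℤ) (f : E ⟶ K.ob hW c), f = 0) : IsZero E := by
  obtain ⟨F, ⟨e⟩, hF⟩ := exists_min hW E
  have : IsEmpty F.ι := K.detect hW F.isMF hF fun j => by
    have h1 := (hom_zero_iff F (K.ob hW j)).1 fun f => by
      rw [← e.inv_hom_id_assoc f, h j (e.hom ≫ f), comp_zero]
    have h2 := kap_ZZ F.pz F.dz K.p (K.d W) 0 j
    have h3 := kap_BB F.pz F.dz K.p (K.d W) 0 j
    simp only [sub_zero] at h2 h3
    rw [← h2, ← h3]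
    exact h1
  exact (k2_isZero_of_isEmpty F).of_iso e

theorem end_scalar (c : ℤ) (f : K.ob hW c ⟶ K.ob hW c) : ∃ a : ℂ, f = a • 𝟙 _ := by
  obtain ⟨f, hf, rfl⟩ := exists_mkR f
  have h2 := kap_ZZ K.p (K.d W) K.p (K.d W) c c
  have h3 := kap_BB K.p (K.d W) K.p (K.d W) c c
  rw [sub_self] at h2 h3
  obtain ⟨a, ha⟩ := K.scalar hW (h2.le hf)
  exact ⟨a, by rw [← mkR_one, mkR_smul, mkR_eq]; exact h3.ge ha⟩

theorem exists_ne (c : ℤ) : ∃ f : K.ob hW c ⟶ K.ob hW (c + 1), f ≠ 0 := by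
  obtain ⟨f, hf, h⟩ := K.link hW
  have h2 := kap_ZZ K.p (K.d W) K.p (K.d W) c (c + 1)
  have h3 := kap_BB K.p (K.d W) K.p (K.d W) c (c + 1)
  rw [add_sub_cancel_left] at h2 h3
  exact ⟨mkR (E := K.ob hW c) (F := K.ob hW (c + 1)) f (h2.ge hf),
    fun e => h (h3.le ((mkR_eq_zero _).1 e))⟩

end KapC

/-- **KAP** -/
theorem stKap_of {W : S6} (hW : Hg 6 W) : StKap W := by
  obtain ⟨K⟩ := kap_exists 6
  refine ⟨Fintype.card K.ι, fun c => toGMF (K.ob hW c), fun E h => ?_, fun c f hf h => ?_,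
    fun c => ?_⟩
  · refine (nh_iff _ _ _).2 ((G3.isZero_iff (ofGMF E)).1 (K.isZero_of hW _ fun c f => ?_))
    obtain ⟨g, hg, e⟩ := exists_mkR (f ≫ (toGMFIso (K.ob hW c)).inv)
    rw [← cancel_mono (toGMFIso (K.ob hW c)).inv, zero_comp, e]
    exact (mk_eq_zero _).2 ((nh_iff _ _ _).1 (h c g ((cl_iff _ _ _).2 ((mem_Z0_iff _ _ _).2 hg))))
  · have hf' := (cl_iff _ _ _).1 hf
    let e := toGMFIso (K.ob hW c)
    let φ : ofGMF (toGMF (K.ob hW c)) ⟶ ofGMF (toGMF (K.ob hW c)) := mk f hf'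
    have h1 : φ ≫ φ = φ := (mk_eq_mk _ _).2 ((nh_iff _ _ _).1 h)
    obtain ⟨a, ha⟩ := K.end_scalar hW c (e.inv ≫ φ ≫ e.hom)
    have h2 : φ = a • 𝟙 _ := by
      rw [← cancel_epi e.inv, ← cancel_mono e.hom, Category.assoc, ha, Linear.comp_smul,
        Linear.smul_comp, Category.comp_id, e.inv_hom_id]
    by_cases h3 : a = 0
    · exact Or.inl ((nh_iff _ _ _).2 ((mk_eq_zero hf').1 (h2.trans (h3 ▸ zero_smul ℂ _))))
    · refine Or.inr ((nh_iff _ _ _).2 ((mk_eq_mk hf' (one_mem_Z0 _)).1 ?_))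
      have h4 : a • φ = a • 𝟙 _ := by
        rw [← h2, ← Category.comp_id φ, ← Linear.comp_smul, ← h2, h1, Category.comp_id]
      exact smul_right_injective _ h3 h4
  · obtain ⟨f, hf⟩ := K.exists_ne hW c
    obtain ⟨g, hg, e⟩ := exists_mkR
      ((toGMFIso (K.ob hW c)).hom ≫ f ≫ (toGMFIso (K.ob hW (c + 1))).inv)
    refine ⟨g, (cl_iff _ _ _).2 ((mem_Z0_iff _ _ _).2 hg), fun h => hf ?_⟩
    rw [← cancel_epi (toGMFIso (K.ob hW c)).hom, ← cancel_mono (toGMFIso (K.ob hW (c + 1))).inv,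
      Category.assoc, e, comp_zero, zero_comp]
    exact (mk_eq_zero _).2 ((nh_iff _ _ _).1 h)

/-- **KAP** -/
theorem stKap (W : S6) [h : Fact (W.IsHomogeneous 3)] : StKap W :=
  stKap_of (hg_of_isHomogeneous h.out)

end Vale.Agent.P287T.Fm
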