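import Vale.Agent.P287T.Fm.Tt

/-!
# Fibres of graded modules; closure properties of local freeness
-/

open CategoryTheory Limits MvPolynomial

namespace Vale.Agent.P287T.Fm

open Vale.Agent.P287Z Vale.Agent.P287Z.Gr Vale.Agent.P294.V

variable {ν : ℕ}

namespace La

variable {N M : GrS ν}

theorem lsum_eq {Φ : Type} [AddCommGroup Φ] [Module ℂ Φ] (L : (Π₀ m : ℤ, N.obj ⟨m⟩) →ₗ[ℂ] Φ) :
    DFinsupp.lsum ℂ (fun m => L ∘ₗ DFinsupp.lsingle m) = L :=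
  DFinsupp.lhom_ext fun a x => by rw [DFinsupp.lsum_single]; rfl

theorem isQ_of {Φ : Type} [AddCommGroup Φ] [Module ℂ Φ] {𝔞 : Ideal (Sn ν)}
    (L : (Π₀ m : ℤ, N.obj ⟨m⟩) →ₗ[ℂ] Φ) (hs : Function.Surjective L)
    (hk : ∀ t, L t = 0 ↔ InI N 𝔞 t) : ∃ ev : ∀ m : ℤ, N.obj ⟨m⟩ →ₗ[ℂ] Φ, IsQ N 𝔞 ev :=
  ⟨fun m => L ∘ₗ DFinsupp.lsingle (M := fun m : ℤ => (N.obj ⟨m⟩ : Type)) m, by
    rw [IsQ, lsum_eq]; exact ⟨hs, hk⟩⟩

/-- `𝔞 N` as a complex subspace -/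
noncomputable def subC (N : GrS ν) (𝔞 : Ideal (Sn ν)) : Submodule ℂ (Π₀ m : ℤ, N.obj ⟨m⟩) where
  carrier := {t | InI N 𝔞 t}
  zero_mem' := (𝔞 • ⊤ : Submodule (Sn ν) (Tot N)).zero_mem
  add_mem' := (𝔞 • ⊤ : Submodule (Sn ν) (Tot N)).add_mem
  smul_mem' c t h := by
    change (show Tot N from c • t) ∈ (𝔞 • ⊤ : Submodule (Sn ν) (Tot N))
    exact C_smul c t ▸ Submodule.smul_mem _ _ h

theorem sub_eval_mem (v : Fin ν → ℂ) (g : Sn ν) (t : Tot N) :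
    g • t - (C (eval v g) : Sn ν) • t ∈ (mv v • ⊤ : Submodule (Sn ν) (Tot N)) := by
  rw [← sub_smul]
  exact Submodule.smul_mem_smul (by simp [mem_mv]) trivial

/-- every fibre is finite dimensional -/
theorem exists_isQ [h : Module.Finite (Sn ν) (Tot N)] (v : Fin ν → ℂ) :
    ∃ (ρ : ℕ) (ev : ∀ m : ℤ, N.obj ⟨m⟩ →ₗ[ℂ] (Fin ρ → ℂ)), IsQ N (mv v) ev := by
  obtain ⟨S, hS⟩ := h.1
  let π := (subC N (mv v)).mkQ
  have : Module.Finite ℂ (_ ⧸ subC N (mv v)) := by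
    refine ⟨Submodule.fg_def.2 ⟨(fun t : Tot N => π t) '' S, S.finite_toSet.image _, ?_⟩⟩
    refine eq_top_iff.2 fun y _ => ?_
    obtain ⟨t, rfl⟩ := (subC N (mv v)).mkQ_surjective y
    refine Submodule.span_induction
      (p := fun (t : Tot N) _ => π t ∈ Submodule.span ℂ ((fun t : Tot N => π t) '' S))
      (fun w hw => Submodule.subset_span ⟨w, hw, rfl⟩) ?_ (fun x y _ _ hx hy => ?_)
      (fun g x _ hx => ?_) (hS.ge (Submodule.mem_top (x := show Tot N from t)))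
    · exact π.map_zero ▸ zero_mem _
    · exact π.map_add x y ▸ add_mem hx hy
    · have h1 : π (g • x :) = eval v g • π x := by
        refine Eq.trans ?_ (π.map_smul _ _)
        refine (Submodule.Quotient.eq _).2 ?_
        have := sub_eval_mem v g x
        rwa [show (C (eval v g) : Sn ν) • x = _ from C_smul _ x] at this
      exact h1 ▸ Submodule.smul_mem _ _ hx
  let e := (Module.finBasis ℂ (_ ⧸ subC N (mv v))).equivFun
  refine ⟨_, isQ_of (e.toLinearMap ∘ₗ π) (e.surjective.comp (subC N (mv v)).mkQ_surjective)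
    fun t => e.map_eq_zero_iff.trans (Submodule.Quotient.mk_eq_zero _)⟩

theorem inI_map (f : M ⟶ N) {𝔞 : Ideal (Sn ν)} {t : Π₀ m : ℤ, M.obj ⟨m⟩} (h : InI M 𝔞 t) :
    InI N 𝔞 (totL f t) := map_mem_smul (tL f) h

theorem lf_iso {I : Ideal (Sn ν)} (e : M ≅ N) (h : LF I M) : LF I N := by
  obtain ⟨ρ, h⟩ := h
  refine ⟨ρ, fun v hv => ?_⟩
  obtain ⟨ev, hs, hk⟩ := h v hv
  have h1 : ∀ t, totL e.inv (totL e.hom t) = t := fun t =>
    (tL_comp e.hom e.inv t).symm.trans (by rw [e.hom_inv_id]; exact tL_id _)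
  have h2 : ∀ t, totL e.hom (totL e.inv t) = t := fun t =>
    (tL_comp e.inv e.hom t).symm.trans (by rw [e.inv_hom_id]; exact tL_id _)
  refine isQ_of (DFinsupp.lsum ℂ ev ∘ₗ totL e.inv) (hs.comp fun t => ⟨_, h1 t⟩) fun t => ?_
  exact (hk _).trans ⟨fun h => h2 t ▸ inI_map e.hom h, inI_map e.inv⟩

end La

open La

theorem stLfc (I : Ideal (Sn ν)) : StLfc I := by
  refine ⟨fun A B e => lf_iso ((grA I).ι.mapIso e), fun A hA => ⟨0, fun v _ => ?_⟩,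
    fun A B ⟨ρ, h⟩ ⟨ρ', h'⟩ => ⟨ρ + ρ', fun v hv => ?_⟩⟩
  · refine isQ_of 0 (fun _ => ⟨0, Subsingleton.elim _ _⟩) fun t => ⟨fun _ => ?_, fun _ => rfl⟩
    have : (show Tot A.obj from t) = 0 := (tL_id _).symm.trans
      ((congrArg (fun k : A ⟶ A => tL k.hom t) (hA.eq_of_src (𝟙 A) 0)).trans (tL_zero _))
    rw [InI, this]
    exact zero_mem _
  · obtain ⟨ev, hs, hk⟩ := h v hv
    obtain ⟨ev', hs', hk'⟩ := h' v hv
    let e : ((Fin ρ → ℂ) × (Fin ρ' → ℂ)) ≃ₗ[ℂ] (Fin (ρ + ρ') → ℂ) :=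
      LinearEquiv.ofFinrankEq _ _ (by simp)
    have c : ∀ {X Y Z : GA I} (f : X ⟶ Y) (g : Y ⟶ Z) (k : X ⟶ Z), f ≫ g = k → ∀ t,
        totL g.hom (totL f.hom t) = totL k.hom t := fun f g k h t =>
      h ▸ (tL_comp f.hom g.hom t).symm
    refine isQ_of (e.toLinearMap ∘ₗ (DFinsupp.lsum ℂ ev ∘ₗ totL (biprod.fst : A ⊞ B ⟶ A).hom).prod
      (DFinsupp.lsum ℂ ev' ∘ₗ totL (biprod.snd : A ⊞ B ⟶ B).hom)) (e.surjective.comp ?_)
      fun t => e.map_eq_zero_iff.trans (Prod.ext_iff.trans ?_)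
    · rintro ⟨p, q⟩
      obtain ⟨s, rfl⟩ := hs p
      obtain ⟨s', rfl⟩ := hs' q
      refine ⟨totL (biprod.inl : A ⟶ A ⊞ B).hom s + totL (biprod.inr : B ⟶ A ⊞ B).hom s',
        Prod.ext (congrArg (DFinsupp.lsum ℂ ev) ?_) (congrArg (DFinsupp.lsum ℂ ev') ?_)⟩
      · rw [map_add, c _ _ _ biprod.inl_fst, c _ _ _ biprod.inr_fst]
        exact (congrArg₂ (· + ·) (tL_id s) (tL_zero s')).trans (add_zero _)
      · rw [map_add, c _ _ _ biprod.inl_snd, c _ _ _ biprod.inr_snd]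
        exact (congrArg₂ (· + ·) (tL_zero s) (tL_id s')).trans (zero_add _)
    · refine (and_congr (hk _) (hk' _)).trans ⟨fun ⟨h1, h2⟩ => ?_,
        fun h => ⟨inI_map _ h, inI_map _ h⟩⟩
      have h3 := (subC _ _).add_mem (inI_map (biprod.inl : A ⟶ A ⊞ B).hom h1)
        (inI_map (biprod.inr : B ⟶ A ⊞ B).hom h2)
      rw [c _ _ _ rfl, c _ _ _ rfl] at h3
      have h4 := (tL_add _ _ t).symm.trans ((congrArg (fun k : A ⊞ B ⟶ A ⊞ B => tL k.hom t)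
        biprod.total).trans (tL_id _))
      exact (congrArg (InI _ _) h4).mp h3

end Vale.Agent.P287T.Fm
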