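import Vale.Agent.P287T.Fm.Hyp
import Vale.Agent.P287T.Fm.Bdd
import Vale.Agent.P287T.Fm.Fib
import Vale.Agent.P287T.Fm.Hst
import Vale.Agent.P287T.Fm.End
import Vale.Agent.P287T.Fm.Idm
import Vale.Agent.P287T.Fm.Kap
import Vale.Agent.P287T.Fm.Gen
import Vale.Agent.P287T.Fm.Pt3
import Vale.Agent.P287T.Fm.Quo
import Vale.Agent.P287T.Fm.Ten2
import Vale.Agent.P287T.Fm.Exg

/-!
# Block FM: the assembly of the steps
-/

open CategoryTheory Limits MvPolynomial

universe w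

namespace Vale.Agent.P287T.Fm

open Vale.Agent.P287Z Vale.Agent.P287Z.O.V Vale.Agent.P287T.Cy

theorem main_ne {W : S6} (h : CY W) : W ≠ 0 := by
  rintro rfl
  let E : GMF (0 : S6) 1 := ⟨fun _ => 0, 0, fun _ _ => Gr.hga_zero _, by simp⟩
  have h1 : Subsingleton (Hm E E (-2)) := ⟨fun a b => by
    obtain ⟨⟨a, ha⟩, rfl⟩ := Submodule.Quotient.mk_surjective _ a
    obtain ⟨⟨b, hb⟩, rfl⟩ := Submodule.Quotient.mk_surjective _ b
    have z : ∀ {c : Matrix (Fin 1) (Fin 1) S6}, c ∈ ZZ E.p E.d E.p E.d (3 * -2) → c = 0 :=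
      fun hc => Matrix.ext fun i j => MvPolynomial.ext _ _ fun μ => by_contra fun hμ => by
        have := O.L.hg_iff.1 (hc.1 i j) μ (by simpa using hμ)
        simp only [E] at this
        omega
    exact congrArg _ (Subtype.ext ((z ha).trans (z hb).symm))⟩
  have h2 := ptk_sub h E E (k := 4) (by norm_num) h1
  have h3 : (fun _ _ => X 0 ^ 6 : Matrix (Fin 1) (Fin 1) S6) ∈ ZZ E.p E.d E.p E.d (3 * 4) :=
    ⟨fun _ _ => Gr.hg_X_pow (ν := 6) 0 6 (n := 6) rfl, (Matrix.zero_mul _).trans (Matrix.mul_zero _).symm⟩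
  obtain ⟨g, -, hg⟩ := (Submodule.Quotient.mk_eq_zero _).1
    (h2.elim (Submodule.Quotient.mk ⟨_, h3⟩) 0)
  have := congrFun (congrFun hg 0) 0
  simp [E] at this

variable {ν : ℕ} {W : S6} {I : Ideal (Gr.Sn ν)} [Fact (W.IsHomogeneous 3)]

theorem main_fib (h0 : W ≠ 0) : StFib W I := stFib (stHst h0) (stQuo W I)

variable [Fact (IsHom I)]

theorem main_ptk : StPtk W I := fun cy =>
  stPtk (main_fib (main_ne cy)) (stPt3 I) (stPsif I W) (stLfc I) cy

variable [HasDerivedCategory.{w} (P294Z.Coh (PI I))]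

theorem main_bdd : StBdd W I := fun cy =>
  stBdd (main_fib (main_ne cy)) (stExg I) (stPsif I W) (stLfc I) cy

theorem main_span : StSpan W I := fun cy =>
  bdd_stSpan (main_fib (main_ne cy)) (stExg I) (stPsif I W) (stLfc I) cy

theorem main_end : StEnd W I := fun cy =>
  stEnd (main_ne cy) (Idm.stIdem W) (stKap W) (stGen I) cy

theorem main_of (hu : StUnit W I) : Main W I := fun cy hs K r U h => by
  obtain ⟨m₀, hm⟩ := stGlob K
  refine ⟨main_end cy hs K m₀ (fun E => (main_bdd cy hs K r U h E).2) fun m hm' => ?_,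
    fun v hv => ?_⟩
  · obtain ⟨n, G, u, hG⟩ := stHst2 (main_ne cy) (K.N.obj ⟨m⟩)
    exact ⟨n, G, hu cy hs K r U m₀ h hm m hm' G u hG⟩
  · rw [cx_ob]
    exact (stHyp I _ v hv (main_ptk cy hs K r U h v hv)).1

end Vale.Agent.P287T.Fm
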