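import Vale.Agent.P287T.Fm.UnC
import Vale.Agent.P287T.Au.Alg

/-!
# Block FM: the theorem of the block
-/

open CategoryTheory MvPolynomial

universe w

namespace Vale.Agent.P287T.Fm.UnC

/-- **FM** -/
theorem stMain : Au.StMain.{w} := fun _ _ _ _ _ _ => main_of stUnit

end Vale.Agent.P287T.Fm.UnC
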