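import Vale.Agent.P287T.Fm.Mat3
import Mathlib.RingTheory.Nullstellensatz

/-!
# Step MAT: the kernel given by a presentation matrix
-/

open CategoryTheory Limits MvPolynomial
open Module (finrank)

namespace Vale.Agent.P287T.Fm

open Vale.Agent.P287Z Vale.Agent.P287Z.O.V Vale.Agent.P287T.Cy

namespace Mat

variable {ν : ℕ}

section Ev

variable {ι κ : Type}

/-- the evaluation given by functionals -/
noncomputable def EE (s : κ → ι) (L : κ → Gr.Sn ν →ₗ[ℂ] ℂ) : (ι → PP ν) →ₗ[ℂ] (κ → S6) :=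
  LinearMap.pi fun k => cf (L k) ∘ₗ LinearMap.proj (s k)

theorem ev_EE [Fintype κ] [DecidableEq κ] {s : κ → ι} {L : κ → Gr.Sn ν →ₗ[ℂ] ℂ}
    {𝔞 : Ideal (Gr.Sn ν)} {q : ι → ℤ} {p : κ → ℤ} (hp : ∀ k, p k = q (s k))
    (hk : ∀ i g, g ∈ 𝔞 ↔ ∀ k, s k = i → L k g = 0)
    (hs : ∀ k, ∃ g, ∀ l, s l = s k → L l g = if l = k then 1 else 0) : Ev 𝔞 q p (EE s L) where
  smul f w := funext fun k => cf_ix_mul (L k) f (w (s k))
  hom e w hw k := hp k ▸ (mem_U.1 hw (s k)).cf (L k)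
  surj e z hz := by
    classical
    choose g hg using hs
    refine ⟨∑ k, Pi.single (s k) (ix ν (z k) * C (g k)), sum_mem fun k _ => single_U
      ((xh_ix (hz k)).mul (xh_C _) (by rw [hp, add_zero])), funext fun l => ?_⟩
    rw [map_sum, Finset.sum_apply, Finset.sum_eq_single l]
    · change cf (L l) ((Pi.single (s l) _ : ι → PP ν) (s l)) = _
      rw [Pi.single_eq_same, cf_ix_mul, cf_C, hg l l rfl, if_pos rfl, C_1, mul_one]
    · intro k _ hkl
      change cf (L l) ((Pi.single (s k) _ : ι → PP ν) (s l)) = _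
      by_cases h : s l = s k
      · rw [h, Pi.single_eq_same, cf_ix_mul, cf_C, hg k l h, if_neg hkl.symm, C_0, mul_zero]
      · rw [Pi.single_eq_of_ne h, map_zero]
    · exact fun h => absurd (Finset.mem_univ l) h
  ker w := ⟨fun h i μ => (hk i _).2 fun k e => by
    subst e
    exact (coeff_cf _ _ _).symm.trans (congrArg (coeff μ) (congrFun h k)),
    fun h => funext fun k => MvPolynomial.ext _ _ fun μ =>
      (coeff_cf _ _ _).trans ((hk (s k) _).1 (h _ μ) k rfl)⟩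

variable (v t : Fin ν → ℂ)

/-- the value at a point -/
noncomputable def evL : Gr.Sn ν →ₗ[ℂ] ℂ where
  toFun := eval v
  map_add' := map_add _
  map_smul' c g := smul_eval v g c

theorem dv_C (c : ℂ) : dv v t (C c) = 0 := by simp [dv]

/-- the derivative at a point -/
noncomputable def dvL : Gr.Sn ν →ₗ[ℂ] ℂ where
  toFun := dv v t
  map_add' := dv_add v t
  map_smul' c g := by
    rw [smul_eq_C_mul, dv_mul, dv_C, mul_zero, add_zero, eval_C]
    rfl

theorem cf_evL (g : PP ν) : cf (evL v) g = MvPolynomial.map (eval v) g :=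
  MvPolynomial.ext _ _ fun μ => (coeff_cf _ _ _).trans (coeff_map (eval v) g μ).symm

theorem cf_dvL_mul (f g : PP ν) : cf (dvL v t) (f * g) =
    MvPolynomial.map (eval v) f * cf (dvL v t) g + cf (dvL v t) f * cf (evL v) g := by
  classical
  ext μ
  rw [coeff_cf, coeff_add, coeff_mul, coeff_mul, coeff_mul, map_sum, ← Finset.sum_add_distrib]
  refine Finset.sum_congr rfl fun x _ => (dv_mul v t _ _).trans ?_
  rw [coeff_cf, coeff_cf, coeff_cf, coeff_map, mul_comm (eval v (coeff x.2 g))]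
  rfl

/-- the value of a vector at a point -/
noncomputable def eP : (ι → PP ν) →ₗ[ℂ] (ι → S6) := EE id fun _ => evL v

/-- the value of a vector at a tangent vector -/
noncomputable def eJ : (ι → PP ν) →ₗ[ℂ] (ι ⊕ ι → S6) :=
  EE (Sum.elim id id) (Sum.elim (fun _ => dvL v t) fun _ => evL v)

variable [Fintype ι]

theorem eP_mulVec (Φ : Matrix κ ι (PP ν)) (u : ι → PP ν) :
    eP v (Φ.mulVec u) = (atP Φ v).mulVec (eP v u) := funext fun i => by
  refine (map_sum (cf (evL v)) _ _).trans (Finset.sum_congr rfl fun j _ => ?_)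
  rw [cf_evL, map_mul, ← cf_evL v (u j)]
  rfl

theorem eJ_mulVec (Φ : Matrix κ ι (PP ν)) (u : ι → PP ν) :
    eJ v t (Φ.mulVec u) = (atJ Φ v t).mulVec (eJ v t u) := by
  rw [atJ, Matrix.fromBlocks_mulVec, Matrix.zero_mulVec, zero_add]
  funext k
  obtain i | i := k
  · refine (map_sum (cf (dvL v t)) _ _).trans (Eq.trans ?_ (Finset.sum_add_distrib))
    exact Finset.sum_congr rfl fun j _ => cf_dvL_mul v t _ _
  · exact congrFun (eP_mulVec v Φ u) i

theorem ev_eP (q : ι → ℤ) : Ev (mv v) q q (eP v) := by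
  classical
  exact ev_EE (fun _ => rfl) (fun i g => ⟨fun h _ _ => h, fun h => h i rfl⟩)
    fun k => ⟨1, fun l h => (map_one (eval v)).trans (if_pos h).symm⟩

theorem ev_eJ (ht : t ≠ 0) (q : ι → ℤ) : Ev (mj v t) q (Sum.elim q q) (eJ v t) := by
  classical
  obtain ⟨j, hj⟩ := Function.ne_iff.1 ht
  refine ev_EE (by rintro (i | i) <;> rfl) (fun i g => ⟨fun h k _ => ?_,
    fun h => ⟨h (.inr i) rfl, h (.inl i) rfl⟩⟩) ?_
  · obtain k | k := k
    exacts [h.2, h.1]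
  · rintro (k | k)
    · refine ⟨C (t j)⁻¹ * (X j + C (-v j)), ?_⟩
      rintro (l | l) h
      · refine (dv_mul v t _ _).trans ?_
        rw [dv_add, dv_C, dv_C, if_pos (congrArg Sum.inl (show l = k from h))]
        simpa [dv, Pi.single_apply, apply_ite] using inv_mul_cancel₀ hj
      · change eval v _ = _
        simp
    · refine ⟨C 1, ?_⟩
      rintro (l | l) h
      · exact (dv_C v t 1).trans (if_neg Sum.inl_ne_inr).symm
      · exact (eval_C 1).trans (if_pos (congrArg Sum.inr (show l = k from h))).symm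

/-- linear functionals of the values are polynomial functions -/
theorem pol (l : (ι → S6) →ₗ[ℂ] ℂ) (w : ι → PP ν) :
    ∃ p : Gr.Sn ν, ∀ v, eval v p = l (eP v w) := by
  classical
  refine ind1 (⟨⟨{w | ∃ p : Gr.Sn ν, ∀ v, eval v p = l (eP v w)}, ?_⟩, 0, by simp⟩ : AddSubmonoid _) w
    fun i μ _ => ⟨C (l (Pi.single i (monomial μ 1))) * coeff μ (w i), fun v => ?_⟩
  · rintro w w' ⟨p, hp⟩ ⟨p', hp'⟩
    exact ⟨p + p', fun v => by rw [map_add, map_add, map_add, hp, hp']⟩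
  · rw [map_mul, eval_C, mul_comm, ← smul_eq_mul, ← map_smul]
    refine congrArg l (funext fun j => Eq.trans ?_ (cf_evL v _).symm)
    by_cases h : j = i
    · simp [h, smul_monomial]
    · simp [h]

end Ev

section Rk

variable {A B D : Type} [AddCommGroup A] [Module ℂ A] [AddCommGroup B] [Module ℂ B]
  [AddCommGroup D] [Module ℂ D]

/-- families of linear maps which depend polynomially on the point -/
def Pol (φ : (Fin ν → ℂ) → A →ₗ[ℂ] B) : Prop :=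
  ∀ x (l : B →ₗ[ℂ] ℂ), ∃ p : Gr.Sn ν, ∀ v, eval v p = l (φ v x)

theorem Pol.rank [Module.Finite ℂ B] {φ : (Fin ν → ℂ) → A →ₗ[ℂ] B} (h : Pol φ) (v₀ : Fin ν → ℂ) :
    ∃ g : Gr.Sn ν, eval v₀ g ≠ 0 ∧ ∀ v, eval v g ≠ 0 →
      finrank ℂ (LinearMap.range (φ v₀)) ≤ finrank ℂ (LinearMap.range (φ v)) := by
  let b := Module.finBasis ℂ (LinearMap.range (φ v₀))
  choose x hx using fun i => (b i).2
  obtain ⟨β, hβ⟩ := (LinearMap.range (φ v₀)).subtype.exists_leftInverse_of_injective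
    (Submodule.ker_subtype _)
  choose p hp using fun i j => h (x j) (b.coord i ∘ₗ β)
  have h1 : ∀ v, eval v (Matrix.of p).det =
      (Matrix.of fun i j => (b.coord i ∘ₗ β) (φ v (x j))).det := fun v =>
    (RingHom.map_det _ _).trans (congrArg _ (Matrix.ext fun i j => hp i j v))
  refine ⟨(Matrix.of p).det, ?_, fun v hv => ?_⟩
  · rw [h1, show (Matrix.of fun i j => (b.coord i ∘ₗ β) (φ v₀ (x j))) = 1 from
      Matrix.ext fun i j => by
        rw [Matrix.of_apply, hx, LinearMap.comp_apply, show β (b j) = b j from congr($hβ (b j))]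
        simp [Finsupp.single_apply, Matrix.one_apply, eq_comm], Matrix.det_one]
    exact one_ne_zero
  · rw [h1] at hv
    exact (Fintype.card_fin _).symm.trans_le (LinearIndependent.of_comp
      (v := fun j => (⟨φ v (x j), _, rfl⟩ : LinearMap.range (φ v)))
      ((LinearMap.pi fun i => b.coord i ∘ₗ β) ∘ₗ Submodule.subtype _)
      (Matrix.linearIndependent_cols_of_det_ne_zero hv)).fintype_card_le_finrank

theorem finrank_cok [Module.Finite ℂ B] {f : A →ₗ[ℂ] B} {g : B →ₗ[ℂ] D}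
    (hg : Function.Surjective g) (h : ∀ x, g x = 0 ↔ ∃ y, f y = x) :
    finrank ℂ D = finrank ℂ B - finrank ℂ (LinearMap.range f) := by
  have h1 := g.finrank_range_add_finrank_ker
  rw [LinearMap.range_eq_top.2 hg, finrank_top, show g.ker = f.range from Submodule.ext h] at h1
  exact Nat.eq_sub_of_add_eq h1

variable {I : Ideal (Gr.Sn ν)}

theorem le_mv {v : Fin ν → ℂ} (h : Pt I v) : I ≤ mv v := fun f hf => by
  change eval v f = 0
  rw [← sum_homogeneousComponent f, map_sum]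
  exact Finset.sum_eq_zero fun n _ => h.2 hf n

theorem exists_pt [hI : Fact (IsHom I)] (hp : I.IsPrime) {v : Fin ν → ℂ} (hv : Pt I v)
    {g : Gr.Sn ν} (hg : g ∉ I) : ∃ u, Pt I u ∧ eval u g ≠ 0 := by
  obtain ⟨j, hj⟩ := Function.ne_iff.1 hv.1
  have h1 : g * X j ∉ vanishingIdeal ℂ (zeroLocus ℂ I) := by
    rw [vanishingIdeal_zeroLocus_eq_radical, hp.radical]
    exact fun h => (hp.mem_or_mem h).elim hg fun h => hj ((eval_X j).symm.trans (le_mv hv h))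
  rw [mem_vanishingIdeal_iff] at h1
  push Not at h1
  obtain ⟨u, hu, h2⟩ := h1
  rw [aeval_eq_eval, map_mul, eval_X] at h2
  exact ⟨u, ⟨fun h => right_ne_zero_of_mul h2 (congrFun h j),
    fun f hf n => hu _ (hI.out f hf n)⟩, left_ne_zero_of_mul h2⟩

theorem rank_eq [Fact (IsHom I)] (hp : I.IsPrime) [Module.Finite ℂ B] [Module.Finite ℂ D]
    {φ : (Fin ν → ℂ) → A →ₗ[ℂ] B} {ψ : (Fin ν → ℂ) → B →ₗ[ℂ] D} (h : Pol φ) (h' : Pol ψ)
    (he : ∀ v, Pt I v → LinearMap.range (φ v) = LinearMap.ker (ψ v)) {v v' : Fin ν → ℂ}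
    (hv : Pt I v) (hv' : Pt I v') :
    finrank ℂ (LinearMap.range (ψ v)) = finrank ℂ (LinearMap.range (ψ v')) := by
  obtain ⟨g₁, h1, h2⟩ := h.rank v
  obtain ⟨g₂, h3, h4⟩ := h'.rank v
  obtain ⟨g₃, h5, h6⟩ := h.rank v'
  obtain ⟨g₄, h7, h8⟩ := h'.rank v'
  obtain ⟨u, hu, h9⟩ := exists_pt hp hv (g := g₁ * g₂ * (g₃ * g₄)) fun h =>
    (hp.mem_or_mem h).elim (fun h => mul_ne_zero h1 h3 ((map_mul _ _ _).symm.trans (le_mv hv h)))
      fun h => mul_ne_zero h5 h7 ((map_mul _ _ _).symm.trans (le_mv hv' h))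
  simp only [map_mul, mul_ne_zero_iff] at h9
  have a1 := h2 u h9.1.1
  have a2 := h4 u h9.1.2
  have a3 := h6 u h9.2.1
  have a4 := h8 u h9.2.2
  rw [he u hu] at a1 a3
  rw [he v hv] at a1
  rw [he v' hv'] at a3
  have b1 := (ψ u).finrank_range_add_finrank_ker
  have b2 := (ψ v).finrank_range_add_finrank_ker
  have b3 := (ψ v').finrank_range_add_finrank_ker
  lia

end Rk

theorem isQ_equiv {N : Gr.GrS ν} {𝔞 : Ideal (Gr.Sn ν)} {A B : Type} [AddCommGroup A] [Module ℂ A]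
    [AddCommGroup B] [Module ℂ B] {ev : ∀ m : ℤ, N.obj ⟨m⟩ →ₗ[ℂ] A} (h : IsQ N 𝔞 ev)
    (φ : A ≃ₗ[ℂ] B) : IsQ N 𝔞 fun m => φ.toLinearMap ∘ₗ ev m := by
  refine ⟨fun z => ?_, fun t => ?_⟩
  · obtain ⟨t, ht⟩ := h.1 (φ.symm z)
    exact ⟨t, (lsum_comp _ _ t).trans ((congrArg φ ht).trans (φ.apply_symm_apply z))⟩
  · rw [lsum_comp, ← h.2]
    exact φ.map_eq_zero_iff

theorem fin_fg {N : O.L.GrS} (h : O.L.fg N) (e : ℤ) : Module.Finite ℂ (N.obj ⟨e⟩) := by
  obtain ⟨n, a, g, h⟩ := h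
  have := fun i => fin_deg (fun μ : Fin 6 →₀ ℕ => a i + (μ.degree : ℤ) = e) (e - a i)
    fun β h => by lia
  refine Module.Finite.of_fg_top (Submodule.eq_top_iff'.2 (h e) ▸ Submodule.fg_span ?_)
  refine (Set.finite_range fun j : Σ i, {μ : Fin 6 →₀ ℕ // a i + (μ.degree : ℤ) = e} =>
    N.map (X := ⟨a j.1⟩) (Y := ⟨e⟩) j.2 (g j.1)).subset ?_
  rintro _ ⟨i, m, rfl⟩
  exact ⟨⟨i, m⟩, rfl⟩

variable {ι κ : Type} [Fintype ι] [Fintype κ] {a q : ι → ℤ} {a' q' : κ → ℤ}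
  {Φ : Matrix κ ι (PP ν)} (hΦ : BiH a q a' q' Φ)
include hΦ

omit [Fintype ι] [Fintype κ] in
theorem hgM_atP (v : Fin ν → ℂ) : O.L.HgM q q' (atP Φ v) := fun i j =>
  (congrArg (Hg _) (cf_evL v (Φ i j))).mp (XH.cf (fun μ => (hΦ i j μ).2) _)

theorem pol_mat (W : S6) (e : ℤ) :
    Pol fun v => ((O.L.matO W _ (hgM_atP hΦ v)).app ⟨e⟩).hom := fun x l => by
  obtain ⟨u, hu, rfl⟩ := O.L.FrO.mk_surj W x
  obtain ⟨l', hl⟩ := LinearMap.exists_extend (l ∘ₗ (O.L.frW W q' e).mkQ)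
  obtain ⟨p, hp⟩ := pol l' (Φ.mulVec fun j => ix ν (u j))
  refine ⟨p, fun v => (hp v).trans (Eq.trans ?_
    congr($hl ⟨(atP Φ v).mulVec u, (hgM_atP hΦ v).mulVec hu⟩))⟩
  rw [eP_mulVec]
  refine congrArg (fun x => l' ((atP Φ v).mulVec x)) (funext fun j => ?_)
  exact MvPolynomial.ext _ _ fun μ => (coeff_cf _ _ _).trans
    ((congrArg _ (coeff_ix _ _)).trans (eval_C _))

end Mat

open Mat in
/-- **step MAT** -/
theorem stMat {ν : ℕ} {W : S6} {I : Ideal (Gr.Sn ν)} [Fact (W.IsHomogeneous 3)] [Fact (IsHom I)]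
    (hm : StMem W I) : StMat W I := by
  intro hp ι₀ ι₁ ι₂ _ _ _ a₀ q₀ a₁ q₁ a₂ q₂ Φ Φ' hΦ hΦ' hex
  have hπ : ∀ w, (Rel W I Φ).mkQ w = 0 ↔ w ∈ Rel W I Φ := fun w => Submodule.Quotient.mk_eq_zero _
  obtain ⟨K, vl, hX, hY, hr⟩ := exists_ker a₀ q₀ (π := (Rel W I Φ).mkQ) hm
    (fun w => (hπ _).2 (mem_Rel.2 ⟨0, w, 0, fun _ _ => I.zero_mem, by simp⟩))
    fun g hg w => (hπ _).2 (mem_Rel.2 ⟨0, 0, _, fun i μ =>
      (coeff_C_mul μ g (w i)).symm ▸ I.mul_mem_right _ hg, by simp; rfl⟩)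
  have hP : ∀ v, Pt I v → ∀ h : O.L.HgM q₁ q₀ (atP Φ v),
      K.Quo (mv v) (cokernel (O.L.matA W _ h)) := fun v hv h =>
    quo hΦ hπ hX hY hr (le_mv hv) (ev_eP v q₀) (ev_eP v q₁) h (eP_mulVec v Φ)
  refine ⟨K, fun e => ?_, fun v hv => ⟨hP v hv, fun t ht h => ?_⟩⟩
  · by_cases h0 : ∃ v, Pt I v
    swap
    · exact ⟨0, fun v hv => absurd ⟨v, hv⟩ h0⟩
    obtain ⟨v₀, h₀⟩ := h0
    have := fin_fg (O.L.FrO.fg W (q := q₀)) e
    have := fin_fg (O.L.FrO.fg W (q := q₁)) e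
    refine ⟨finrank ℂ ((O.L.FrO W q₀).obj ⟨e⟩) - finrank ℂ
      (LinearMap.range ((O.L.matO W _ (hgM_atP hΦ v₀)).app ⟨e⟩).hom), fun v hv => ?_⟩
    obtain ⟨ev, hev⟩ := hP v hv (hgM_atP hΦ v)
    have := fin_fg (cokernel (O.L.matA W _ (hgM_atP hΦ v))).property.2 e
    refine ⟨_, isQ_equiv (hev e) (LinearEquiv.ofFinrankEq _ _ ?_)⟩
    rw [Module.finrank_fin_fun, ← rank_eq hp (pol_mat hΦ' W e) (pol_mat hΦ W e) (fun u hu => ?_) hv h₀]
    · exact finrank_cok (B := (O.L.FrO W q₀).obj ⟨e⟩)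
        (O.L.GA_app_surjective W (cokernel.π (O.L.matA W _ (hgM_atP hΦ v))) e)
        (cok_exact (hgM_atP hΦ v))
    · obtain ⟨w, hw⟩ := hex u hu (hgM_atP hΦ u) (hgM_atP hΦ' u)
      refine Submodule.ext fun x => ⟨?_, O.L.GA_exact_apply W hw e x⟩
      rintro ⟨y, rfl⟩
      exact congr(($w).hom.app ⟨e⟩ y)
  · have h0 : t ≠ 0 := by simpa using ht.2 0
    exact quo hΦ hπ hX hY hr (𝔞 := mj v t) (fun g hg => ⟨le_mv hv hg, ht.1 g hg⟩)
      (ev_eJ v t h0 q₀) (ev_eJ v t h0 q₁) h (eJ_mulVec v t Φ)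

end Vale.Agent.P287T.Fm
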