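import Vale.Agent.P287T.Fm.St2

/-!
# Step MAT, part 1: bihomogeneous vectors
-/

open CategoryTheory Limits MvPolynomial

namespace Vale.Agent.P287T.Fm.Mat

open Vale.Agent.P287Z Vale.Agent.P287Z.O.V Vale.Agent.P287T.Cy

variable {ν : ℕ}

/-- polynomials in `x` whose coefficients are polynomials in `y` -/
abbrev PP (ν : ℕ) : Type := MvPolynomial (Fin 6) (Gr.Sn ν)

section Cf

variable {S : Type} [CommRing S] [Algebra ℂ S] (L : Gr.Sn ν →ₗ[ℂ] S)

theorem coeff_cf0 (g : PP ν) (μ : Fin 6 →₀ ℕ) :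
    coeff μ (∑ m ∈ g.support, monomial m (L (coeff m g)) : MvPolynomial (Fin 6) S) =
      L (coeff μ g) := by
  classical
  rw [coeff_sum, Finset.sum_eq_single μ]
  · rw [coeff_monomial, if_pos rfl]
  · intro m _ hm
    rw [coeff_monomial, if_neg hm]
  · intro h
    rw [coeff_monomial, if_pos rfl, notMem_support_iff.1 h, map_zero]

/-- apply `L` to the coefficients -/
noncomputable def cf : PP ν →ₗ[ℂ] MvPolynomial (Fin 6) S where
  toFun g := ∑ m ∈ g.support, monomial m (L (coeff m g))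
  map_add' f g := by
    ext μ
    rw [coeff_add, coeff_cf0, coeff_cf0, coeff_cf0, coeff_add, map_add]
  map_smul' c g := by
    ext μ
    rw [coeff_smul, coeff_cf0, coeff_cf0, coeff_smul, map_smul, RingHom.id_apply]

theorem coeff_cf (g : PP ν) (μ : Fin 6 →₀ ℕ) : coeff μ (cf L g) = L (coeff μ g) :=
  coeff_cf0 L g μ

end Cf

/-- the inclusion of the polynomials in `x` -/
noncomputable def ix (ν : ℕ) : S6 →ₐ[ℂ] PP ν := mapAlgHom (Algebra.ofId ℂ (Gr.Sn ν))

/-- the inclusion of the polynomials in `y` -/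
noncomputable def iy (ν : ℕ) : Gr.Sn ν →ₐ[ℂ] PP ν := IsScalarTower.toAlgHom ℂ (Gr.Sn ν) (PP ν)

theorem iy_eq (g : Gr.Sn ν) : iy ν g = C g := rfl

theorem coeff_ix (f : S6) (μ : Fin 6 →₀ ℕ) : coeff μ (ix ν f) = C (coeff μ f) :=
  coeff_map _ _ _

theorem ix_monomial (μ : Fin 6 →₀ ℕ) : ix ν (monomial μ 1) = monomial μ 1 := by
  classical
  ext1 m
  rw [coeff_ix, coeff_monomial, coeff_monomial]
  split_ifs
  · exact C_1
  · exact C_0

theorem cf_ix_mul (L : Gr.Sn ν →ₗ[ℂ] ℂ) (f : S6) (g : PP ν) : cf L (ix ν f * g) = f * cf L g := by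
  classical
  ext μ
  rw [coeff_cf, coeff_mul, coeff_mul, map_sum]
  refine Finset.sum_congr rfl fun x _ => ?_
  rw [coeff_ix, coeff_cf, ← smul_eq_C_mul, map_smul, smul_eq_mul]

theorem cf_C (L : Gr.Sn ν →ₗ[ℂ] ℂ) (g : Gr.Sn ν) : cf L (C g) = C (L g) := by
  classical
  ext μ
  rw [coeff_cf, coeff_C, coeff_C]
  split_ifs
  · rfl
  · exact map_zero L

/-- homogeneous in `x`, of doubled degree `e` -/
def XH {S : Type} [CommRing S] (e : ℤ) (g : MvPolynomial (Fin 6) S) : Prop :=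
  ∀ μ, coeff μ g ≠ 0 → 2 * (μ.degree : ℤ) = e

/-- homogeneous in `y`, of doubled degree `d` -/
def YH (d : ℤ) (g : PP ν) : Prop := ∀ μ, P294.V.Hg d (coeff μ g)

theorem xh_iff {e : ℤ} {f : S6} : XH e f ↔ Hg e f := by
  rw [O.L.hg_iff]
  exact forall_congr' fun μ => by rw [mem_support_iff]

theorem XH.mul {e e' k : ℤ} {f g : PP ν} (hf : XH e f) (hg : XH e' g) (h : e + e' = k) :
    XH k (f * g) := by
  classical
  intro μ hμ
  rw [coeff_mul] at hμ
  obtain ⟨x, hx, h0⟩ := Finset.exists_ne_zero_of_sum_ne_zero hμ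
  have h2 : x.1 + x.2 = μ := by simpa using hx
  rw [← h, ← hf x.1 (left_ne_zero_of_mul h0), ← hg x.2 (right_ne_zero_of_mul h0),
    ← h2, map_add, Nat.cast_add, mul_add]

theorem YH.mul {d d' k : ℤ} {f g : PP ν} (hf : YH d f) (hg : YH d' g) (h : d + d' = k) :
    YH k (f * g) := by
  classical
  intro μ
  rw [coeff_mul]
  exact Gr.hga_sum _ fun x _ => Gr.hga_mul' (hf _) (hg _) h

theorem xh_monomial {μ : Fin 6 →₀ ℕ} {e : ℤ} (h : 2 * (μ.degree : ℤ) = e) (c : Gr.Sn ν) :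
    XH e (monomial μ c : PP ν) := by
  classical
  intro m hm
  rw [coeff_monomial] at hm
  rwa [← of_not_not fun h' => hm (if_neg h')]

theorem yh_monomial (μ : Fin 6 →₀ ℕ) {d : ℤ} {c : Gr.Sn ν} (h : P294.V.Hg d c) :
    YH d (monomial μ c : PP ν) := by
  classical
  intro m
  rw [coeff_monomial]
  split_ifs
  · exact h
  · exact Gr.hga_zero _

theorem xh_C (c : Gr.Sn ν) : XH 0 (C c : PP ν) := xh_monomial (by simp) c

theorem xh_ix {e : ℤ} {f : S6} (h : Hg e f) : XH e (ix ν f) := fun μ hμ =>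
  xh_iff.2 h μ fun h0 => hμ (by rw [coeff_ix, h0, C_0])

theorem yh_ix (f : S6) : YH 0 (ix ν f) := fun μ => by
  rw [coeff_ix]
  exact isWeightedHomogeneous_C _ _

theorem XH.cf {e : ℤ} {g : PP ν} (h : XH e g) (L : Gr.Sn ν →ₗ[ℂ] ℂ) : Hg e (cf L g) :=
  xh_iff.1 fun μ hμ => h μ fun h0 => hμ (by rw [coeff_cf, h0, map_zero])

/-- the polynomials which are homogeneous in `x` -/
def xs (ν : ℕ) (e : ℤ) : Submodule ℂ (PP ν) where
  carrier := {g | XH e g}
  zero_mem' := fun _ h => absurd rfl h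
  add_mem' {f g} hf hg μ h := by
    rw [coeff_add] at h
    by_cases h0 : coeff μ f = 0
    · exact hg μ fun h1 => h (by rw [h0, h1, add_zero])
    · exact hf μ h0
  smul_mem' c g hg μ h := hg μ fun h0 => h (by rw [coeff_smul, h0, smul_zero])

/-- the polynomials which are homogeneous in `y` -/
def ys (ν : ℕ) (d : ℤ) : Submodule ℂ (PP ν) where
  carrier := {g | YH d g}
  zero_mem' := fun _ => Gr.hga_zero _
  add_mem' {f g} hf hg μ := by
    rw [coeff_add]
    exact Gr.hga_add (hf μ) (hg μ)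
  smul_mem' c g hg μ := by
    rw [coeff_smul]
    exact Gr.hga_smul c (hg μ)

variable {ι κ : Type}

variable (ν) in
/-- vectors of degree `e` in `x` -/
noncomputable def U (q : ι → ℤ) (e : ℤ) : Submodule ℂ (ι → PP ν) :=
  Submodule.pi Set.univ fun i => xs ν (2 * e - q i)

variable (ν) in
/-- vectors of bidegree `(m, e)` -/
noncomputable def V (a q : ι → ℤ) (m e : ℤ) : Submodule ℂ (ι → PP ν) :=
  (Submodule.pi Set.univ fun i => ys ν (2 * (m - a i))) ⊓ U ν q e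

theorem mem_U {q : ι → ℤ} {e : ℤ} {w : ι → PP ν} : w ∈ U ν q e ↔ ∀ i, XH (2 * e - q i) (w i) :=
  ⟨fun h i => h i trivial, fun h i _ => h i⟩

theorem mem_V {a q : ι → ℤ} {m e : ℤ} {w : ι → PP ν} : w ∈ V ν a q m e ↔
    (∀ i, YH (2 * (m - a i)) (w i)) ∧ ∀ i, XH (2 * e - q i) (w i) :=
  ⟨fun h => ⟨fun i => h.1 i trivial, mem_U.1 h.2⟩, fun h => ⟨fun i _ => h.1 i, mem_U.2 h.2⟩⟩

theorem smul_U {q : ι → ℤ} {e e' : ℤ} {w : ι → PP ν} (h : w ∈ U ν q e) {g : PP ν}
    (hx : XH (2 * (e' - e)) g) : g • w ∈ U ν q e' :=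
  mem_U.2 fun i => hx.mul (mem_U.1 h i) (by ring)

theorem smul_V {a q : ι → ℤ} {m e m' e' : ℤ} {w : ι → PP ν} (h : w ∈ V ν a q m e) {g : PP ν}
    (hy : YH (2 * (m' - m)) g) (hx : XH (2 * (e' - e)) g) : g • w ∈ V ν a q m' e' :=
  mem_V.2 ⟨fun i => hy.mul ((mem_V.1 h).1 i) (by ring), mem_U.1 (smul_U h.2 hx)⟩

theorem mulVec_U [Fintype ι] {a q : ι → ℤ} {a' q' : κ → ℤ} {Φ : Matrix κ ι (PP ν)}
    (hΦ : BiH a q a' q' Φ) {e : ℤ} {u : ι → PP ν} (h : u ∈ U ν q e) : Φ.mulVec u ∈ U ν q' e :=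
  mem_U.2 fun i => (xs ν _).sum_mem fun j _ =>
    XH.mul (fun μ => (hΦ i j μ).2) (mem_U.1 h j) (by ring)

section Ind

variable [DecidableEq ι]

theorem single_U {q : ι → ℤ} {e : ℤ} {i : ι} {g : PP ν} (h : XH (2 * e - q i) g) :
    Pi.single i g ∈ U ν q e := mem_U.2 fun j => by
  by_cases hj : j = i
  · rwa [hj, Pi.single_eq_same]
  · rw [Pi.single_eq_of_ne hj]
    exact (xs ν _).zero_mem

theorem single_V {a q : ι → ℤ} {m e : ℤ} {i : ι} {g : PP ν} (hy : YH (2 * (m - a i)) g)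
    (h : XH (2 * e - q i) g) : Pi.single i g ∈ V ν a q m e :=
  mem_V.2 ⟨fun j => by
    by_cases hj : j = i
    · rwa [hj, Pi.single_eq_same]
    · rw [Pi.single_eq_of_ne hj]
      exact (ys ν _).zero_mem, mem_U.1 (single_U h)⟩

theorem smul_single (i : ι) (f g : PP ν) :
    f • (Pi.single i g : ι → PP ν) = Pi.single i (f * g) := (Pi.single_smul' i f g).symm

theorem single_sum {τ : Type} (i : ι) (s : Finset τ) (f : τ → PP ν) :
    (Pi.single i (∑ t ∈ s, f t) : ι → PP ν) = ∑ t ∈ s, Pi.single i (f t) :=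
  map_sum (AddMonoidHom.single (fun _ => PP ν) i) f s

variable [Fintype ι]

/-- induction on the coefficients -/
theorem ind1 {σ : Type} [SetLike σ (ι → PP ν)] [AddSubmonoidClass σ (ι → PP ν)] (S : σ)
    (w : ι → PP ν) (h : ∀ i μ, coeff μ (w i) ≠ 0 →
      Pi.single i (monomial μ (coeff μ (w i))) ∈ S) : w ∈ S := by
  rw [← Finset.univ_sum_single w]
  refine sum_mem fun i _ => ?_
  rw [← support_sum_monomial_coeff (w i), single_sum]
  exact sum_mem fun μ hμ => h i μ (mem_support_iff.1 hμ)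

/-- induction on the monomials -/
theorem ind2 (S : Submodule ℂ (ι → PP ν)) (w : ι → PP ν)
    (h : ∀ i μ β, coeff β (coeff μ (w i)) ≠ 0 →
      Pi.single i (monomial μ (monomial β 1)) ∈ S) : w ∈ S := by
  refine ind1 S w fun i μ _ => ?_
  rw [← support_sum_monomial_coeff (coeff μ (w i)), map_sum, single_sum]
  refine sum_mem fun β hβ => ?_
  have := S.smul_mem (coeff β (coeff μ (w i))) (h i μ β (mem_support_iff.1 hβ))
  rwa [← Pi.single_smul', smul_monomial, smul_monomial, smul_eq_mul, mul_one] at this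

/-- induction on the monomials of a given bidegree -/
theorem V_le {a q : ι → ℤ} {m e : ℤ} (S : Submodule ℂ (ι → PP ν))
    (h : ∀ i (μ : Fin 6 →₀ ℕ) (β : Fin ν →₀ ℕ), 2 * (μ.degree : ℤ) = 2 * e - q i →
      a i + (β.degree : ℤ) = m → Pi.single i (monomial μ (monomial β 1)) ∈ S) :
    V ν a q m e ≤ S := fun w hw => ind2 S w fun i μ β h0 =>
  h i μ β ((mem_V.1 hw).2 i μ fun h1 => h0 (by rw [h1, coeff_zero])) (by
    have := Gr.hg_iff.1 ((mem_V.1 hw).1 i μ) β (mem_support_iff.2 h0)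
    lia)

omit [Fintype ι] in
theorem mono_V {a q : ι → ℤ} {m e : ℤ} {i : ι} {μ : Fin 6 →₀ ℕ} {β : Fin ν →₀ ℕ}
    (h : 2 * (μ.degree : ℤ) = 2 * e - q i) (h' : a i + (β.degree : ℤ) = m) :
    Pi.single i (monomial μ (monomial β 1)) ∈ V ν a q m e :=
  single_V (yh_monomial _ (Gr.hga_monomial _ (by lia))) (xh_monomial h _)

end Ind

/-- the homogeneous part, as a linear map -/
noncomputable def hpL (k : ℤ) : Gr.Sn ν →ₗ[ℂ] Gr.Sn ν where
  toFun := Gr.hpart k
  map_add' := Gr.hpart_add k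
  map_smul' c f := by
    ext μ
    rw [coeff_smul, Gr.coeff_hpart, Gr.coeff_hpart, coeff_smul, RingHom.id_apply, smul_ite,
      smul_zero]

theorem cf_hp_mul {d : ℤ} {f : PP ν} (hf : YH d f) (g : PP ν) (k : ℤ) :
    cf (hpL k) (f * g) = f * cf (hpL (k - d)) g := by
  classical
  ext1 μ
  rw [coeff_cf, coeff_mul, coeff_mul, map_sum]
  refine Finset.sum_congr rfl fun x _ => ?_
  rw [coeff_cf]
  exact Gr.hpart_mul (hf _) _ _

theorem cf_hp {d : ℤ} {f : PP ν} (hf : YH d f) (k : ℤ) :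
    cf (hpL k) f = if k = d then f else 0 := by
  ext1 μ
  rw [coeff_cf]
  split_ifs with h
  · rw [h]
    exact Gr.hpart_eq_self (hf μ)
  · have := Gr.hpart_mul (hf μ) 1 k
    rw [mul_one] at this
    refine this.trans (mul_eq_zero_of_right _ (Gr.hga_inj (Gr.hga_hpart _ _) (m := 0) ?_ ?_))
    · refine Gr.hg_iff.2 fun m hm => ?_
      rw [mem_support_iff, Gr.coeff_hpart] at hm
      exact Gr.hg_iff.1 Gr.hga_one m (mem_support_iff.2 fun h0 => hm (by rw [h0, ite_self]))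
    · lia

end Vale.Agent.P287T.Fm.Mat
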