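import Vale.Agent.P287T.Fm.Mat1

/-!
# Step MAT, part 2: the bigraded module
-/

open CategoryTheory Limits MvPolynomial

namespace Vale.Agent.P287T.Fm.Mat

open Vale.Agent.P287Z Vale.Agent.P287Z.O.V Vale.Agent.P287T.Cy

section Gr

variable {n : ℕ} {P T : Type} [CommRing P] [Algebra ℂ P] [AddCommGroup T] [Module ℂ T]
  [Module P T] [IsScalarTower ℂ P T] (ρ : Gr.Sn n →ₐ[ℂ] P)

/-- a graded module whose pieces sit inside a module over `P` -/
structure Emb (N : Gr.GrS n) (vl : ∀ a : ℤ, N.obj ⟨a⟩ →ₗ[ℂ] T) : Prop where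
  inj : ∀ a, Function.Injective (vl a)
  map : ∀ {a b : ℤ} (μ : (⟨a⟩ : Gr.Dg n) ⟶ ⟨b⟩) x,
    vl b (N.map μ x) = ρ (monomial μ.1 1) • vl a x

/-- families of subspaces which are stable under the monomials -/
def Stb (F : ℤ → Submodule ℂ T) : Prop := ∀ (a b : ℤ) (μ : Fin n →₀ ℕ), a + μ.degree = b →
  ∀ t ∈ F a, Algebra.lsmul ℂ ℂ T (ρ (monomial μ 1)) t ∈ F b

variable {ρ}

/-- the graded module of a stable family -/
noncomputable def grO {F : ℤ → Submodule ℂ T} (h : Stb ρ F) : Gr.GrS n where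
  obj a := ModuleCat.of ℂ (F a.deg)
  map μ := ModuleCat.ofHom (LinearMap.restrict _ (h _ _ μ.1 μ.2))
  map_id a := by
    refine ModuleCat.hom_ext (LinearMap.ext fun x => Subtype.ext ?_)
    change ρ 1 • x.1 = x.1
    rw [map_one, one_smul]
  map_comp μ μ' := by
    refine ModuleCat.hom_ext (LinearMap.ext fun x => Subtype.ext ?_)
    change ρ (monomial (μ.1 + μ'.1) 1) • x.1 =
      ρ (monomial μ'.1 1) • ρ (monomial μ.1 1) • x.1
    rw [← mul_smul, ← map_mul, monomial_mul, one_mul, add_comm]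

theorem emb_grO {F : ℤ → Submodule ℂ T} (h : Stb ρ F) :
    Emb ρ (grO h) fun a => (F a).subtype :=
  ⟨fun _ => Subtype.val_injective, fun _ _ => rfl⟩

theorem smul_eq_sum (f : Gr.Sn n) (t : T) :
    ρ f • t = ∑ m ∈ f.support, coeff m f • ρ (monomial m 1) • t := by
  conv_lhs => rw [← support_sum_monomial_coeff f]
  rw [map_sum, Finset.sum_smul]
  refine Finset.sum_congr rfl fun m _ => ?_
  rw [← smul_assoc, ← map_smul, smul_monomial, smul_eq_mul, mul_one]

variable {N : Gr.GrS n} {vl : ∀ a : ℤ, N.obj ⟨a⟩ →ₗ[ℂ] T} (h : Emb ρ N vl)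
include h

theorem Emb.act {f : Gr.Sn n} {a b : ℤ} (hf : P294.V.Hg (2 * (b - a)) f) (x : N.obj ⟨a⟩) :
    vl b (Gr.act N f a b x) = ρ f • vl a x := by
  rw [Gr.act_apply_eq, map_sum, smul_eq_sum]
  refine Finset.sum_congr rfl fun m hm => ?_
  rw [map_smul, Gr.mon_apply_of_eq m (by have := Gr.hg_iff.1 hf m hm; lia), h.map]

theorem Emb.act_zero {f : Gr.Sn n} {a b : ℤ}
    (hf : ∀ x, ρ (Gr.hpart (2 * (b - a)) f) • vl a x = 0) : Gr.act N f a b = 0 := by
  rw [← Gr.act_hpart]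
  refine ModuleCat.hom_ext (LinearMap.ext fun x => h.inj b ?_)
  exact ((h.act (Gr.hga_hpart _ _) x).trans (hf x)).trans (map_zero _).symm

omit [IsScalarTower ℂ P T] in
theorem Emb.fg {τ : Type} [Finite τ] (d : τ → ℤ) (t : τ → T) (ht : ∀ j, ∃ x, vl (d j) x = t j)
    (H : ∀ (b : ℤ) (S : Submodule ℂ T), (∀ j (μ : Fin n →₀ ℕ), d j + μ.degree = b →
      ρ (monomial μ 1) • t j ∈ S) → ∀ x, vl b x ∈ S) : Gr.fg N := by
  choose g hg using ht
  refine Gr.fg_of_finite d g fun b => eq_top_iff.2 fun x _ => ?_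
  obtain ⟨y, hy, e⟩ := H b ((Gr.gsp N d g b).map (vl b)) (fun j μ hμ =>
    ⟨_, Submodule.subset_span ⟨j, ⟨μ, hμ⟩, rfl⟩, by rw [h.map, hg]⟩) x
  rwa [← h.inj b e]

theorem Emb.tot (f : Gr.Sn n) (t : Π₀ m : ℤ, N.obj ⟨m⟩) :
    DFinsupp.lsum ℂ vl (actT N f t) = ρ f • DFinsupp.lsum ℂ vl t := by
  rw [smul_eq_sum]
  conv_lhs => rw [← support_sum_monomial_coeff f]
  rw [map_sum, LinearMap.sum_apply, map_sum]
  refine Finset.sum_congr rfl fun μ _ => ?_
  have h1 : actT N (monomial μ (coeff μ f)) = coeff μ f • shT N μ :=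
    AddMonoidAlgebra.lift_single _ _ _
  rw [h1, LinearMap.smul_apply, map_smul]
  refine congrArg _ ?_
  induction t using DFinsupp.induction with
  | h0 => rw [map_zero, map_zero, smul_zero]
  | ha a x t _ _ ih =>
    rw [map_add, map_add, map_add, smul_add, ih, shT_single N μ rfl, DFinsupp.lsum_single,
      DFinsupp.lsum_single, h.map]

end Gr

theorem fin_deg {n : ℕ} (p : (Fin n →₀ ℕ) → Prop) (c : ℤ) (h : ∀ β, p β → (β.degree : ℤ) ≤ c) :
    Finite {β // p β} :=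
  (Finsupp.finite_of_degree_le c.toNat).subset (t := {β | p β}) fun β hβ => by
    have := h β hβ
    change β.degree ≤ _
    lia

variable {ν : ℕ} {ι κ T : Type} [AddCommGroup T] [Module ℂ T] [Module (PP ν) T]
  [IsScalarTower ℂ (PP ν) T] (a q : ι → ℤ) (π : (ι → PP ν) →ₗ[PP ν] T)

/-- the piece of bidegree `(m, e)` -/
noncomputable def F (m e : ℤ) : Submodule ℂ T := (V ν a q m e).map (π.restrictScalars ℂ)

theorem stbX (m : ℤ) : Stb (ix ν) (F a q π m) := by
  rintro e e' μ hμ _ ⟨w, hw, rfl⟩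
  exact ⟨_, smul_V hw (by rw [sub_self, mul_zero]; exact yh_ix _)
    (xh_ix (O.L.hga_monomial 1 (by lia))), π.map_smul _ _⟩

theorem stbY (e : ℤ) : Stb (iy ν) fun m => F a q π m e := by
  rintro m m' μ hμ _ ⟨w, hw, rfl⟩
  exact ⟨_, smul_V hw (yh_monomial 0 (Gr.hga_monomial 1 (by lia)))
    (by rw [sub_self, mul_zero]; exact xh_C _), π.map_smul _ _⟩

variable [Fintype ι]

theorem fgX (m : ℤ) : Gr.fg (grO (stbX a q π m)) := by
  classical
  have := fun i => fin_deg (fun β : Fin ν →₀ ℕ => a i + (β.degree : ℤ) = m ∧ q i = 2 * (q i / 2))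
    (m - a i) fun β h => by lia
  refine (emb_grO _).fg (τ := Σ i, {β : Fin ν →₀ ℕ // a i + (β.degree : ℤ) = m ∧
    q i = 2 * (q i / 2)}) (fun j => q j.1 / 2)
    (fun j => π (Pi.single j.1 (monomial 0 (monomial j.2.1 1))))
    (fun j => ⟨⟨_, _, mono_V (by have := j.2.2.2; simp; lia) j.2.2.1, rfl⟩, rfl⟩) fun b S H x => ?_
  refine Submodule.map_le_iff_le_comap.2 (V_le _ fun i μ β h h' => ?_) x.2
  have := H ⟨i, β, h', by lia⟩ μ (by lia)
  rwa [← map_smul, smul_single, ix_monomial, monomial_mul, add_zero, one_mul] at this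

theorem fgY (e : ℤ) : Gr.fg (grO (stbY a q π e)) := by
  classical
  have := fun i => fin_deg (fun μ : Fin 6 →₀ ℕ => 2 * (μ.degree : ℤ) = 2 * e - q i)
    (2 * e - q i) fun β h => by lia
  refine (emb_grO _).fg (τ := Σ i, {μ : Fin 6 →₀ ℕ // 2 * (μ.degree : ℤ) = 2 * e - q i})
    (fun j => a j.1) (fun j => π (Pi.single j.1 (monomial j.2.1 (monomial 0 1))))
    (fun j => ⟨⟨_, _, mono_V j.2.2 (by simp), rfl⟩, rfl⟩) fun b S H x => ?_
  refine Submodule.map_le_iff_le_comap.2 (V_le _ fun i μ β h h' => ?_) x.2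
  have := H ⟨i, μ, h⟩ β h'
  rwa [← map_smul, smul_single, iy_eq, C_mul_monomial, monomial_mul, add_zero, one_mul] at this

variable {W : S6} [hW : Fact (W.IsHomogeneous 3)] {π}

theorem hgW : Hg 6 W := Gr.hg_of_hom hW.out

/-- the bigraded module -/
noncomputable def NN (h : ∀ w, π (ix ν W • w) = 0) : Gr.Dg ν ⥤ O.L.GA W where
  obj m := ⟨grO (stbX a q π m.deg), fun e e' => by
    by_cases he : 2 * (e' - e) = 6
    · refine (emb_grO _).act_zero fun ⟨_, w, _, hw⟩ => ?_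
      rw [he, Gr.hpart_eq_self hgW]
      exact (congrArg _ hw.symm).trans ((π.map_smul _ _).symm.trans (h w))
    · exact O.L.act_eq_zero_of_hg _ hgW he, fgX a q π _⟩
  map β := ObjectProperty.homMk
    { app := fun e => (grO (stbY a q π e.deg)).map β
      naturality := fun e e' μ => ModuleCat.hom_ext (LinearMap.ext fun x => Subtype.ext
        (smul_comm (iy ν (monomial β.1 1)) (ix ν (monomial μ.1 1)) x.1)) }
  map_id m := ObjectProperty.hom_ext _ (NatTrans.ext (funext fun e =>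
    (grO (stbY a q π e.deg)).map_id m))
  map_comp β β' := ObjectProperty.hom_ext _ (NatTrans.ext (funext fun e =>
    (grO (stbY a q π e.deg)).map_comp β β'))

theorem V_step {m e : ℤ} (he : ∑ i, |q i| ≤ e) {w : ι → PP ν} (hw : w ∈ V ν a q m (e + 1)) :
    ∃ y : Fin 6 → ι → PP ν, (∀ j, y j ∈ V ν a q m e) ∧ w = ∑ j, ix ν (X j) • y j := by
  classical
  obtain ⟨y, hy, rfl⟩ := V_le ((Submodule.pi Set.univ fun _ => V ν a q m e).map
    (∑ j : Fin 6, Algebra.lsmul ℂ ℂ (ι → PP ν) (ix ν (X j)) ∘ₗ LinearMap.proj j))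
    (fun i μ β h h' => by
      have h1 : |q i| ≤ ∑ i, |q i| :=
        Finset.single_le_sum (fun i _ => abs_nonneg (q i)) (Finset.mem_univ i)
      have h2 := le_abs_self (q i)
      have h3 := abs_nonneg (q i)
      obtain ⟨j, hj⟩ := Finsupp.support_nonempty_iff.2 (show μ ≠ 0 by
        rintro rfl
        simp only [map_zero, Nat.cast_zero] at h
        lia)
      obtain ⟨μ', rfl⟩ : ∃ μ', μ = Finsupp.single j 1 + μ' := exists_add_of_le
        (Finsupp.single_le_iff.2 (Nat.pos_of_ne_zero (Finsupp.mem_support_iff.1 hj)))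
      rw [map_add, Finsupp.degree_single] at h
      refine ⟨Pi.single j (Pi.single i (monomial μ' (monomial β 1))), fun k _ => ?_, ?_⟩
      · by_cases hk : k = j
        · rw [hk, Pi.single_eq_same]
          exact mono_V (by lia) h'
        · rw [Pi.single_eq_of_ne hk]
          exact zero_mem _
      · rw [LinearMap.sum_apply, Finset.sum_eq_single j]
        · rw [LinearMap.comp_apply, LinearMap.proj_apply, Pi.single_eq_same]
          refine (smul_single _ _ _).trans ?_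
          rw [X, ix_monomial, monomial_mul, one_mul]
        · intro k _ hk
          rw [LinearMap.comp_apply, LinearMap.proj_apply, Pi.single_eq_of_ne hk, map_zero]
        · exact fun h => absurd (Finset.mem_univ j) h) hw
  exact ⟨y, fun j => hy j trivial, LinearMap.sum_apply _ _ _⟩

theorem exists_ker {I : Ideal (Gr.Sn ν)} [Fact (IsHom I)] (hm : StMem W I)
    (h : ∀ w, π (ix ν W • w) = 0) (hI : ∀ g ∈ I, ∀ w, π (iy ν g • w) = 0) :
    ∃ (K : Ker W I) (vl : ∀ m e : ℤ, (K.N.obj ⟨m⟩).obj.obj ⟨e⟩ →ₗ[ℂ] T),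
      (∀ m, Emb (ix ν) (K.N.obj ⟨m⟩).obj (vl m)) ∧ (∀ e, Emb (iy ν) (NY K.N e) fun m => vl m e) ∧
      ∀ m e t, (∃ x, vl m e x = t) ↔ ∃ w ∈ V ν a q m e, π w = t := by
  have h1 : ∀ e, Gr.grA I (NY (NN a q h) e) := fun e => ⟨fun f hf m m' =>
    (emb_grO (stbY a q π e)).act_zero fun ⟨_, w, _, hw⟩ => (congrArg _ hw.symm).trans
      ((π.map_smul _ _).symm.trans (hI _ (ih I f hf _) w)), fgY a q π e⟩
  refine ⟨⟨NN a q h, h1, hm _ h1, ⟨-∑ i, |q i|, fun e he m => ?_⟩, ∑ i, |q i|, ?_⟩,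
    fun m e => (F a q π m e).subtype, fun m => emb_grO (stbX a q π m),
    fun e => emb_grO (stbY a q π e), fun m e t =>
      ⟨fun H => H.choose_spec ▸ H.choose.2, fun H => ⟨⟨t, H⟩, rfl⟩⟩⟩
  · refine subsingleton_of_forall_eq 0 fun ⟨_, w, hw, e'⟩ => Subtype.ext ?_
    have h2 : w = 0 := funext fun i => MvPolynomial.ext _ _ fun μ => by
      by_contra h0
      have h3 := (mem_V.1 hw).2 i μ h0
      have h4 : |q i| ≤ ∑ i, |q i| :=
        Finset.single_le_sum (fun i _ => abs_nonneg (q i)) (Finset.mem_univ i)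
      have h5 := neg_abs_le (q i)
      have h6 := abs_nonneg (q i)
      lia
    exact e'.symm.trans (h2 ▸ map_zero _)
  · rintro e he m ⟨_, w, hw, rfl⟩
    obtain ⟨y, hy, rfl⟩ := V_step a q he hw
    refine ⟨fun j => ⟨π (y j), _, hy j, rfl⟩, (emb_grO (stbX a q π m)).inj _ ?_⟩
    refine Eq.trans ?_ (map_sum _ _ _).symm
    refine (map_sum π _ _).trans (Finset.sum_congr rfl fun j _ => ?_)
    refine (π.map_smul _ _).trans ((emb_grO (stbX a q π m)).act (a := e) (b := e + 1) ?_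
      ⟨π (y j), _, hy j, rfl⟩).symm
    rw [add_sub_cancel_left]
    exact Gr.hga_X j

end Vale.Agent.P287T.Fm.Mat
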