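import Vale.Agent.P287T.Fm.Mat2

/-!
# Step MAT, part 3: the quotients
-/

open CategoryTheory Limits MvPolynomial

namespace Vale.Agent.P287T.Fm.Mat

open Vale.Agent.P287Z Vale.Agent.P287Z.O.V Vale.Agent.P287T.Cy

theorem exists_fac {A B D : Type} [AddCommGroup A] [Module ℂ A] [AddCommGroup B] [Module ℂ B]
    [AddCommGroup D] [Module ℂ D] (f : A →ₗ[ℂ] B) (φ : A →ₗ[ℂ] D) (h : ∀ x, f x = 0 → φ x = 0) :
    ∃ ψ : B →ₗ[ℂ] D, ∀ x, ψ (f x) = φ x := by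
  obtain ⟨ψ, hψ⟩ := LinearMap.exists_extend
    ((LinearMap.ker f).liftQ φ h ∘ₗ f.quotKerEquivRange.symm.toLinearMap)
  refine ⟨ψ, fun x => (congr($hψ ⟨f x, x, rfl⟩)).trans ?_⟩
  exact congrArg ((LinearMap.ker f).liftQ φ h) (f.quotKerEquivRange_symm_apply_image x _)

theorem lsum_comp {M : ℤ → Type} {B D : Type} [∀ m, AddCommGroup (M m)] [∀ m, Module ℂ (M m)]
    [AddCommGroup B] [Module ℂ B] [AddCommGroup D] [Module ℂ D] (ψ : B →ₗ[ℂ] D)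
    (f : ∀ m, M m →ₗ[ℂ] B) (t : Π₀ m, M m) :
    DFinsupp.lsum ℂ (fun m => ψ ∘ₗ f m) t = ψ (DFinsupp.lsum ℂ f t) := by
  induction t using DFinsupp.induction with
  | h0 => simp
  | ha k x t _ _ ih => simp only [map_add, ih, DFinsupp.lsum_single, LinearMap.comp_apply]

variable {ν : ℕ} {ι₀ ι₁ κ₀ κ₁ : Type} [Fintype ι₀] [Fintype ι₁] [Fintype κ₀] [Fintype κ₁]
  {W : S6} [hW : Fact (W.IsHomogeneous 3)]

section Cok

variable {p₀ : κ₀ → ℤ} {p₁ : κ₁ → ℤ} {Ψ : Matrix κ₀ κ₁ S6} (hΨ : O.L.HgM p₁ p₀ Ψ) {e : ℤ}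

theorem cok_exact (x : (O.L.FrO W p₀).obj ⟨e⟩) :
    (cokernel.π (O.L.matA W Ψ hΨ)).hom.app ⟨e⟩ x = 0 ↔ ∃ y, (O.L.matO W Ψ hΨ).app ⟨e⟩ y = x :=
  ⟨O.L.GA_exact_apply W (ShortComplex.exact_cokernel (O.L.matA W Ψ hΨ)) e x, fun ⟨y, hy⟩ =>
    hy ▸ congr(($(cokernel.condition (O.L.matA W Ψ hΨ))).hom.app ⟨e⟩ y)⟩

variable {z : κ₀ → S6} (hz : ∀ i, Hg (2 * e - p₀ i) (z i))

theorem cok_ker (h : (cokernel.π (O.L.matA W Ψ hΨ)).hom.app ⟨e⟩ (O.L.FrO.mk W z hz) = 0) :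
    ∃ u r, (∀ j, Hg (2 * e - p₁ j) (u j)) ∧ (∀ i, Hg (2 * (e - 3) - p₀ i) (r i)) ∧
      z = Ψ.mulVec u + W • r := by
  obtain ⟨y, hy⟩ := (cok_exact hΨ _).1 h
  obtain ⟨u, hu, rfl⟩ := O.L.FrO.mk_surj W y
  choose r hr using (O.L.FrO.mk_eq W).1 hy.symm
  choose r' h1 h2 using fun i =>
    O.L.exists_hg_of_eq_mul hgW (O.L.hga_sub (hz i) (hΨ.mulVec hu i)) (hr i)
  refine ⟨u, r', hu, fun i => ?_, funext fun i => sub_eq_iff_eq_add'.1 (h2 i)⟩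
  rw [show 2 * (e - 3) - p₀ i = 2 * e - p₀ i - 6 by ring]
  exact h1 i

theorem cok_zero {u r} (h : z = Ψ.mulVec u + W • r) :
    (cokernel.π (O.L.matA W Ψ hΨ)).hom.app ⟨e⟩ (O.L.FrO.mk W z hz) = 0 := by
  refine (cok_exact hΨ _).2 ⟨O.L.FrO.mk W (fun j => O.L.hpart (2 * e - p₁ j) (u j))
    fun j => O.L.hga_hpart _ _, (O.L.FrO.mk_eq W).2 fun i => dvd_sub_comm.1
      ⟨O.L.hpart (2 * e - p₀ i - 6) (r i), sub_eq_iff_eq_add'.2 ?_⟩⟩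
  rw [← O.L.hpart_eq_self (hz i), h, Pi.add_apply, O.L.hpart_add, Pi.smul_apply, smul_eq_mul,
    O.L.hpart_mul hgW, Matrix.mulVec, dotProduct, O.L.hpart_sum]
  refine congrArg (· + _) (Finset.sum_congr rfl fun j _ => ?_)
  rw [O.L.hpart_mul (hΨ i j), show 2 * e - p₀ i - (p₁ j - p₀ i) = 2 * e - p₁ j by ring]

end Cok

/-- the relations -/
noncomputable def Rel (W : S6) (I : Ideal (Gr.Sn ν)) (Φ : Matrix ι₀ ι₁ (PP ν)) :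
    Submodule (PP ν) (ι₀ → PP ν) :=
  LinearMap.range Φ.mulVecLin ⊔ LinearMap.range (Algebra.lsmul (PP ν) (PP ν) _ (ix ν W)) ⊔
    Submodule.pi Set.univ fun _ => I.map C

omit [Fintype ι₀] hW in
theorem mem_Rel {I : Ideal (Gr.Sn ν)} {Φ : Matrix ι₀ ι₁ (PP ν)} {w : ι₀ → PP ν} :
    w ∈ Rel W I Φ ↔ ∃ u r s, (∀ i μ, coeff μ (s i) ∈ I) ∧ w = Φ.mulVec u + ix ν W • r + s := by
  constructor
  · intro h
    obtain ⟨_, h1, s, hs, rfl⟩ := Submodule.mem_sup.1 h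
    obtain ⟨_, ⟨u, rfl⟩, _, ⟨r, rfl⟩, rfl⟩ := Submodule.mem_sup.1 h1
    exact ⟨u, r, s, fun i => mem_map_C_iff.1 (hs i trivial), rfl⟩
  · rintro ⟨u, r, s, hs, rfl⟩
    exact Submodule.add_mem_sup (Submodule.add_mem_sup ⟨u, rfl⟩ ⟨r, rfl⟩)
      fun i _ => mem_map_C_iff.2 (hs i)

/-- the part of degree `m` in `y` -/
noncomputable def py (a : ι₀ → ℤ) (m : ℤ) : (ι₀ → PP ν) →ₗ[ℂ] (ι₀ → PP ν) :=
  LinearMap.pi fun i => cf (hpL (2 * (m - a i))) ∘ₗ LinearMap.proj i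

variable {a₀ q₀ : ι₀ → ℤ} {a₁ q₁ : ι₁ → ℤ} {I : Ideal (Gr.Sn ν)} {Φ : Matrix ι₀ ι₁ (PP ν)}

omit [Fintype ι₀] hW in
theorem py_Rel [Fact (IsHom I)] (hΦ : BiH a₁ q₁ a₀ q₀ Φ) {w : ι₀ → PP ν} (h : w ∈ Rel W I Φ)
    (m : ℤ) : py a₀ m w ∈ Rel W I Φ := by
  obtain ⟨u, r, s, hs, rfl⟩ := mem_Rel.1 h
  refine mem_Rel.2 ⟨py a₁ m u, py a₀ m r, py a₀ m s, fun i μ => ?_, ?_⟩
  · exact (coeff_cf (hpL (2 * (m - a₀ i))) (s i) μ).symm ▸ ih I _ (hs i μ) _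
  · rw [map_add, map_add]
    refine congrArg (· + _) (congrArg₂ (· + ·) (funext fun i => ?_) (funext fun i => ?_))
    · refine (map_sum (cf _) _ _).trans (Finset.sum_congr rfl fun j _ => ?_)
      rw [cf_hp_mul fun μ => (hΦ i j μ).1,
        show 2 * (m - a₀ i) - 2 * (a₁ j - a₀ i) = 2 * (m - a₁ j) by ring]
      rfl
    · refine (cf_hp_mul (yh_ix W) _ _).trans ?_
      rw [sub_zero]
      rfl

omit [Fintype ι₀] in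
theorem py_V {m e : ℤ} {w : ι₀ → PP ν} (h : w ∈ V ν a₀ q₀ m e) (k : ℤ) :
    py a₀ k w = if k = m then w else 0 := funext fun i => by
  refine (cf_hp ((mem_V.1 h).1 i) _).trans ?_
  by_cases hk : k = m
  · rw [if_pos hk, if_pos (by rw [hk])]
  · rw [if_neg hk, if_neg (by lia)]
    rfl

/-- an evaluation with kernel `𝔞` -/
structure Ev (𝔞 : Ideal (Gr.Sn ν)) (q : ι₀ → ℤ) (p : κ₀ → ℤ)
    (E : (ι₀ → PP ν) →ₗ[ℂ] (κ₀ → S6)) : Prop where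
  smul : ∀ f w, E (ix ν f • w) = f • E w
  hom : ∀ e, ∀ w ∈ U ν q e, ∀ k, Hg (2 * e - p k) (E w k)
  surj : ∀ e z, (∀ k, Hg (2 * e - p k) (z k)) → ∃ w ∈ U ν q e, E w = z
  ker : ∀ w, E w = 0 ↔ ∀ i μ, coeff μ (w i) ∈ 𝔞

variable {T : Type} [AddCommGroup T] [Module ℂ T] [Module (PP ν) T] [IsScalarTower ℂ (PP ν) T]
  {π : (ι₀ → PP ν) →ₗ[PP ν] T}

section Tot

variable {N : Gr.GrS ν} {vl : ∀ m : ℤ, N.obj ⟨m⟩ →ₗ[ℂ] T} {e : ℤ}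
  (hr : ∀ m t, (∃ x, vl m x = t) ↔ ∃ w ∈ V ν a₀ q₀ m e, π w = t)
include hr

omit [Fintype ι₀] [IsScalarTower ℂ (PP ν) T] in
theorem tot_rep (t : Π₀ m : ℤ, N.obj ⟨m⟩) : ∃ w ∈ U ν q₀ e, π w = DFinsupp.lsum ℂ vl t ∧
    ∀ m, vl m (t m) = π (py a₀ m w) := by
  induction t using DFinsupp.induction with
  | h0 => exact ⟨0, zero_mem _, by simp, fun m => by simp⟩
  | ha k x t _ _ ih =>
    obtain ⟨w, hw, h1, h2⟩ := ih
    obtain ⟨w', hw', h3⟩ := (hr k _).1 ⟨x, rfl⟩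
    refine ⟨w' + w, add_mem hw'.2 hw, by
      rw [map_add, map_add, DFinsupp.lsum_single, h1, h3], fun m => ?_⟩
    rw [DFinsupp.add_apply, map_add, map_add, map_add, h2, py_V hw']
    by_cases hm : m = k
    · subst hm
      rw [if_pos rfl, DFinsupp.single_eq_same, h3]
    · rw [if_neg hm, DFinsupp.single_eq_of_ne hm, map_zero, map_zero]

theorem rep_tot (h : Emb (iy ν) N vl) (𝔟 : Ideal (Gr.Sn ν)) {w : ι₀ → PP ν} (hw : w ∈ U ν q₀ e)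
    (hb : ∀ i μ, coeff μ (w i) ∈ 𝔟) : ∃ t, InI N 𝔟 t ∧ DFinsupp.lsum ℂ vl t = π w := by
  classical
  refine ind1 (⟨⟨{w | ∃ t, InI N 𝔟 t ∧ DFinsupp.lsum ℂ vl t = π w}, ?_⟩, 0,
    Submodule.zero_mem _, by simp⟩ : AddSubmonoid _) w fun i μ h0 => ?_
  · rintro w w' ⟨t, ht, h1⟩ ⟨t', ht', h2⟩
    exact ⟨t + t', Submodule.add_mem _ ht ht', by rw [map_add, map_add, h1, h2]⟩
  · obtain ⟨x, hx⟩ := (hr (a₀ i) _).2 ⟨_, mono_V (β := 0) (mem_U.1 hw i μ h0) (by simp), rfl⟩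
    refine ⟨actT N (coeff μ (w i)) (DFinsupp.single (a₀ i) x),
      Submodule.smul_mem_smul (hb i μ) Submodule.mem_top, ?_⟩
    rw [h.tot, DFinsupp.lsum_single, hx, ← map_smul, smul_single, iy_eq, C_mul_monomial]
    exact congrArg (fun c => π (Pi.single i (monomial μ c))) (mul_one _)

end Tot

theorem quo [Fact (IsHom I)] (hΦ : BiH a₁ q₁ a₀ q₀ Φ) (hπ : ∀ w, π w = 0 ↔ w ∈ Rel W I Φ)
    {K : Ker W I} {vl : ∀ m e : ℤ, (K.N.obj ⟨m⟩).obj.obj ⟨e⟩ →ₗ[ℂ] T}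
    (hX : ∀ m, Emb (ix ν) (K.N.obj ⟨m⟩).obj (vl m))
    (hY : ∀ e, Emb (iy ν) (NY K.N e) fun m => vl m e)
    (hr : ∀ m e t, (∃ x, vl m e x = t) ↔ ∃ w ∈ V ν a₀ q₀ m e, π w = t)
    {𝔞 : Ideal (Gr.Sn ν)} (hI : I ≤ 𝔞) {p₀ : κ₀ → ℤ} {p₁ : κ₁ → ℤ} {E₀ E₁}
    (h₀ : Ev 𝔞 q₀ p₀ E₀) (h₁ : Ev 𝔞 q₁ p₁ E₁) {Ψ : Matrix κ₀ κ₁ S6} (hΨ : O.L.HgM p₁ p₀ Ψ)
    (hE : ∀ u, E₀ (Φ.mulVec u) = Ψ.mulVec (E₁ u)) : K.Quo 𝔞 (cokernel (O.L.matA W Ψ hΨ)) := by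
  have H : ∀ e : ℤ, ∃ ψ : T →ₗ[ℂ] (cokernel (O.L.matA W Ψ hΨ)).obj.obj ⟨e⟩,
      ∀ w (hw : w ∈ U ν q₀ e), ψ (π w) = (cokernel.π (O.L.matA W Ψ hΨ)).hom.app ⟨e⟩
        (O.L.FrO.mk W (E₀ w) (h₀.hom e w hw)) := fun e => by
    obtain ⟨ψ, hψ⟩ := exists_fac (π.restrictScalars ℂ ∘ₗ (U ν q₀ e).subtype)
      (((cokernel.π (O.L.matA W Ψ hΨ)).hom.app ⟨e⟩).hom ∘ₗ (O.L.frW W p₀ e).mkQ ∘ₗ
        E₀.restrict (q := O.L.frS p₀ e) (h₀.hom e)) fun (w : U ν q₀ e) hw => by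
      obtain ⟨u, r, s, hs, h⟩ := mem_Rel.1 ((hπ _).1 hw)
      refine cok_zero hΨ (h₀.hom e w.1 w.2) (u := E₁ u) (r := E₀ r) ((congrArg E₀ h).trans ?_)
      rw [map_add, map_add, hE, h₀.smul, (h₀.ker s).2 fun i μ => hI (hs i μ), add_zero]
    exact ⟨ψ, fun w hw => hψ ⟨w, hw⟩⟩
  choose ψ hψ using H
  refine ⟨fun m => ObjectProperty.homMk ⟨fun e => ModuleCat.ofHom (ψ e.deg ∘ₗ vl m e.deg),
    fun e e' μ => ModuleCat.hom_ext (LinearMap.ext fun x => ?_)⟩, fun e => ?_⟩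
  · obtain ⟨w, hw, h⟩ := (hr m e.deg _).1 ⟨x, rfl⟩
    have hw' : ix ν (monomial μ.1 1) • w ∈ U ν q₀ e'.deg :=
      smul_U hw.2 (xh_ix (O.L.hga_monomial 1 (by have := μ.2; lia)))
    change ψ e'.deg (vl m e'.deg (_root_.id _)) =
      (cokernel (O.L.matA W Ψ hΨ)).obj.map μ (ψ e.deg (vl m e.deg x))
    refine (congrArg _ ((hX m).map μ x)).trans ?_
    rw [← h, ← map_smul, hψ _ _ hw', hψ _ _ hw.2]
    refine Eq.trans ?_ congr($((cokernel.π (O.L.matA W Ψ hΨ)).hom.naturality μ) _)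
    exact congrArg _ (O.L.FrO.mk_congr W (h₀.smul _ _))
  have hl := lsum_comp (ψ e) fun m => vl m e
  refine ⟨fun z => ?_, fun t => ⟨fun h => ?_, fun h => (hl t).trans ?_⟩⟩
  · obtain ⟨y, rfl⟩ := O.L.GA_app_surjective W (cokernel.π (O.L.matA W Ψ hΨ)) e z
    obtain ⟨u, hu, rfl⟩ := O.L.FrO.mk_surj W y
    obtain ⟨w, hw, rfl⟩ := h₀.surj e u hu
    obtain ⟨t, -, ht⟩ := rep_tot (hr · e) (hY e) ⊤ hw fun _ _ => trivial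
    exact ⟨t, (hl t).trans ((congrArg _ ht).trans (hψ e w hw))⟩
  · obtain ⟨w, hw, h1, -⟩ := tot_rep (N := NY K.N e) (hr · e) t
    obtain ⟨u, r, hu, hr', h2⟩ := cok_ker hΨ (h₀.hom e w hw) ((hψ e w hw).symm.trans
      ((congrArg _ h1).trans ((hl t).symm.trans h)))
    obtain ⟨u, hu', rfl⟩ := h₁.surj e u hu
    obtain ⟨r, hr'', rfl⟩ := h₀.surj _ r hr'
    obtain ⟨t', ht', h3⟩ := rep_tot (hr · e) (hY e) 𝔞 (w := w - (Φ.mulVec u + ix ν W • r))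
      (sub_mem hw (add_mem (mulVec_U hΦ hu') (smul_U hr'' (by
        rw [sub_sub_cancel]
        exact xh_ix hgW)))) ((h₀.ker _).1 (by rw [map_sub, map_add, hE, h₀.smul, h2, sub_self]))
    obtain ⟨s, -, h4, h5⟩ := tot_rep (N := NY K.N e) (hr · e) (t - t')
    have h6 : s ∈ Rel W I Φ := (hπ s).1 (by
      rw [h4, map_sub, h3, ← h1, ← map_sub, sub_sub_cancel]
      exact (hπ _).2 (mem_Rel.2 ⟨u, r, 0, fun _ _ => I.zero_mem, (add_zero _).symm⟩))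
    have h7 : t - t' = 0 := DFinsupp.ext fun m => (hY e).inj m
      (((h5 m).trans ((hπ _).2 (py_Rel hΦ h6 m))).trans (map_zero _).symm)
    rwa [sub_eq_zero.1 h7]
  · refine Submodule.smul_induction_on (p := fun t : Tot (NY K.N e) =>
      ψ e (DFinsupp.lsum ℂ (fun m => vl m e) t) = 0) h (fun g hg t _ => ?_) fun t t' h h' => ?_
    · obtain ⟨w, hw, h1, -⟩ := tot_rep (N := NY K.N e) (hr · e) t
      refine (congrArg _ ((hY e).tot g t)).trans ?_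
      rw [← h1, ← map_smul, hψ _ _ (smul_U hw (e' := e) (by
        rw [sub_self, mul_zero]
        exact xh_C g))]
      refine cok_zero hΨ _ (u := 0) (r := 0) (((h₀.ker _).2 fun i μ => ?_).trans (by simp))
      exact (coeff_C_mul μ g (w i)).symm ▸ 𝔞.mul_mem_right _ hg
    · exact ((congrArg _ (map_add _ _ _)).trans (map_add _ _ _)).trans
        ((congrArg₂ (· + ·) h h').trans (add_zero _))

end Vale.Agent.P287T.Fm.Mat
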