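import Vale.Agent.P287T.Fm.O0

/-!
# Block FM: morphisms of all degrees under the Fourier-Mukai functor
-/

set_option linter.unusedSectionVars false

open CategoryTheory Limits MvPolynomial

universe w v u

namespace Vale.Agent.P287T.Fm

open Vale.Agent.P287Z Vale.Agent.P287Z.O.V Vale.Agent.P287T.Cy

variable {ν : ℕ} {W : S6} {I : Ideal (Gr.Sn ν)} [Fact (W.IsHomogeneous 3)] [Fact (IsHom I)]
  [HasDerivedCategory.{w} (P294Z.Coh (PI I))] (K : Ker W I) {m n s : ℕ}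

section

omit [Fact (IsHom I)] [HasDerivedCategory.{w} (P294Z.Coh (PI I))]

variable {𝒟 : Type u} [Category.{v} 𝒟] (Φ : CochainComplex (O.L.GA W) ℤ ⥤ 𝒟)

/-- the value on a factorization -/
noncomputable def o1ob (E : GMF W m) : 𝒟 := Φ.obj (O.L.TT E)

/-- the value on a closed map -/
noncomputable def o1mp {E : GMF W m} {E' : GMF W n} {f : Matrix (Fin n) (Fin m) S6}
    (hf : Cl E E' f) : o1ob Φ E ⟶ o1ob Φ E' := Φ.map (O.L.Tf hf fun _ => True)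

theorem o1_comp {E : GMF W m} {F : GMF W n} {G : GMF W s} {f g} (hf : Cl E F f) (hg : Cl F G g)
    (h : Cl E G (g * f)) : o1mp Φ h = o1mp Φ hf ≫ o1mp Φ hg := by
  unfold o1mp
  rw [← O.L.Tf_comp hf hg _ h]
  exact Φ.map_comp _ _

theorem o1_one (E : GMF W m) (h : Cl E E 1) : o1mp Φ h = 𝟙 _ := by
  unfold o1mp
  rw [O.L.Tf_one]
  exact Φ.map_id _

theorem o1_add [Preadditive 𝒟] [Φ.Additive] {E : GMF W m} {F : GMF W n} {f g} (hf : Cl E F f) (hg : Cl E F g)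
    (h : Cl E F (f + g)) : o1mp Φ h = o1mp Φ hf + o1mp Φ hg := by
  unfold o1mp
  rw [O.H962.Tf_add hf hg h]
  exact Φ.map_add

theorem o1_smul [Preadditive 𝒟] [Linear ℂ 𝒟] [Φ.Linear ℂ] {E : GMF W m} {F : GMF W n} (c : ℂ) {f}
    (hf : Cl E F f) (h : Cl E F (c • f)) : o1mp Φ h = c • o1mp Φ hf := by
  unfold o1mp
  rw [O.H962.Tf_smul c hf h]
  exact Φ.map_smul _ _

theorem o1_shift [HasShift 𝒟 ℤ] (hΦ : ∀ (A B : CochainComplex (O.L.GA W) ℤ) (k : ℤ),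
    (A ≅ B⟦k⟧) → Nonempty (Φ.obj A ≅ (Φ.obj B)⟦k⟧)) (E E' : GMF W n) (k : ℤ)
    (hp : ∀ i, E'.p i = E.p i - 3 * k) (hd : E'.d = (k.negOnePow : ℤ) • E.d) :
    Nonempty (o1ob Φ E' ≅ (o1ob Φ E)⟦k⟧) :=
  (O.H962.T_shift (fun _ => True) hp hd).elim (hΦ _ _ k)

theorem o1_iso {ℬ : Type*} [Category ℬ] [Abelian ℬ] [HasDerivedCategory ℬ] (F : O.L.GA W ⥤ ℬ)
    [F.Additive] (A B : CochainComplex (O.L.GA W) ℤ) (k : ℤ) (e : A ≅ B⟦k⟧) :
    Nonempty ((F.mapHomologicalComplex (ComplexShape.up ℤ) ⋙ DerivedCategory.Q).obj A ≅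
      ((F.mapHomologicalComplex (ComplexShape.up ℤ) ⋙ DerivedCategory.Q).obj B)⟦k⟧) :=
  ⟨(F.mapHomologicalComplex (ComplexShape.up ℤ) ⋙ DerivedCategory.Q).mapIso e ≪≫
    ((F.mapHomologicalComplex (ComplexShape.up ℤ) ⋙ DerivedCategory.Q).commShiftIso k).app B⟩

end

namespace Ker

theorem q_add : K.Q.Additive := by
  unfold Ker.Q
  infer_instance

theorem q_lin : K.Q.Linear ℂ := by
  unfold Ker.Q
  infer_instance

theorem q_shift (A B : CochainComplex (O.L.GA W) ℤ) (k : ℤ) (e : A ≅ B⟦k⟧) :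
    Nonempty (K.Q.obj A ≅ (K.Q.obj B)⟦k⟧) := by
  rw [show K.Q = K.F.mapHomologicalComplex (ComplexShape.up ℤ) ⋙ DerivedCategory.Q from rfl]
  exact o1_iso K.F A B k e

theorem mp_comp {E : GMF W m} {F : GMF W n} {G : GMF W s} {f g} (hf : Cl E F f) (hg : Cl F G g)
    (h : Cl E G (g * f)) : K.mp h = K.mp hf ≫ K.mp hg := o1_comp K.Q hf hg h

theorem mp_one (E : GMF W m) (h : Cl E E 1) : K.mp h = 𝟙 _ := o1_one K.Q E h

theorem mp_add {E : GMF W m} {F : GMF W n} {f g} (hf : Cl E F f) (hg : Cl E F g)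
    (h : Cl E F (f + g)) : K.mp h = K.mp hf + K.mp hg :=
  haveI := K.q_add
  o1_add K.Q hf hg h

theorem mp_smul {E : GMF W m} {F : GMF W n} (c : ℂ) {f} (hf : Cl E F f)
    (h : Cl E F (c • f)) : K.mp h = c • K.mp hf :=
  haveI := K.q_lin
  o1_smul K.Q c hf h

theorem mp_congr {E : GMF W m} {F : GMF W n} {f g} (hf : Cl E F f) (hg : Cl E F g) (e : f = g) :
    K.mp hf = K.mp hg := by
  subst e
  rfl

theorem ob_shift (E E' : GMF W n) (k : ℤ) (hp : ∀ i, E'.p i = E.p i - 3 * k)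
    (hd : E'.d = (k.negOnePow : ℤ) • E.d) : Nonempty (K.ob E' ≅ (K.ob E)⟦k⟧) :=
  o1_shift K.Q K.q_shift E E' k hp hd

theorem ob_sh (Y : GMF W n) (k : ℤ) : Nonempty (K.ob (O.N.sh' Y k) ≅ (K.ob Y)⟦k⟧) := by
  rcases Int.even_or_odd k with hk | hk
  · exact K.ob_shift Y (O.N.sh' Y k) k (fun _ => rfl) (by
      rw [Int.negOnePow_even k hk]
      simp [O.N.sh'])
  · obtain ⟨e⟩ := K.ob_shift Y (O.H157.shG Y k) k (fun _ => rfl) rfl
    have hd : (O.H157.shG Y k).d = -Y.d := by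
      change (k.negOnePow : ℤ) • Y.d = _
      rw [Int.negOnePow_odd k hk]
      simp
    have h1 : Cl (O.N.sh' Y k) (O.H157.shG Y k) (O.N.epsM Y) := by
      refine ⟨fun i j => O.N.epsM_hg Y (3 * k) i j, ?_⟩
      rw [hd]
      change -Y.d * O.N.epsM Y = O.N.epsM Y * Y.d
      rw [O.N.epsM_d, Matrix.neg_mul]
    have h2 : Cl (O.H157.shG Y k) (O.N.sh' Y k) (O.N.epsM Y) := by
      refine ⟨fun i j => O.N.epsM_hg Y (3 * k) i j, ?_⟩
      rw [hd]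
      change Y.d * O.N.epsM Y = O.N.epsM Y * -Y.d
      rw [Matrix.mul_neg, O.N.epsM_d, neg_neg]
    have h3 : ∀ {E F : GMF W n} (a : Cl E F (O.N.epsM Y)) (b : Cl F E (O.N.epsM Y)),
        K.mp a ≫ K.mp b = 𝟙 _ := by
      intro E F a b
      rw [← K.mp_comp a b (O.L.cl_mul a b), ← K.mp_one E (O.L.cl_one E)]
      exact K.mp_congr _ _ (O.N.epsM_sq Y)
    exact ⟨(⟨K.mp h1, K.mp h2, h3 h1 h2, h3 h2 h1⟩ :
      K.ob (O.N.sh' Y k) ≅ K.ob (O.H157.shG Y k)) ≪≫ e⟩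

variable {K}

/-- full faithfulness in all degrees -/
theorem Out.hm (o : K.Out) (X : GMF W m) (Y : GMF W n) (k : ℤ) :
    Nonempty (Hm X Y k ≃ₗ[ℂ] (K.ob X ⟶ (K.ob Y)⟦k⟧)) := by
  obtain ⟨e⟩ := K.ob_sh Y k
  let α : T.ZM X Y (3 * k) →ₗ[ℂ] (K.ob X ⟶ (K.ob Y)⟦k⟧) :=
    { toFun := fun g => K.mp ((O.N.cl_iff X Y k g.1).2 g.2) ≫ e.hom
      map_add' := fun g g' => by
        rw [← Preadditive.add_comp, ← K.mp_add _ _ ((O.N.cl_iff X Y k _).2 (g + g').2)]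
      map_smul' := fun c g => by
        rw [RingHom.id_apply, ← Linear.smul_comp,
          ← K.mp_smul c _ ((O.N.cl_iff X Y k _).2 (c • g).2)] }
  refine T.hq_equiv' α ?_ ?_
  · intro φ
    obtain ⟨f, hf, h⟩ := o.full X (O.N.sh' Y k) (φ ≫ e.inv)
    refine ⟨⟨f, (O.N.cl_iff X Y k f).1 hf⟩, ?_⟩
    change K.mp hf ≫ e.hom = φ
    rw [h, Category.assoc, e.inv_hom_id, Category.comp_id]
  · intro g
    refine Iff.trans ?_ ((o.faithful X (O.N.sh' Y k) g.1 ((O.N.cl_iff X Y k g.1).2 g.2)).trans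
      (O.N.nh_iff X Y k g.1))
    change K.mp ((O.N.cl_iff X Y k g.1).2 g.2) ≫ e.hom = 0 ↔ _
    rw [← cancel_mono e.inv, Category.assoc, e.hom_inv_id, Category.comp_id, zero_comp]

/-- the morphisms between the objects of two sheaves -/
theorem Out.hm_sg (o : K.Out) {X : GMF W m} {Y : GMF W n} {A B : P294Z.Coh (PI I)}
    (a : K.ob X ≅ (DerivedCategory.singleFunctor _ 2).obj A)
    (b : K.ob Y ≅ (DerivedCategory.singleFunctor _ 2).obj B) (k : ℤ) :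
    Nonempty (Hm X Y k ≃ₗ[ℂ] ((sg I).obj A ⟶ ((sg I).obj B)⟦k⟧)) := by
  obtain ⟨α⟩ := o.hm X Y k
  let e (C : P294Z.Coh (PI I)) : ((DerivedCategory.singleFunctor _ 2).obj C)⟦(2 : ℤ)⟧ ≅
      (sg I).obj C := ((DerivedCategory.singleFunctors _).shiftIso 2 0 2 (by lia)).app C
  exact ⟨α ≪≫ₗ Linear.homCongr ℂ a ((shiftFunctor _ k).mapIso b) ≪≫ₗ
    homEq (shiftFunctor _ (2 : ℤ)) _ _ ((shiftFunctorComm _ k 2).app _ ≪≫
      (shiftFunctor _ k).mapIso (e B)) ≪≫ₗ Linear.homCongr ℂ (e A) (Iso.refl _)⟩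

theorem cl_sum {E : GMF W m} {F : GMF W n} {κ : Type} [Fintype κ]
    {a : κ → Matrix (Fin n) (Fin m) S6} (h : ∀ j, Cl E F (a j)) (c : κ → ℂ) :
    Cl E F (∑ j, c j • a j) := by
  have e (g : Matrix (Fin n) (Fin m) S6) : Cl E F g ↔ g ∈ T.ZM E F 0 := by
    unfold Cl T.ZM
    simp only [zero_add]
    rfl
  exact (e _).2 (Submodule.sum_mem _ fun j _ => Submodule.smul_mem _ _ ((e _).1 (h j)))

variable (K) in
theorem mp_sum {E : GMF W m} {F : GMF W n} {κ : Type} [Fintype κ]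
    {a : κ → Matrix (Fin n) (Fin m) S6} (h : ∀ j, Cl E F (a j)) (c : κ → ℂ) :
    K.mp (cl_sum h c) = ∑ j, c j • K.mp (h j) := by
  have e (g : Matrix (Fin n) (Fin m) S6) : Cl E F g ↔ g ∈ T.ZM E F 0 := by
    unfold Cl T.ZM
    simp only [zero_add]
    rfl
  let α : T.ZM E F 0 →ₗ[ℂ] (K.ob E ⟶ K.ob F) :=
    { toFun := fun g => K.mp ((e g.1).2 g.2)
      map_add' := fun g g' => K.mp_add _ _ _
      map_smul' := fun c g => K.mp_smul c _ _ }
  have h1 := map_sum α (fun j => c j • (⟨a j, (e _).1 (h j)⟩ : T.ZM E F 0)) Finset.univ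
  simp only [map_smul] at h1
  refine Eq.trans ?_ h1
  exact K.mp_congr _ _ (by simp)

/-- the relations between maps of sheaves on a fibre, for the factorizations -/
theorem Out.kil (o : K.Out) {G' : GMF W m} {G : GMF W n} {U : GMF W s}
    {A' A B : P294Z.Coh (PI I)} (e' : K.ob G' ≅ (DerivedCategory.singleFunctor _ 2).obj A')
    (e : K.ob G ≅ (DerivedCategory.singleFunctor _ 2).obj A)
    (b : K.ob U ≅ (DerivedCategory.singleFunctor _ 2).obj B) {a} (ha : Cl G' G a) (u : A' ⟶ A)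
    (hu : K.mp ha = e'.hom ≫ (DerivedCategory.singleFunctor _ 2).map u ≫ e.inv) :
    Kil G' G U a ↔ ∀ ψ : A ⟶ B, u ≫ ψ = 0 := by
  constructor
  · intro h ψ
    obtain ⟨φ, hφ, k⟩ := o.full G U (e.hom ≫ (DerivedCategory.singleFunctor _ 2).map ψ ≫ b.inv)
    have h1 := (o.faithful G' U _ (O.L.cl_mul ha hφ)).2 (h φ hφ)
    rw [K.mp_comp ha hφ, k, hu] at h1
    apply (DerivedCategory.singleFunctor _ 2).map_injective
    rw [Functor.map_zero, ← cancel_epi e'.hom, ← cancel_mono b.inv, comp_zero, zero_comp, ← h1]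
    simp
  · intro h φ hφ
    obtain ⟨ψ, k⟩ := (DerivedCategory.singleFunctor _ 2).map_surjective (e.inv ≫ K.mp hφ ≫ b.hom)
    refine (o.faithful G' U _ (O.L.cl_mul ha hφ)).1 ?_
    rw [K.mp_comp ha hφ, hu, ← cancel_mono b.hom, zero_comp, Category.assoc, Category.assoc,
      Category.assoc, ← k, ← Functor.map_comp, h, Functor.map_zero, comp_zero]

/-- columns -/
theorem Out.cols (o : K.Out) {r : (Fin ν → ℂ) → ℕ} {U : ∀ v, GMF W (r v)}
    (hU : ∀ v (hv : Pt I v),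
      Nonempty (K.ob (U v) ≅ (DerivedCategory.singleFunctor _ 2).obj (Ov I hv)))
    {G' : GMF W m} {G : GMF W n} {A' A : P294Z.Coh (PI I)}
    (e' : K.ob G' ≅ (DerivedCategory.singleFunctor _ 2).obj A')
    (e : K.ob G ≅ (DerivedCategory.singleFunctor _ 2).obj A) {ι κ : Type} [Fintype κ]
    (f : Matrix ι κ (Gr.Sn ν)) (u : κ → (A' ⟶ A))
    (h : ∀ v (hv : Pt I v) (c : κ → ℂ), (∀ ψ : A ⟶ Ov I hv, (∑ j, c j • u j) ≫ ψ = 0) ↔
      (f.map (eval v)).mulVec c = 0) : Cols I U G' G f := by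
  choose a ha k using fun j => o.full G' G
    (e'.hom ≫ (DerivedCategory.singleFunctor _ 2).map (u j) ≫ e.inv)
  refine ⟨a, ha, fun v hv c => ?_⟩
  obtain ⟨b⟩ := hU v hv
  rw [← h v hv c]
  refine o.kil e' e b (cl_sum ha c) _ ?_
  rw [K.mp_sum ha c, Functor.map_sum, Preadditive.sum_comp, Preadditive.comp_sum]
  refine Finset.sum_congr rfl fun j _ => ?_
  rw [k, Functor.map_smul, Linear.smul_comp, Linear.comp_smul]

end Ker

end Vale.Agent.P287T.Fm
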