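import Vale.Agent.P287T.Fm.Iv
import Vale.Agent.P287T.Fm.Hyp0

/-!
# Maps to the sheaf of a point are functionals on the fibre
-/

open CategoryTheory Limits MvPolynomial Pretriangulated

universe w

namespace Vale.Agent.P287T.Fm.Ob

open Vale.Agent.P287Z Vale.Agent.P287Z.Gr Vale.Agent.P294.V Sv Hy

variable {ν : ℕ} {I : Ideal (Sn ν)} {v : Fin ν → ℂ}

/-- the constant module of a point -/
noncomputable def cst (v : Fin ν → ℂ) : GrS ν where
  obj _ := ModuleCat.of ℂ ℂ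
  map μ := ModuleCat.ofHom (eval v (monomial μ.1 1 : Sn ν) • LinearMap.id)
  map_id a := by
    refine ModuleCat.hom_ext (LinearMap.ext fun x => ?_)
    change eval v (1 : Sn ν) * x = x
    rw [map_one, one_mul]
  map_comp {a b c} μ μ' := by
    refine ModuleCat.hom_ext (LinearMap.ext fun x => ?_)
    change eval v (monomial (μ.1 + μ'.1) 1 : Sn ν) * x =
      eval v (monomial μ'.1 1 : Sn ν) * (eval v (monomial μ.1 1 : Sn ν) * x)
    rw [← mul_assoc, ← map_mul, monomial_mul, mul_one, add_comm]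

theorem act_cst {g : Sn ν} {b c : ℤ} (hg : Hg (2 * (c - b)) g) (x : ℂ) :
    (show ℂ from act (cst v) g b c x) = eval v g * x := by
  conv_rhs => rw [← support_sum_monomial_coeff g, map_sum, Finset.sum_mul]
  refine (act_apply_eq g b c _).trans (Finset.sum_congr rfl fun μ hμ => ?_)
  refine (congrArg (coeff μ g • ·) (mon_apply_of_eq (M := cst v) μ
    (by have := hg_iff.1 hg μ hμ; lia) x)).trans ?_
  change coeff μ g * (eval v (monomial μ 1 : Sn ν) * x) = _
  rw [eval_monomial, eval_monomial, one_mul, mul_assoc]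

theorem killed_cst (hv : Pt I v) : killed I (cst v) := fun f hf a b => by
  refine ModuleCat.hom_ext (LinearMap.ext fun x => ?_)
  rw [← act_hpart]
  refine (act_cst (hga_hpart _ f) x).trans ?_
  rw [(mem_ptI (hga_hpart _ f)).1 (ih_ptI v f (hv.2 hf) _)]
  exact zero_mul (M₀ := ℂ) x

/-- the element of a truncation -/
noncomputable def el (v : Fin ν → ℂ) {n b : ℤ} (h : n ≤ b) (x : ℂ) :
    (subG (cst v) _ (stb_trZ n (cst v))).obj ⟨b⟩ := ⟨x, mem_trZ.2 (Or.inl h)⟩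

theorem act_val {n b c : ℤ} {g : Sn ν} (hg : Hg (2 * (c - b)) g)
    (x : (subG (cst v) _ (stb_trZ n (cst v))).obj ⟨b⟩) :
    (show ℂ from (act (subG (cst v) _ (stb_trZ n (cst v))) g b c x).1) =
      eval v g * (show ℂ from x.1) :=
  (act_natural_apply (subι (cst v) _ (stb_trZ n (cst v))) g b c x).trans (act_cst hg _)

/-- the truncations of the constant module -/
noncomputable def Pn (hv : Pt I v) (n : ℤ) : GA I :=
  ⟨subG (cst v) _ (stb_trZ n (cst v)),
    have := subι_mono _ _ (stb_trZ n (cst v))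
    killed_of_mono (subι _ _ (stb_trZ n (cst v))) (killed_cst hv), by
    obtain ⟨i, hi⟩ := Function.ne_iff.1 hv.1
    refine ⟨1, fun _ => n, fun _ => el v le_rfl 1, fun b x => ?_⟩
    rcases mem_trZ.1 x.2 with h | h
    · obtain ⟨r, rfl⟩ : ∃ r : ℕ, n + r = b := ⟨(b - n).toNat, by lia⟩
      let μ : (⟨n⟩ : Dg ν) ⟶ ⟨n + r⟩ := ⟨Finsupp.single i r, by simp⟩
      have : x = ((show ℂ from x.1) / v i ^ r) •
          (subG (cst v) _ (stb_trZ n (cst v))).map μ (el v le_rfl 1) := by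
        refine Subtype.ext ?_
        change (show ℂ from x.1) = (show ℂ from x.1) / v i ^ r *
          (eval v (monomial (Finsupp.single i r) 1 : Sn ν) * 1)
        rw [← X_pow_eq_monomial, map_pow, eval_X, mul_one, div_mul_cancel₀ _ (pow_ne_zero _ hi)]
      rw [this]
      exact Submodule.smul_mem _ _ (Submodule.subset_span ⟨0, μ, rfl⟩)
    · rw [show x = 0 from Subtype.ext h]
      exact zero_mem _⟩

theorem reg_Pn (hv : Pt I v) (n : ℤ) : Reg (n + 1) (Pn hv n).obj := by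
  obtain ⟨i, hi⟩ := Function.ne_iff.1 hv.1
  have hi : v i ≠ 0 := hi
  intro a b hab hb f hf
  let g : Finset (Fin ν) → (Pn hv n).obj.obj ⟨a⟩ := fun J =>
    el v (by lia) ((v i)⁻¹ * (show ℂ from (ctr i f J).1))
  have h1 : (fun J => act (Pn hv n).obj (X i) a b (g J)) = ctr i f := funext fun J =>
    Subtype.ext ((act_val (hg_X i hab) _).trans (by
      rw [eval_X]; exact mul_inv_cancel_left₀ hi _))
  refine ⟨g, fun J => Subtype.ext (mul_left_cancel₀ (M₀ := ℂ) hi ?_)⟩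
  have h2 := epN_act (Pn hv n).obj (b + 1) (hg_X i hab) hab g J
  have h3 := ctr_epN (Pn hv n).obj b (b + 1) i f J
  rw [show epN (Pn hv n).obj b (b + 1) f = 0 from funext (hf (b + 1)), ← h1, h2,
    show ctr i (0 : Finset (Fin ν) → (Pn hv n).obj.obj ⟨b + 1⟩) J = 0 by simp [ctr], zero_add] at h3
  have h4 := congrArg Subtype.val h3
  have h5 := act_val (v := v) (n := n) (hg_X i (rfl : b + 1 = b + 1))
  simp only [eval_X] at h5
  exact (h5 _).symm.trans (h4.trans (h5 _))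

theorem ptm_Pn (hv : Pt I v) (n : ℤ) : PtM (Pn hv n).obj v (el v (le_refl n) 1) n where
  sur m hm t := by
    obtain ⟨i, hi⟩ := Function.ne_iff.1 hv.1
    obtain ⟨r, rfl⟩ : ∃ r : ℕ, n + r = m := ⟨(m - n).toNat, by lia⟩
    have h := hga_smul ((show ℂ from t.1) / v i ^ r) (hgp' i r (rfl : n + r = n + r))
    refine ⟨_, h, Subtype.ext ((act_val h _).trans ?_).symm⟩
    rw [smul_eval, map_pow, eval_X, div_mul_cancel₀ _ (pow_ne_zero _ hi)]
    exact mul_one _
  zer m _ g hg := by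
    have h := (act_val (v := v) hg (el v (le_refl n) 1)).trans (mul_one _)
    exact ⟨fun e => h.symm.trans (congrArg Subtype.val e), fun e => Subtype.ext (h.trans e)⟩

/-- functionals on the fibre at `v` -/
def Fn (v : Fin ν → ℂ) (M : GA I) (l : ∀ b : ℤ, M.obj.obj ⟨b⟩ →ₗ[ℂ] ℂ) : Prop :=
  ∀ (b c : ℤ) (g : Sn ν) (x : M.obj.obj ⟨b⟩), Hg (2 * (c - b)) g →
    l c (act M.obj g b c x) = eval v g * l b x

/-- the functional of a map -/
noncomputable def fnl (hv : Pt I v) (n : ℤ) (M : GA I) :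
    (M ⟶ Pn hv n) →ₗ[ℂ] ∀ b : ℤ, M.obj.obj ⟨b⟩ →ₗ[ℂ] ℂ where
  toFun φ b := ((φ.hom ≫ subι (cst v) _ (stb_trZ n (cst v))).app ⟨b⟩).hom
  map_add' _ _ := rfl
  map_smul' _ _ := rfl

theorem fnl_inj (hv : Pt I v) (n : ℤ) (M : GA I) : Function.Injective (fnl hv n M) :=
  fun φ φ' h => ObjectProperty.hom_ext _ (by
    ext ⟨b⟩ x
    exact Subtype.ext congr($h b x))

theorem fnl_fn (hv : Pt I v) (n : ℤ) (M : GA I) (φ : M ⟶ Pn hv n) : Fn v M (fnl hv n M φ) :=
  fun b c g x hg => (act_natural_apply (φ.hom ≫ subι (cst v) _ (stb_trZ n (cst v))) g b c x).trans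
    (act_cst hg _)

theorem fnl_sur (hv : Pt I v) {n : ℤ} {M : GA I} (hM : Low n M.obj)
    {l : ∀ b : ℤ, M.obj.obj ⟨b⟩ →ₗ[ℂ] ℂ} (hl : Fn v M l) : ∃ φ, fnl hv n M φ = l := by
  refine ⟨ObjectProperty.homMk
    { app := fun b => ModuleCat.ofHom ((l b.deg).codRestrict (trZ n (cst v) b.deg) fun x =>
        mem_trZ.2 ((le_or_gt n b.deg).imp_right fun h => by rw [hM _ h x]; exact map_zero _))
      naturality := ?_ }, rfl⟩
  rintro ⟨b⟩ ⟨c⟩ μ
  ext x
  refine Subtype.ext ?_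
  change l c (M.obj.map μ x) = eval v (monomial μ.1 1 : Sn ν) * l b x
  rw [map_eq_act, hl b c _ x (hg_mon μ)]

variable [Fact (IsHom I)]

/-- **maps to the sheaf of a point** -/
theorem hom_fn (hv : Pt I v) (M : GA I) :
    ∃ Λ : ((piI I).obj M ⟶ Ov I hv) →ₗ[ℂ] ∀ b : ℤ, M.obj.obj ⟨b⟩ →ₗ[ℂ] ℂ,
      Function.Injective Λ ∧ (∀ ψ, Fn v M (Λ ψ)) ∧ (∀ l, Fn v M l → ∃ ψ, Λ ψ = l) ∧
      ∀ ψ (m : ℤ) (u : Fr I m ⟶ M), (piI I).map u ≫ ψ = 0 ↔ Λ ψ m (vl u) = 0 := by
  obtain ⟨n, hn⟩ := exists_low M.property.2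
  obtain ⟨e⟩ := (ptm_Pn hv (n - 1)).iso hv
  have hr : Reg n (Pn hv (n - 1)).obj := (reg_Pn hv (n - 1)).mono (by lia)
  let α : (M ⟶ Pn hv (n - 1)) ≃ₗ[ℂ] ((piI I).obj M ⟶ Ov I hv) :=
    LinearEquiv.ofBijective ((piI I).mapLinearMap ℂ) (pi_bij (piI I) hn hr) ≪≫ₗ
      Linear.homCongr ℂ (Iso.refl _) e
  have hα (φ) : α φ = (piI I).map φ ≫ e.hom := by
    simp only [α, LinearEquiv.trans_apply, Linear.homCongr_apply, Iso.refl_inv, Category.id_comp]
    rfl
  refine ⟨fnl hv (n - 1) M ∘ₗ α.symm.toLinearMap, (fnl_inj hv _ M).comp α.symm.injective,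
    fun ψ => fnl_fn hv _ M _, fun l hl => ?_, fun ψ m u => ?_⟩
  · obtain ⟨φ, rfl⟩ := fnl_sur hv (hn.mono (by lia : n - 1 ≤ n)) hl
    exact ⟨α φ, congrArg (fnl hv _ M) (α.symm_apply_apply φ)⟩
  · obtain ⟨φ, rfl⟩ := α.surjective ψ
    have h1 : (fnl hv (n - 1) M ∘ₗ α.symm.toLinearMap) (α φ) = fnl hv _ M φ :=
      congrArg (fnl hv _ M) (α.symm_apply_apply φ)
    rw [h1, hα, ← Category.assoc, ← Functor.map_comp]
    rcases lt_or_ge m n with h | h
    · have h2 : u = 0 := vl_inj (hn m h _)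
      simp [h2, vl_zero]
    · have h2 := (pi_bij (piI I) (M := Fr I m) (low_free I fun _ _ => by lia) hr).1
      constructor
      · intro h3
        have h4 : u ≫ φ = 0 := h2 (by
          change (piI I).map _ = (piI I).map _
          rw [← cancel_mono e.hom, h3, Functor.map_zero, zero_comp])
        exact congrArg (fun t => Subtype.val (vl t)) h4
      · intro h3
        rw [show u ≫ φ = 0 from vl_inj (Subtype.ext h3), Functor.map_zero, zero_comp]

theorem rel_iff (hv : Pt I v) {M : GA I} {m : ℤ} (u : Fr I m ⟶ M) :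
    (∀ ψ : (piI I).obj M ⟶ Ov I hv, (piI I).map u ≫ ψ = 0) ↔
      ∀ l, Fn v M l → l m (vl u) = 0 := by
  obtain ⟨Λ, -, h1, h2, h3⟩ := hom_fn hv M
  refine ⟨fun h l hl => ?_, fun h ψ => (h3 ψ m u).2 (h _ (h1 ψ))⟩
  obtain ⟨ψ, rfl⟩ := h2 l hl
  exact (h3 ψ m u).1 (h ψ)

variable {L : GA I} {a : ℤ} {s : L.obj.obj ⟨a⟩} {d : ℕ} {h : Sn ν}

omit [Fact (IsHom I)] in
theorem exists_fn (hv : Pt I v) (G : Gn1 L v a s d h) : ∃ l, Fn v L l ∧ l a s ≠ 0 := by
  choose g hg e using G.gen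
  have key : ∀ (b : ℤ) (x : L.obj.obj ⟨b⟩) (g' : Sn ν), Hg (2 * (b + d - a)) g' →
      act L.obj h b (b + d) x = act L.obj g' a (b + d) s → eval v (g b x) = eval v g' :=
    fun b x g' hg' e' => by
      have h1 := hga_sub (hg b x) hg'
      have h2 := (mem_ptI h1).1 (hv.2 (G.ann _ _ h1 (by
        rw [act_sub_apply, ← e, ← e', sub_self])))
      rwa [map_sub, sub_eq_zero] at h2
  have hh (b : ℤ) : Hg (2 * (b + d - b)) h := by rw [add_sub_cancel_left]; exact G.hg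
  refine ⟨fun b =>
    { toFun := fun x => eval v (g b x)
      map_add' := fun x y => ?_
      map_smul' := fun c x => ?_ }, fun b c p x hp => ?_, ?_⟩
  · rw [key b _ _ (hga_add (hg b x) (hg b y)) (by rw [map_add, e, e, act_add_apply]), map_add]
  · rw [key b _ _ (hga_smul c (hg b x)) (by rw [map_smul, e, act_smul_apply]), smul_eval]
    rfl
  · change eval v (g c _) = eval v p * eval v (g b x)
    rw [key c _ (g b x * p) (hga_mul' (hg b x) hp (by ring)) (by
      rw [act_comm _ hp (hh b), e, act_mul_apply _ (hg b x)]), map_mul, mul_comm]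
  · change eval v (g a s) ≠ 0
    rw [key a s h (hh a) rfl]
    exact G.ne

theorem hom_one (hv : Pt I v) (G : Gn1 L v a s d h) :
    Module.finrank ℂ ((piI I).obj L ⟶ Ov I hv) = 1 := by
  obtain ⟨Λ, h0, h1, h2, -⟩ := hom_fn hv L
  obtain ⟨l, hl, hs⟩ := exists_fn hv G
  obtain ⟨ψ, rfl⟩ := h2 l hl
  refine finrank_eq_one_iff'.2 ⟨ψ, fun e => hs (by rw [e, map_zero]; rfl), fun φ =>
    ⟨Λ φ a s / Λ ψ a s, h0 (funext fun b => LinearMap.ext fun x => ?_)⟩⟩
  obtain ⟨g, hg, e⟩ := G.gen b x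
  have hh : Hg (2 * (b + d - b)) h := by rw [add_sub_cancel_left]; exact G.hg
  have k (χ) : eval v h * Λ χ b x = eval v g * Λ χ a s := by
    rw [← h1 χ b _ h x hh, e, h1 χ a _ g s hg]
  refine mul_left_cancel₀ G.ne ?_
  rw [k, k, map_smul]
  change _ * (Λ φ a s / Λ ψ a s * Λ ψ a s) = _
  rw [div_mul_cancel₀ _ hs]

theorem ext_pt [HasDerivedCategory.{w} (P294Z.Coh (PI I))] (hv : Pt I v) (G : Gn1 L v a s d h)
    (k : ℤ) (hk : k ≠ 0) (ξ : (sg I).obj ((piI I).obj L) ⟶ ((sg I).obj (Ov I hv))⟦k⟧) : ξ = 0 := by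
  obtain ⟨i, hi⟩ := Function.ne_iff.1 hv.1
  obtain ⟨u, rfl⟩ := vl_surj s
  have hu : Mono u := GA_mono_of_injective I _ fun b => by
    rw [injective_iff_map_eq_zero]
    intro x hx
    obtain ⟨g, hg, rfl⟩ := fr_surj x
    rw [app_fr] at hx
    exact (FrO.mk_eq_zero I).2 fun _ => G.ann b g hg hx
  have hS : (ShortComplex.mk u (cokernel.π u) (cokernel.condition u)).ShortExact :=
    { exact := ShortComplex.exact_cokernel u }
  have hQ : (mulA I G.hg).app (cokernel u) = 0 := by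
    refine ObjectProperty.hom_ext _ ?_
    ext ⟨b⟩ y
    obtain ⟨x, rfl⟩ := GA_app_surjective I (cokernel.π u) b y
    obtain ⟨g, hg, e⟩ := G.gen b x
    refine (act_natural_apply (cokernel.π u).hom h b (b + d) x).symm.trans ?_
    rw [e, ← app_fr u hg]
    exact congrArg (fun t : Fr I a ⟶ cokernel u => t.hom.app ⟨b + d⟩ (fr I a g hg))
      (cokernel.condition u)
  obtain ⟨g, hg⟩ := Triangle.yoneda_exact₂ _ (hS.map_of_exact (piI I)).singleTriangle_distinguished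
    ξ ((PtM.inv (N := cy (ih_ptI v) hv.2) (PtM.cyc v) hi).ext a k hk _)
  exact hg.trans ((congrArg (_ ≫ ·) (ext_killed (piI I) hv.2 hi G.hg G.ne hQ k g)).trans comp_zero)

end Vale.Agent.P287T.Fm.Ob
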