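import Vale.Agent.P287T.Fm.O2
import Vale.Agent.P287T.Fm.Exg
import Mathlib.LinearAlgebra.Matrix.Rank

/-!
# Invertible modules: endomorphisms, images of matrices of rank one
-/

open CategoryTheory Limits MvPolynomial

namespace Vale.Agent.P287T.Fm.Ob

open Vale.Agent.P287Z Vale.Agent.P287Z.Gr Vale.Agent.P294.V Sv Hy

variable {ν : ℕ} {I : Ideal (Sn ν)} {v : Fin ν → ℂ}

theorem not_mem (hv : Pt I v) {g : Sn ν} (h : eval v g ≠ 0) : g ∉ I :=
  fun e => h (La.ptI_le v (hv.2 e))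

variable [Fact (IsHom I)]

theorem mono_or_zero (hp : I.IsPrime) (hv : Pt I v) {L : GA I} (hL : Iv L) (hT : Tf L)
    (φ : (piI I).obj L ⟶ (piI I).obj L) : φ = 0 ∨ Mono φ := by
  obtain ⟨ψ, hψ⟩ := Localization.exists_rightFraction (piI I) (tors I).isoModSerre φ
  have h0 := Localization.inverts (piI I) _ _ ψ.hs
  have h1 : (piI I).map ψ.s ≫ φ = (piI I).map ψ.f := by rw [hψ, ψ.map_s_comp_map]
  obtain ⟨n, hn⟩ := (iso_iff ψ.s).1 ψ.hs
  obtain ⟨a, t, d, h, G⟩ := hL v hv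
  obtain ⟨i, hi⟩ := Function.ne_iff.1 hv.1
  have hi : v i ≠ 0 := hi
  obtain ⟨r, hr⟩ : ∃ r : ℕ, n ≤ a + r := ⟨(n - a).toNat, by lia⟩
  obtain ⟨z₀, hz₀⟩ := (hn (a + r) hr).2 (act L.obj (X i ^ r) a (a + r) t)
  obtain ⟨g₀, hg₀, e₀⟩ := G.gen (a + r) (ψ.f.hom.app ⟨a + r⟩ z₀)
  have hh (b : ℤ) : Hg (2 * (b + d - b)) h := by rw [add_sub_cancel_left]; exact G.hg
  have key : ∀ b ≥ n, ∀ z : ψ.X'.obj.obj ⟨b⟩, ∃ g, Hg (2 * (b + d - a)) g ∧
      act L.obj h b (b + d) (ψ.s.hom.app ⟨b⟩ z) = act L.obj g a (b + d) t ∧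
      act L.obj (h * X i ^ r * h) b (b + d + r + d) (ψ.f.hom.app ⟨b⟩ z) =
        act L.obj (g₀ * g) a (b + d + r + d) t := fun b hb z => by
    obtain ⟨g, hg, e⟩ := G.gen b (ψ.s.hom.app ⟨b⟩ z)
    refine ⟨g, hg, e, ?_⟩
    have hg' : Hg (2 * (b + d + r - (a + r))) g := by rwa [add_sub_add_right_eq_sub]
    have k1 : act ψ.X'.obj (h * X i ^ r) b (b + d + r) z =
        act ψ.X'.obj g (a + r) (b + d + r) z₀ := (hn _ (by lia)).1 (by
      rw [act_natural_apply, act_natural_apply, hz₀, act_mul_apply _ (hh b), e,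
        act_comm _ hg (hgp' i r rfl)])
    have k2 := congrArg (ψ.f.hom.app ⟨b + d + r⟩) k1
    rw [act_natural_apply, act_natural_apply] at k2
    rw [← act_mul_apply' _ _ (hh (b + d + r)), k2, act_comm _ hg' (hh (a + r)), e₀,
      act_mul_apply _ hg₀]
  have h2 (b : ℤ) : Hg (2 * (b + d + r + d - b)) (h * X i ^ r * h) :=
    hga_mul' (hga_mul G.hg (hgp i r)) G.hg (by ring)
  by_cases h3 : g₀ ∈ I
  · refine Or.inl ?_
    rw [← cancel_epi ((piI I).map ψ.s), h1, comp_zero, ← (piI I).map_zero]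
    refine map_eq_of_large _ n fun b hb z => ?_
    obtain ⟨g, -, -, e⟩ := key b hb z
    refine hT b _ _ _ (h2 b) (not_mem hv (by simp [G.ne, hi])) (e.trans ?_)
    rw [L.property.1 _ (I.mul_mem_right g h3)]
    rfl
  · refine Or.inr ?_
    have : Mono ((piI I).map ψ.f) := (ObjectProperty.SerreClassLocalization.mono_map_iff (piI I)
      (tors I) _).2 ((mono_iff I ψ.f).2 ⟨n, fun b hb => by
        rw [injective_iff_map_eq_zero]
        intro z hz
        obtain ⟨g, hg, e, e'⟩ := key b hb z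
        rw [hz, map_zero] at e'
        have k1 := (hp.mem_or_mem (G.ann _ _ (hga_mul' hg₀ hg (by ring)) e'.symm)).resolve_left h3
        rw [L.property.1 _ k1] at e
        exact (hn b hb).1 ((hT b _ _ _ (hh b) (not_mem hv G.ne) e).trans (map_zero _).symm)⟩)
    rw [← IsIso.inv_hom_id_assoc ((piI I).map ψ.s) φ, h1]
    infer_instance

theorem end_one (hp : I.IsPrime) (hv : Pt I v) {L : GA I} (hL : Iv L) (hT : Tf L)
    [Module.Finite ℂ ((piI I).obj L ⟶ (piI I).obj L)] :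
    Module.finrank ℂ ((piI I).obj L ⟶ (piI I).obj L) = 1 := by
  obtain ⟨a, t, d, h, G⟩ := hL v hv
  obtain ⟨ψ, h0, h1⟩ := finrank_eq_one_iff'.1 (hom_one hv G)
  refine finrank_eq_one_iff'.2 ⟨𝟙 _, fun e => h0 (by rw [← Category.id_comp ψ, e, zero_comp]),
    fun φ => ?_⟩
  obtain ⟨c, hc⟩ := h1 (φ ≫ ψ)
  refine ⟨c, (sub_eq_zero.1 ((mono_or_zero hp hv hL hT (φ - c • 𝟙 _)).resolve_right
    fun hm => h0 ?_)).symm⟩
  obtain ⟨u, hu⟩ := LinearMap.injective_iff_surjective.1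
    (show Function.Injective (Linear.rightComp ℂ ((piI I).obj L) (φ - c • 𝟙 _)) from
      fun _ _ e => (cancel_mono _).1 e) (𝟙 _)
  rw [← Category.id_comp ψ, ← hu, Linear.rightComp_apply, Category.assoc, Preadditive.sub_comp,
    Linear.smul_comp, Category.id_comp, hc, sub_self, comp_zero]

/-! ## Free modules -/

theorem tf_free (hp : I.IsPrime) {ι : Type} [Fintype ι] (q : ι → ℤ) : Tf (FrA I q) := by
  intro a b g x hg h0 h
  obtain ⟨w, hw, rfl⟩ := FrO.mk_surj I x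
  have h1 := (FrO.act_mk I hg hw fun i => hga_mul' hg (hw i) (by ring)).symm.trans h
  exact (FrO.mk_eq_zero I).2 fun i =>
    (hp.mem_or_mem ((FrO.mk_eq_zero I).1 h1 i)).resolve_left h0

theorem iv_free (m : ℤ) : Iv (Fr I m) := fun v _ =>
  ⟨m, fr I m 1 (hg1 m), 0, 1, by simpa using hga_one, by simp, fun b x => by
    obtain ⟨g, hg, rfl⟩ := fr_surj x
    have hg' : Hg (2 * (b + (0 : ℕ) - m)) g := by simpa using hg
    refine ⟨g, hg', ?_⟩
    rw [← act_fr hg, ← act_mul_apply _ hg, mul_one], fun b g hg e =>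
    (FrO.mk_eq_zero I).1 ((act_fr hg).symm.trans e) 0⟩

/-- evaluation of a coordinate -/
noncomputable def evc (hv : Pt I v) {ι : Type} [Fintype ι] (m : ℤ) (i : ι) (b : ℤ) :
    (FrA I fun _ : ι => 2 * m).obj.obj ⟨b⟩ →ₗ[ℂ] ℂ :=
  (frW I (fun _ : ι => 2 * m) b).liftQ
    { toFun := fun w => eval v (w.1 i)
      map_add' := fun _ _ => map_add _ _ _
      map_smul' := fun _ _ => smul_eval _ _ _ } fun _ hw => La.ptI_le v (hv.2 (hw i))

theorem fn_evc (hv : Pt I v) {ι : Type} [Fintype ι] (m : ℤ) (i : ι) :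
    Fn v (FrA I fun _ : ι => 2 * m) (evc hv m i) := fun b c g x hg => by
  obtain ⟨w, hw, rfl⟩ := FrO.mk_surj I x
  refine (congrArg (evc hv m i c) (FrO.act_mk I hg hw fun i => hga_mul' hg (hw i) (by ring))).trans ?_
  exact map_mul (eval v) _ _

omit [Fact (IsHom I)] in
theorem Fn.comp {M N : GA I} (f : M ⟶ N) {l} (h : Fn v N l) :
    Fn v M fun b => l b ∘ₗ (f.hom.app ⟨b⟩).hom := fun b c g x hg =>
  (congrArg (l c) (act_natural_apply f.hom g b c x)).trans (h b c g _ hg)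

theorem vl_sum {m : ℤ} {N : GA I} {κ : Type} [Fintype κ] (c : κ → ℂ) (u : κ → (Fr I m ⟶ N)) :
    vl (∑ j, c j • u j) = ∑ j, c j • vl (u j) :=
  map_sum (show (Fr I m ⟶ N) →+ N.obj.obj ⟨m⟩ from
    { toFun := vl, map_zero' := rfl, map_add' := fun _ _ => rfl }) _ _

theorem pi_sum {M N : GA I} {κ : Type} [Fintype κ] (c : κ → ℂ) (u : κ → (M ⟶ N)) :
    ∑ j, c j • (piI I).map (u j) = (piI I).map (∑ j, c j • u j) := by
  simp only [Functor.map_sum, Functor.map_smul]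

theorem cols_free (m : ℤ) : ∃ u : Fin ν → (Fr I (m + 1) ⟶ Fr I m), ∀ v (hv : Pt I v)
    (c : Fin ν → ℂ), (∀ ψ : (piI I).obj (Fr I m) ⟶ Ov I hv,
      (∑ j, c j • (piI I).map (u j)) ≫ ψ = 0) ↔
      ((Matrix.of fun (_ : Unit) j => (X j : Sn ν)).map (eval v)).mulVec c = 0 := by
  choose u hu using fun j => vl_surj (N := Fr I m) (fr I m (X j) (hg_X j (rfl : m + 1 = m + 1)))
  refine ⟨u, fun v hv c => ?_⟩
  have k : ∀ l, Fn v (Fr I m) l →
      l (m + 1) (vl (∑ j, c j • u j)) = (∑ j, v j * c j) * l m (fr I m 1 (hg1 m)) := fun l hl => by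
    rw [vl_sum, map_sum, Finset.sum_mul]
    refine Finset.sum_congr rfl fun j _ => ?_
    rw [map_smul, hu, ← act_fr, hl _ _ _ _ (hg_X j rfl), eval_X, smul_eq_mul]
    ring
  have k' : ((Matrix.of fun (_ : Unit) j => (X j : Sn ν)).map (eval v)).mulVec c = 0 ↔
      ∑ j, v j * c j = 0 := by
    simp [funext_iff, Matrix.mulVec, dotProduct]
  rw [pi_sum, rel_iff, k']
  refine ⟨fun h => ?_, fun h l hl => by rw [k l hl, h, zero_mul]⟩
  have h1 := (k _ (fn_evc hv m 0)).symm.trans (h _ (fn_evc hv m 0))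
  exact (mul_eq_zero.1 h1).resolve_right fun e => one_ne_zero ((map_one (eval v)).symm.trans e)

/-! ## Matrices of rank one -/

theorem rank_one {ι κ : Type} [Fintype ι] [Fintype κ] {A : Matrix ι κ ℂ} (h : A.rank = 1) :
    (∃ i j, A i j ≠ 0) ∧ ∀ i j i' j', A i' j' * A i j = A i' j * A i j' := by
  classical
  refine ⟨by_contra fun e => ?_, fun i j i' j' => ?_⟩
  · have : A = 0 := Matrix.ext fun i j => by_contra fun e' => e ⟨i, j, e'⟩
    rw [this, Matrix.rank_zero] at h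
    exact zero_ne_one h
  · obtain ⟨w, -, hw⟩ := finrank_eq_one_iff'.1 h
    have k (j : κ) : ∃ c : ℂ, ∀ i, A i j = c * w.1 i := by
      obtain ⟨c, hc⟩ := hw ⟨_, Pi.single j 1, rfl⟩
      refine ⟨c, fun i => ?_⟩
      have := congrFun (congrArg Subtype.val hc) i
      simpa using this.symm
    choose c hc using k
    rw [hc, hc, hc, hc]
    ring

section

variable {ι κ : Type} [Fintype ι] [Fintype κ] {n : ℕ} {f : Matrix ι κ (Sn ν)}
  (hf : ∀ i j, (f i j).IsHomogeneous n) (m : ℤ)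

include hf in
omit [Fintype ι] [Fintype κ] in
theorem hgM : HgM (fun _ : κ => 2 * (m + n)) (fun _ : ι => 2 * m) f := fun i j => by
  have := hg_of_hom (hf i j)
  rwa [show 2 * (m + n) - 2 * m = 2 * (n : ℤ) by ring]

variable (I) in
/-- the image of a matrix -/
noncomputable def imA : GA I :=
  subA (FrA I fun _ : ι => 2 * m)
    (fun b => LinearMap.range ((matA I f (hgM hf m)).hom.app ⟨b⟩).hom) (by
      rintro a b μ _ ⟨y, rfl⟩
      exact ⟨_, NatTrans.naturality_apply (matA I f (hgM hf m)).hom μ y⟩)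

variable (I) in
/-- the inclusion -/
noncomputable def imι : imA I hf m ⟶ FrA I fun _ : ι => 2 * m := subAι _ _ _

theorem imι_inj (b : ℤ) : Function.Injective ((imι I hf m).hom.app ⟨b⟩) := Subtype.val_injective

theorem im_surj {b : ℤ} (x : (imA I hf m).obj.obj ⟨b⟩) : ∃ (w : κ → Sn ν)
    (hw : ∀ j, Hg (2 * b - 2 * (m + n)) (w j)),
    (imι I hf m).hom.app ⟨b⟩ x = FrO.mk I (f.mulVec w) ((hgM hf m).mulVec hw) := by
  obtain ⟨x, y, rfl⟩ := x
  obtain ⟨w, hw, rfl⟩ := FrO.mk_surj I y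
  exact ⟨w, hw, rfl⟩

theorem exists_col (j : κ) : ∃ x : (imA I hf m).obj.obj ⟨m + n⟩,
    (imι I hf m).hom.app ⟨m + n⟩ x = FrO.mk I (fun i => f i j) fun i => hgM hf m i j := by
  classical
  refine ⟨⟨_, FrO.mk I (q := fun _ : κ => 2 * (m + n)) (Pi.single j 1) fun k => ?_, rfl⟩, ?_⟩
  · rw [sub_self, Pi.single_apply]
    split_ifs
    · exact hga_one
    · exact hga_zero _
  · exact FrO.mk_congr I (Matrix.mulVec_single_one f j)

theorem tf_im (hp : I.IsPrime) : Tf (imA I hf m) := fun a b g x hg h0 h =>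
  imι_inj hf m a ((tf_free hp _ a b g _ hg h0 (by
    rw [← act_natural_apply, h, map_zero])).trans (map_zero _).symm)

variable {m}

theorem gn_im (hp : I.IsPrime) (hr : ∀ v, Pt I v → (f.map (eval v)).rank = 1) (hv : Pt I v)
    {i : ι} {j : κ} (h0 : eval v (f i j) ≠ 0) {s : (imA I hf m).obj.obj ⟨m + n⟩}
    (hs : (imι I hf m).hom.app ⟨m + n⟩ s = FrO.mk I (fun i => f i j) fun i => hgM hf m i j)
    {b : ℤ} (x : (imA I hf m).obj.obj ⟨b⟩) {w : κ → Sn ν}
    (hw : ∀ j, Hg (2 * b - 2 * (m + n)) (w j))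
    (e : (imι I hf m).hom.app ⟨b⟩ x = FrO.mk I (f.mulVec w) ((hgM hf m).mulVec hw)) :
    Hg (2 * (b + n - (m + n))) (f.mulVec w i) ∧ act (imA I hf m).obj (f i j) b (b + n) x =
      act (imA I hf m).obj (f.mulVec w i) (m + n) (b + n) s := by
  have h1 : Hg (2 * (b + n - (m + n))) (f.mulVec w i) := by
    have := (hgM hf m).mulVec hw i
    rwa [show 2 * (b + n - (m + n)) = 2 * b - 2 * m by ring]
  have h2 : Hg (2 * (b + n - b)) (f i j) := by
    rw [add_sub_cancel_left]; exact hg_of_hom (hf i j)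
  refine ⟨h1, imι_inj hf m _ ?_⟩
  rw [act_natural_apply, act_natural_apply, e, hs]
  refine (FrO.act_mk I h2 _ fun k => hga_mul' h2 ((hgM hf m).mulVec hw k) (by ring)).trans
    (Eq.trans ((FrO.mk_eq I).2 fun k => ?_)
      (FrO.act_mk I h1 _ fun k => hga_mul' h1 (hgM hf m k j) (by ring)).symm)
  rw [Matrix.mulVec, Matrix.mulVec, dotProduct, dotProduct, Finset.mul_sum, Finset.sum_mul,
    ← Finset.sum_sub_distrib]
  refine I.sum_mem fun l _ => ?_
  rw [show f i j * (f k l * w l) - f i l * w l * f k j =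
    (f i j * f k l - f i l * f k j) * w l by ring]
  refine I.mul_mem_right _ (La.mem_of_pts hp hv h0 fun v' hv' _ => ?_)
  rw [La.mem_mv, map_sub, map_mul, map_mul, sub_eq_zero]
  exact (rank_one (hr v' hv')).2 k l i j

theorem iv_im (hp : I.IsPrime) (hr : ∀ v, Pt I v → (f.map (eval v)).rank = 1) :
    Iv (imA I hf m) := fun v hv => by
  obtain ⟨i, j, h0⟩ := (rank_one (hr v hv)).1
  obtain ⟨s, hs⟩ := exists_col (I := I) hf m j
  refine ⟨m + n, s, n, f i j, hg_of_hom (hf i j), h0, fun b x => ?_, fun b g hg e => ?_⟩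
  · obtain ⟨w, hw, e⟩ := im_surj hf m x
    exact ⟨_, gn_im hf hp hr hv h0 hs x hw e⟩
  · have h1 := congrArg ((imι I hf m).hom.app ⟨b⟩) e
    rw [act_natural_apply, hs, map_zero] at h1
    have h2 := (FrO.act_mk I hg _ fun k => hga_mul' hg (hgM hf m k j) (by ring)).symm.trans h1
    exact (hp.mem_or_mem ((FrO.mk_eq_zero I).1 h2 i)).resolve_right (not_mem hv h0)

variable (m) in
theorem cols_im (hp : I.IsPrime) (hr : ∀ v, Pt I v → (f.map (eval v)).rank = 1) :
    ∃ u : κ → (Fr I (m + n) ⟶ imA I hf m), ∀ v (hv : Pt I v) (c : κ → ℂ),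
      (∀ ψ : (piI I).obj (imA I hf m) ⟶ Ov I hv, (∑ j, c j • (piI I).map (u j)) ≫ ψ = 0) ↔
        (f.map (eval v)).mulVec c = 0 := by
  choose s hs using exists_col (I := I) hf m
  choose u hu using fun j => vl_surj (s j)
  refine ⟨u, fun v hv c => ?_⟩
  have hw (j : κ) : Hg (2 * (m + n) - 2 * (m + n)) (C (c j) : Sn ν) := by
    rw [sub_self, ← mul_one (C (c j)), ← smul_eq_C_mul]
    exact hga_smul _ hga_one
  have e : (imι I hf m).hom.app ⟨m + n⟩ (vl (∑ j, c j • u j)) =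
      FrO.mk I (f.mulVec fun j => C (c j)) ((hgM hf m).mulVec hw) := by
    rw [vl_sum, map_sum]
    simp only [map_smul, hu, hs]
    refine Eq.trans ?_ (FrO.mk_congr I (v := fun i => ∑ j, c j • f i j)
      (h := fun i => hga_sum _ fun j _ => hga_smul _ (hgM hf m i j)) (funext fun i => ?_))
    · exact (FrO.mk_sum I Finset.univ (fun j i => c j • f i j)
        (fun j i => hga_smul _ (hgM hf m i j)) _).symm
    · simp only [Matrix.mulVec, dotProduct, smul_eq_C_mul, mul_comm]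
  have k (i : ι) : eval v (f.mulVec (fun j => C (c j)) i) = (f.map (eval v)).mulVec c i := by
    simp [Matrix.mulVec, dotProduct]
  rw [pi_sum, rel_iff]
  refine ⟨fun h => funext fun i => ?_, fun h l hl => ?_⟩
  · have h1 := h _ ((fn_evc hv m i).comp (imι I hf m))
    exact (k i).symm.trans ((congrArg (evc hv m i (m + n)) e).symm.trans h1)
  · obtain ⟨i, j, h0⟩ := (rank_one (hr v hv)).1
    obtain ⟨h1, h2⟩ := gn_im hf hp hr hv h0 (hs j) _ hw e
    have h3 := congrArg (l (m + n + n)) h2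
    rw [hl _ _ _ _ (by rw [add_sub_cancel_left]; exact hg_of_hom (hf i j)), hl _ _ _ _ h1, k, h,
      Pi.zero_apply, zero_mul] at h3
    exact (mul_eq_zero.1 h3).resolve_left h0

end

end Vale.Agent.P287T.Fm.Ob
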