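import Vale.Agent.P287T.Fm.O1
import Vale.Agent.P287T.Fm.O3

/-!
# Block FM: the objects of line bundles
-/

open CategoryTheory Limits MvPolynomial

universe w

namespace Vale.Agent.P287T.Fm

open Vale.Agent.P287Z Vale.Agent.P287Z.O.V Vale.Agent.P287T.Cy

variable {ν : ℕ} {W : S6} {I : Ideal (Gr.Sn ν)} [Fact (W.IsHomogeneous 3)] [Fact (IsHom I)]
  [HasDerivedCategory.{w} (P294Z.Coh (PI I))] {K : Ker W I} {n : ℕ}

theorem o4_zero {𝒞 : Type*} [Category 𝒞] [Abelian 𝒞] [Linear ℂ 𝒞] [HasDerivedCategory 𝒞]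
    (A B : 𝒞) : Nonempty ((A ⟶ B) ≃ₗ[ℂ] ((DerivedCategory.singleFunctor 𝒞 0).obj A ⟶
      ((DerivedCategory.singleFunctor 𝒞 0).obj B)⟦(0 : ℤ)⟧)) :=
  ⟨homEq (DerivedCategory.singleFunctor 𝒞 0) A B ((shiftFunctorZero _ ℤ).app _).symm⟩

theorem o4_neg {𝒞 : Type*} [Category 𝒞] [Abelian 𝒞] [HasDerivedCategory 𝒞] (A B : 𝒞) {k : ℤ}
    (hk : k < 0) (f : (DerivedCategory.singleFunctor 𝒞 0).obj A ⟶
      ((DerivedCategory.singleFunctor 𝒞 0).obj B)⟦k⟧) : f = 0 := by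
  have := DerivedCategory.TStructure.t.isGE_shift ((DerivedCategory.singleFunctor 𝒞 0).obj B) 0 k
    (-k) (by lia)
  exact DerivedCategory.TStructure.t.zero f 0 (-k) (by lia)

theorem Ker.Out.sg (o : K.Out) (A : P294Z.Coh (PI I)) : ∃ (n : ℕ) (G : GMF W n),
    Nonempty (K.ob G ≅ (DerivedCategory.singleFunctor _ 2).obj A) :=
  o.ess _ ⟨⟨2, inferInstance⟩, ⟨2, inferInstance⟩⟩

theorem Ker.Out.lbU (o : K.Out) {r : (Fin ν → ℂ) → ℕ} {U : ∀ v, GMF W (r v)}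
    (hU : ∀ v (hv : Pt I v),
      Nonempty (K.ob (U v) ≅ (DerivedCategory.singleFunctor _ 2).obj (Ov I hv)))
    {L : Gr.GA I} (hL : Iv L) {G : GMF W n}
    (e : K.ob G ≅ (DerivedCategory.singleFunctor _ 2).obj ((piI I).obj L)) : LbU I U G := by
  intro v hv
  obtain ⟨b⟩ := hU v hv
  obtain ⟨a, s, d, h, g⟩ := hL v hv
  refine ⟨fun k hk => ?_, ?_⟩
  · obtain ⟨α⟩ := o.hm_sg e b k
    exact ⟨fun x y => α.injective
      ((Ob.ext_pt hv g k hk _).trans (Ob.ext_pt hv g k hk _).symm)⟩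
  · obtain ⟨α⟩ := o.hm_sg e b 0
    obtain ⟨β⟩ := o4_zero ((piI I).obj L) (Ov I hv)
    rw [α.finrank_eq, ← β.finrank_eq, Ob.hom_one hv g]

theorem Ker.Out.sph (o : K.Out) (hE : StE1 I) (hc : CY W) (hp : I.IsPrime) (hv : ∃ v, Pt I v)
    (h1 : H1c I) {L : Gr.GA I} (hL : Iv L) (hT : Tf L) {G : GMF W n}
    (e : K.ob G ≅ (DerivedCategory.singleFunctor _ 2).obj ((piI I).obj L)) : Sph G := by
  obtain ⟨v, hv⟩ := hv
  have z (k : ℤ) (h : ∀ f : (Fm.sg I).obj ((piI I).obj L) ⟶ ((Fm.sg I).obj ((piI I).obj L))⟦k⟧,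
      f = 0) : Module.finrank ℂ (Hm G G k) = 0 := by
    obtain ⟨α⟩ := o.hm_sg e e k
    have : Subsingleton (Hm G G k) := ⟨fun x y => α.injective ((h _).trans (h _).symm)⟩
    exact Module.finrank_zero_of_subsingleton
  have h0 : Module.finrank ℂ (Hm G G 0) = 1 := by
    obtain ⟨α⟩ := o.hm_sg e e 0
    obtain ⟨β⟩ := o4_zero ((piI I).obj L) ((piI I).obj L)
    have := (hc G G 0).1
    have := Module.Finite.equiv (α ≪≫ₗ β.symm)
    rw [α.finrank_eq, ← β.finrank_eq, Ob.end_one hp hv hL hT]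
  intro k
  split_ifs with h
  · rcases h with rfl | rfl
    · exact h0
    · exact (hc G G 2).2.trans h0
  · rcases lt_trichotomy k 1 with h' | rfl | h'
    · exact z k (o4_neg _ _ (by lia))
    · exact z 1 (hE hp h1 L hL hT)
    · exact (hc G G k).2.trans (z _ (o4_neg _ _ (by lia)))

variable (W I)

theorem stOut3_of (hE : StE1 I) : StOut3 W I := by
  intro hc hp hv h1 K r U o hU
  choose g G hG using fun m : ℤ => o.sg ((piI I).obj (Fr I m))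
  refine ⟨g, G, fun m => ⟨o.lbU hU (Ob.iv_free m) (hG m).some,
    o.sph hE hc hp hv h1 (Ob.iv_free m) (Ob.tf_free hp _) (hG m).some⟩, fun m => ?_,
    fun n f hf hr m => ?_⟩
  · obtain ⟨u, hu⟩ := Ob.cols_free (I := I) m
    exact o.cols hU (hG (m + 1)).some (hG m).some _ _ hu
  · obtain ⟨s, L, ⟨e⟩⟩ := o.sg ((piI I).obj (Ob.imA I hf m))
    obtain ⟨u, hu⟩ := Ob.cols_im hf m hp hr
    exact ⟨s, L, o.lbU hU (Ob.iv_im hf hp hr) e,
      o.sph hE hc hp hv h1 (Ob.iv_im hf hp hr) (Ob.tf_im hf m hp) e,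
      o.cols hU (hG (m + n)).some e _ _ hu⟩

end Vale.Agent.P287T.Fm
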