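import Vale.Agent.P287T.Fm.O4
import Vale.Agent.P287T.Fm.E1
import Vale.Agent.P287T.Au.Alg

/-!
# Block FM: the output about line bundles
-/

universe w

namespace Vale.Agent.P287T.Fm

theorem stO3 : Au.StO3.{w} := fun W _ _ I _ _ => stOut3_of W I (stE1 I)

end Vale.Agent.P287T.Fm
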