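import Vale.Agent.P287T.Fm.Exg
import Vale.Agent.P287T.Fm.GenP
import Vale.Agent.P287T.Kx.L0

/-!
# The ideal of a line on the cone over a smooth surface
-/

open MvPolynomial IsLocalRing Module

namespace Vale.Agent.P287T.Fm.P3

open Vale.Agent.P287Z Vale.Agent.P287Z.Gr Vale.Agent.P294.V La

variable {ν : ℕ} {I : Ideal (Sn ν)} {v w : Fin ν → ℂ}

theorem mem_mj {g : Sn ν} : g ∈ mj v w ↔ eval v g = 0 ∧ dv v w g = 0 := Iff.rfl

theorem dv_sub (f g : Sn ν) : dv v w (f - g) = dv v w f - dv v w g := by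
  simp only [dv, map_sub, mul_sub, Finset.sum_sub_distrib]

theorem dv_C (c : ℂ) : dv v w (C c) = 0 := by simp [dv]

theorem dv_X (i : Fin ν) : dv v w (X i) = w i := by
  classical
  simp [dv, pderiv_X, Pi.single_apply, apply_ite (eval v)]

theorem rg_of (hS : Surf I) (hv : Pt I v) {s t : Sn ν} {w₁ w₂ : Fin ν → ℂ} (hs : eval v s = 0)
    (ht : eval v t = 0) (h1 : I ≤ mj v w₁) (h2 : I ≤ mj v w₂) (a1 : dv v w₁ s ≠ 0)
    (a2 : dv v w₂ s = 0) (a3 : dv v w₂ t ≠ 0) : Rg I (mv v) s t := by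
  obtain ⟨R, _, _, φ, -, hu, hf, hk⟩ := Gn.exists_loc hS hv
  have k1 : ∀ {w a}, I ≤ mj v w → φ a = 0 → a ∈ mj v w := fun {w a} h e => by
    obtain ⟨c, hc, e⟩ := (hk a).1 e
    obtain ⟨e1, e2⟩ := h e
    rw [map_mul, mul_eq_zero, or_iff_right hc] at e1
    rw [dv_mul, e1, zero_mul, add_zero, mul_eq_zero, or_iff_right hc] at e2
    exact ⟨e1, e2⟩
  have k2 : ∀ r ∈ maximalIdeal R, ∃ h, eval v h ≠ 0 ∧ ∃ a, φ h * r = φ a ∧ eval v a = 0 :=
    fun r hr => by
      obtain ⟨h, hh, a, e⟩ := hf r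
      refine ⟨h, hh, a, e, by_contra fun h0 => (mem_maximalIdeal _).1
        (Ideal.mul_mem_left _ (φ h) hr) (e ▸ hu a h0)⟩
  have k3 : ∀ r ∈ maximalIdeal R ^ 2, ∃ h, eval v h ≠ 0 ∧ ∃ a ∈ mj v w₁, φ h * r = φ a := by
    intro r hr
    rw [pow_two] at hr
    refine Submodule.mul_induction_on hr (fun x hx y hy => ?_) ?_
    · obtain ⟨h, hh, a, e, ha⟩ := k2 x hx
      obtain ⟨h', hh', a', e', ha'⟩ := k2 y hy
      exact ⟨h * h', by rw [map_mul]; exact mul_ne_zero hh hh', a * a',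
        ⟨by rw [map_mul, ha, zero_mul], by rw [dv_mul, ha, ha', zero_mul, zero_mul, add_zero]⟩,
        by rw [map_mul, map_mul, ← e, ← e', mul_mul_mul_comm]⟩
    · rintro x y ⟨h, hh, a, ha, e⟩ ⟨h', hh', a', ha', e'⟩
      exact ⟨h * h', by rw [map_mul]; exact mul_ne_zero hh hh', h' * a + h * a',
        add_mem (Ideal.mul_mem_left _ _ ha) (Ideal.mul_mem_left _ _ ha'),
        by rw [map_add, map_mul, map_mul, map_mul, ← e, ← e']; ring⟩
  have hp : Prime (φ s) := P299.R.prime_of_notMem_sq (fun e => by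
      obtain ⟨r, hr⟩ := e.exists_left_inv
      obtain ⟨h, hh, a, e⟩ := hf r
      have := (k1 (a := h - a * s) h1 (by
        rw [map_sub, map_mul, ← e, mul_assoc, hr, mul_one, sub_self])).1
      rw [map_sub, map_mul, hs, mul_zero, sub_zero] at this
      exact hh this) fun e => by
    obtain ⟨h, hh, a, ha, e⟩ := k3 _ e
    have := (add_mem (k1 (a := h * s - a) h1 (by rw [map_sub, map_mul, e, sub_self])) ha).2
    rw [sub_add_cancel, dv_mul, hs, zero_mul, add_zero] at this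
    exact mul_ne_zero hh a1 this
  have k4 : ∀ a, φ s ∣ φ a → ∃ h, eval v h ≠ 0 ∧ ∃ a', φ (h * a - s * a') = 0 := by
    rintro a ⟨r, hr⟩
    obtain ⟨h, hh, a', e⟩ := hf r
    exact ⟨h, hh, a', by rw [map_sub, map_mul, map_mul, hr, ← e]; ring⟩
  intro a b hab
  have e := (hk _).2 ⟨1, by simp, by rwa [one_mul]⟩
  rw [map_sub, map_mul, map_mul, sub_eq_zero] at e
  obtain ⟨h, hh, a', e'⟩ := k4 a ((hp.dvd_or_dvd ⟨_, e⟩).resolve_left fun e1 => by
    obtain ⟨h, hh, a', e'⟩ := k4 t e1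
    have := (k1 h2 e').2
    rw [dv_sub, dv_mul, dv_mul, hs, ht, a2, zero_mul, zero_mul, mul_zero, add_zero, add_zero,
      sub_zero] at this
    exact mul_ne_zero hh a3 this)
  obtain ⟨c, hc, e''⟩ := (hk _).1 e'
  refine ⟨c * h, nm_mul (mv_max v).isPrime hc hh, c * a', ?_⟩
  rwa [mul_assoc, mul_left_comm s, ← mul_sub]

theorem exists_lin (l : Dual ℂ (Fin ν → ℂ)) (h : l v = 0) :
    ∃ s ∈ ptI v, ∀ w, dv v w s = l w := by
  classical
  have e : ∀ x : Fin ν → ℂ, ∑ j, l (Pi.single j 1) * x j = l x := fun x => by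
    conv_rhs => rw [← Finset.univ_sum_single x, map_sum]
    refine Finset.sum_congr rfl fun k _ => ?_
    rw [mul_comm, ← smul_eq_mul, ← map_smul, ← Pi.single_smul, smul_eq_mul, mul_one]
  refine ⟨∑ j, l (Pi.single j 1) • X j, (mem_ptI (hga_sum _ fun j _ => hga_smul _ (hga_X j))).2
    (by simpa [e] using h), fun w => ?_⟩
  rw [← e]
  simp [dv, pderiv_X, Pi.single_apply, mul_comm]

/-- two linear forms which vanish on the line and form a regular sequence -/
theorem exists_pair (hS : Surf I) (hv : Pt I v) :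
    ∃ s ∈ ptI v, ∃ t ∈ ptI v, s ∉ I ∧ Rg I (mv v) s t := by
  obtain ⟨c, g, h, hc, hg, -, hh, hI⟩ := hS.jac v hv
  let A : (Fin ν → ℂ) →ₗ[ℂ] Fin c → ℂ :=
    Matrix.mulVecLin (Matrix.of fun k j => eval v (pderiv j (g k)))
  have hT : ∀ w ∈ LinearMap.ker A, I ≤ mj v w := fun w hw f hf => by
    have h1 : Ideal.span (Set.range g) ≤ mj v w := Ideal.span_le.2 (by
      rintro _ ⟨k, rfl⟩
      refine ⟨Pt.le hv (hg k), Eq.trans ?_ (congrFun (LinearMap.mem_ker.1 hw) k)⟩
      exact Finset.sum_congr rfl fun j _ => mul_comm _ _)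
    have h2 := (h1 (hI f hf)).2
    rw [dv_mul, mem_mv.1 (Pt.le hv hf), zero_mul, add_zero] at h2
    exact ⟨Pt.le hv hf, (mul_eq_zero.1 h2).resolve_left hh⟩
  have hd : ∀ s : Finset (Fin ν → ℂ), s.card ≤ 2 →
      ∃ w ∈ LinearMap.ker A, w ∉ Submodule.span ℂ (s : Set (Fin ν → ℂ)) := fun s hs => by
    by_contra hn
    have h1 := Submodule.finrank_mono (s := LinearMap.ker A) (t := Submodule.span ℂ s)
      fun w hw => by_contra fun h => hn ⟨w, hw, h⟩
    have h2 := finrank_span_finset_le_card (R := ℂ) s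
    have h3 := LinearMap.finrank_range_add_finrank_ker A
    have h4 := Submodule.finrank_le (LinearMap.range A)
    simp only [finrank_fintype_fun_eq_card, Fintype.card_fin] at h3 h4
    change finrank ℂ (Submodule.span ℂ (s : Set (Fin ν → ℂ))) ≤ _ at h2
    omega
  classical
  obtain ⟨w₂, k2, n2⟩ := hd {v} (by simp)
  obtain ⟨w₁, k1, n1⟩ := hd {v, w₂} Finset.card_le_two
  obtain ⟨l₁, a1, b1⟩ := Submodule.exists_dual_map_eq_bot_of_notMem n1 inferInstance
  obtain ⟨l₂, a2, b2⟩ := Submodule.exists_dual_map_eq_bot_of_notMem n2 inferInstance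
  rw [← LinearMap.le_ker_iff_map] at b1 b2
  obtain ⟨s, hs, ds⟩ := exists_lin (v := v) l₁ (b1 (Submodule.subset_span (by simp)))
  obtain ⟨t, ht, dt⟩ := exists_lin (v := v) l₂ (b2 (Submodule.subset_span (by simp)))
  exact ⟨s, hs, t, ht, fun e => a1 ((ds w₁).symm.trans (hT _ k1 e).2),
    rg_of hS hv (ptI_le v hs) (ptI_le v ht) (hT _ k1) (hT _ k2) (ds w₁ ▸ a1)
      ((ds w₂).trans (b1 (Submodule.subset_span (by simp)))) (dt w₂ ▸ a2)⟩

theorem mem_ptI_of {i : Fin ν} (hi : v i ≠ 0) {a : Sn ν} (h : (X i - C (v i)) * a ∈ ptI v) :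
    a ∈ ptI v := by
  have key : ∀ n : ℕ, eval v (hpart (2 * (n : ℤ)) a) = eval v (hpart (2 * (n : ℤ) - 2) a) := by
    intro n
    have h1 := h n
    rw [sub_mul, map_sub, map_sub, ← hpart_two_mul, ← hpart_two_mul, hpart_mul (hga_X i),
      C_mul', ← one_mul (v i • a), mul_smul_comm, ← smul_mul_assoc,
      hpart_mul (hga_smul _ hga_one), map_mul, map_mul, eval_X, smul_eval, map_one, mul_one,
      sub_zero, sub_eq_zero] at h1
    exact (mul_left_cancel₀ hi h1).symm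
  intro n
  rw [← hpart_two_mul]
  induction n with
  | zero => rw [key, hga_neg_eq_zero (hga_hpart _ a) (by norm_num), map_zero]
  | succ n ih => rw [key, ← ih]; congr 2; push_cast; ring

/-- an ideal inside the ideal of the line which sees all transversal directions -/
theorem line_le (hv : v ≠ 0) {J : Ideal (Sn ν)} (hJ : J ≤ ptI v)
    (h : ∀ w, (∀ g ∈ J, dv v w g = 0) → ∃ c : ℂ, w = c • v) :
    ∃ c ∉ mv v, ∀ p ∈ ptI v, c * p ∈ J := by
  obtain ⟨i, hi⟩ := Function.ne_iff.1 hv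
  obtain ⟨n, j, hj⟩ := Submodule.fg_iff_exists_fin_generating_family.1 (IsNoetherian.noetherian J)
  have hj' : ∀ k, j k ∈ J := fun k => hj ▸ Submodule.subset_span ⟨k, rfl⟩
  have e : ∀ w g, Kx.dP v g w = dv v w g := fun w g =>
    (Kx.dP_apply _ _ _).trans (Finset.sum_congr rfl fun _ _ => mul_comm _ _)
  obtain ⟨s, hs, hs'⟩ := Kx.gen_max v (Sum.elim j fun _ : Unit => X i - C (v i)) (by
    rintro (k | _)
    · exact ptI_le v (hJ (hj' k))
    · simp) fun w hw => by
      have h1 : Submodule.span (Sn ν) (Set.range j) ≤ mj v w := Submodule.span_le.2 (by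
        rintro _ ⟨k, rfl⟩
        exact ⟨ptI_le v (hJ (hj' k)), (e _ _).symm.trans (hw (.inl k))⟩)
      obtain ⟨c, rfl⟩ := h w fun g hg => (h1 (hj.ge hg)).2
      have := (e _ _).symm.trans (hw (.inr ()))
      rw [Sum.elim_inr, dv_sub, dv_X, dv_C, sub_zero] at this
      rw [(mul_eq_zero.1 this).resolve_right hi, zero_smul]
  obtain ⟨c, h1, h2⟩ := Submodule.exists_sub_one_mem_and_smul_le_of_fg_of_le_sup (I := mv v)
    (N := J) (IsNoetherian.noetherian (ptI v)) le_rfl fun p hp => by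
      have h3 := hs' p (ptI_le v hp)
      rw [Set.Sum.elim_range, Ideal.span_union, Set.range_const] at h3
      obtain ⟨x, hx, _, hy, e⟩ := Submodule.mem_sup.1 h3
      obtain ⟨a, rfl⟩ := Ideal.mem_span_singleton'.1 hy
      have h4 : x ∈ J := hj ▸ hx
      have h5 : a ∈ ptI v := mem_ptI_of hi (by
        rw [mul_comm, eq_sub_of_add_eq' e]
        exact sub_mem (Ideal.mul_mem_left _ _ hp) (hJ h4))
      rw [show p = x + ((X i - C (v i)) • a + (1 - s) • p) by
        rw [smul_eq_mul, smul_eq_mul]; linear_combination -e]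
      exact Submodule.add_mem_sup h4 (add_mem (Submodule.smul_mem_smul (by simp [mem_mv]) h5)
        (Submodule.smul_mem_smul (by simp [mem_mv, hs]) hp))
  refine ⟨c, fun h3 => ?_, fun p hp => h2 (Submodule.smul_mem_pointwise_smul _ _ _ hp)⟩
  simp [mem_mv.1 h3, mem_mv] at h1

end Vale.Agent.P287T.Fm.P3
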