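import Vale.Agent.P287T.Fm.Cx

/-!
# Block FM, step PTK: the complex of a fibre resolves the point
-/

open CategoryTheory Limits MvPolynomial

namespace Vale.Agent.P287T.Fm

open Vale.Agent.P287Z Vale.Agent.P287Z.O.V Vale.Agent.P287T.Cy

variable {ν : ℕ} {W : S6} {I : Ideal (Gr.Sn ν)}

theorem ptk_sub (hC : CY W) {m n : ℕ} (E : GMF W m) (F : GMF W n) {k l : ℤ} (hkl : k + l = 2)
    (h : Subsingleton (Hm F E l)) : Subsingleton (Hm E F k) := by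
  obtain rfl : l = 2 - k := by lia
  have := (hC E F k).1
  exact Module.finrank_zero_iff.1 ((hC E F k).2.trans Module.finrank_zero_of_subsingleton)

theorem ptk_rk (hC : CY W) {m n : ℕ} (E : GMF W m) (F : GMF W n) {k l : ℤ} (hkl : k + l = 2) :
    Module.finrank ℂ (Hm E F k) = Module.finrank ℂ (Hm F E l) := by
  obtain rfl : l = 2 - k := by lia
  exact (hC E F k).2

theorem ptk_smul {N : Gr.GrS ν} {𝔞 : Ideal (Gr.Sn ν)} (c : ℂ) {t : Π₀ m : ℤ, N.obj ⟨m⟩}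
    (h : InI N 𝔞 t) : InI N 𝔞 (c • t) := by
  have h1 : actT N (algebraMap ℂ _ c) t = c • t := by
    rw [AlgHom.commutes, Module.algebraMap_end_apply]
  rw [← h1]
  exact Submodule.smul_mem (𝔞 • ⊤ : Submodule (Gr.Sn ν) (Tot N)) (algebraMap ℂ _ c) h

theorem ptk_fex {A B C : Gr.GA I} {f : A ⟶ B} {g : B ⟶ C} {𝔞 : Ideal (Gr.Sn ν)}
    {z : Π₀ m : ℤ, B.obj.obj ⟨m⟩} (h : Sp f g 𝔞 z) {s : Π₀ m : ℤ, A.obj.obj ⟨m⟩}
    (hs : InI B.obj 𝔞 (z - totL f.hom s)) : FEx f g 𝔞 := fun t ht => by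
  obtain ⟨c, s', h1⟩ := h t ht
  refine ⟨s' + c • s, ?_⟩
  rw [show t - totL f.hom (s' + c • s) =
    (t - c • z - totL f.hom s') + c • (z - totL f.hom s) by
      rw [map_add, map_smul, smul_sub]; abel]
  exact Submodule.add_mem (𝔞 • ⊤ : Submodule (Gr.Sn ν) (Tot B.obj)) h1 (ptk_smul c hs)

variable [Fact (W.IsHomogeneous 3)]

theorem ptk_lf (hP : StPsif W I) (hL : StLfc I) (K : Ker W I) (h : ∀ e, LF I (NY K.N e)) {n : ℕ}
    (E : GMF W n) (k : ℤ) : LF I ((K.cx E).X k).obj :=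
  cx_pr hP K E k (fun A => LF I A.obj) hL.1 hL.2.1 hL.2.2 fun _ e _ => h e

theorem ptk_fib (hF : StFib W I) (K : Ker W I) {𝔞 : Ideal (Gr.Sn ν)} {r : ℕ} {U : GMF W r}
    (h : K.Fib 𝔞 U) {n : ℕ} (E : GMF W n) {i k j : ℤ} (hi : k - 1 = i) (hj : k + 1 = j) :
    (Subsingleton (Hm U E k) → FEx ((K.cx E).d i k) ((K.cx E).d k j) 𝔞) ∧
    (FEx ((K.cx E).d i k) ((K.cx E).d k j) 𝔞 → Subsingleton (Hm U E k)) ∧
    (Module.Finite ℂ (Hm U E k) → Module.finrank ℂ (Hm U E k) ≤ 1 →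
      ∃ z, InI _ 𝔞 (totL ((K.cx E).d k j).hom z) ∧
        Sp ((K.cx E).d i k) ((K.cx E).d k j) 𝔞 z) := by
  subst hi hj
  exact hF K 𝔞 U h E k

/-- **step PTK** -/
theorem stPtk (hF : StFib W I) (h3 : StPt3 I) (hP : StPsif W I) (hL : StLfc I) : StPtk W I := by
  intro hC hS K r U h v hv
  have h2 : Module.finrank ℂ (Hm (U v) (U v) 2) = 1 :=
    (ptk_rk hC _ _ (add_zero 2)).trans (h.one v hv)
  refine h3 hS _ v hv (ptk_lf hP hL K h.lf _) (fun k hk => ?_) (fun v' hv' hc k => ?_) ?_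
    fun t ht => ?_
  · refine (hF K _ _ (h.fib v hv) (U v) k).1 ?_
    rcases hk with hk | hk
    · exact h.neg v hv k hk
    · exact ptk_sub hC _ _ (l := 2 - k) (by lia) (h.neg v hv _ (by lia))
  · exact (hF K _ _ (h.fib v' hv') (U v) k).1 (h.orth v v' hv hv' hc k)
  · obtain ⟨-, h4, h5⟩ := ptk_fib hF K (h.fib v hv) (U v) (i := 1) (k := 2) (j := 3) rfl rfl
    obtain ⟨z, hz, hs⟩ := h5 (hC _ _ 2).1 h2.le
    refine ⟨z, hz, fun s hb => ?_, hs⟩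
    have h6 : Subsingleton (Hm (U v) (U v) 2) := h4 (ptk_fex hs hb)
    rw [Module.finrank_zero_of_subsingleton] at h2
    exact zero_ne_one h2
  · obtain ⟨s, U₂, h4, h5⟩ := h.jet v t hv ht
    obtain ⟨z, -, hz⟩ := (ptk_fib hF K h4 (U v) (i := 1) (k := 2) (j := 3) rfl rfl).2.2
      (hC _ _ 2).1 ((ptk_rk hC _ _ (add_zero 2)).trans_le h5)
    exact ⟨z, hz⟩

end Vale.Agent.P287T.Fm
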