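import Mathlib.Analysis.Analytic.Uniqueness
import Vale.Agent.P287T.Fm.Exg
import Vale.Agent.P287T.Kx.L0

/-!
# A regular system of parameters at a point of the cone over a smooth surface
-/

open Filter Topology MvPolynomial

namespace Vale.Agent.P287T.Fm.La

open Vale.Agent.P287Z Vale.Agent.P287Z.Gr Vale.Agent.P287T.Kx

variable {ν : ℕ}

/-- polynomials with independent differentials form a regular sequence near the point -/
theorem reg_step {α : Type} [Fintype α] (F : α → Sn ν) (v : Fin ν → ℂ)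
    (h0 : ∀ i, eval v (F i) = 0) (hs : ∀ c : α → ℂ, ∃ t, ∀ i, dP v (F i) t = c i) (p : α → Prop)
    {j : α} (hj : ¬ p j) {h a : Sn ν} (hh : eval v h ≠ 0)
    (e : h * (F j * a) ∈ Ideal.span (Set.range fun i : Subtype p => F i)) :
    ∃ s, eval v s ≠ 0 ∧ s * a ∈ Ideal.span (Set.range fun i : Subtype p => F i) := by
  classical
  have hs' : ∀ c : Subtype p → ℂ, ∃ t, ∀ i : Subtype p, dP v (F i) t = c i := fun c =>
    (hs fun i => if h : p i then c ⟨i, h⟩ else 0).imp fun t ht i => by rw [ht, dif_pos i.2]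
  obtain ⟨d, T, ψ, -, hinj, hψ, hψ0, hk, hT, hl⟩ :=
    exists_par (fun i : Subtype p => F i) v (fun i => h0 i) hs'
  have hd : ∀ g : Sn ν, (∀ᶠ w in 𝓝 0, eval (ψ w) g = 0) → ∀ u, dP v g (fderiv ℂ ψ 0 u) = 0 :=
    fun g hg u => by
      have h1 := (hasFDerivAt_eval g (ψ 0)).comp 0 hψ.differentiableAt.hasFDerivAt
      rw [hψ0] at h1
      exact congr($(h1.unique ((hasFDerivAt_const (0 : ℂ) 0).congr_of_eventuallyEq hg)) u)
  have hT' : ∀ u, T (fderiv ℂ ψ 0 u) = u := fun u => by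
    have h1 := T.hasFDerivAt.comp 0 (hψ.differentiableAt.hasFDerivAt.sub_const v)
    exact congr($(h1.unique ((hasFDerivAt_id 0).congr_of_eventuallyEq hT)) u)
  have han : ∀ g : Sn ν, ∀ w, AnalyticAt ℂ ψ w → AnalyticAt ℂ (fun w => eval (ψ w) g) w :=
    fun g w hw => (analyticAt_eval g _).comp hw
  have h2 : ∀ᶠ w in 𝓝 0, AnalyticAt ℂ ψ w ∧ eval (ψ w) (F j) * eval (ψ w) a = 0 := by
    filter_upwards [hψ.eventually_analyticAt, hk, (han h 0 hψ).continuousAt.eventually_ne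
      (y := 0) (by rwa [hψ0])] with w h1 h2 h3
    have h4 : Ideal.span (Set.range fun i : Subtype p => F i) ≤ mv (ψ w) :=
      Ideal.span_le.2 (by rintro _ ⟨i, rfl⟩; exact h2 i)
    have h5 := mem_mv.1 (h4 e)
    rw [map_mul, map_mul] at h5
    exact ⟨h1, (mul_eq_zero.1 h5).resolve_left h3⟩
  obtain ⟨ε, hε, h3⟩ := Metric.eventually_nhds_iff_ball.1 h2
  have h4 : ∀ᶠ w in 𝓝 0, eval (ψ w) a = 0 := by
    filter_upwards [Metric.ball_mem_nhds 0 hε] with w hw
    by_contra h5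
    have h6 : Set.EqOn (fun w => eval (ψ w) (F j)) 0 (Metric.ball 0 ε) := by
      refine AnalyticOnNhd.eqOn_zero_of_preconnected_of_eventuallyEq_zero
        (fun y hy => han _ y (h3 y hy).1) (convex_ball 0 ε).isPreconnected hw ?_
      filter_upwards [Metric.isOpen_ball.mem_nhds hw,
        (han a w (h3 w hw).1).continuousAt.eventually_ne h5] with y hy h7
      exact (mul_eq_zero.1 (h3 y hy).2).resolve_right h7
    obtain ⟨t, ht⟩ := hs (Pi.single j 1)
    have h7 : fderiv ℂ ψ 0 (T t) - t = 0 := hinj _ (fun i => by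
      rw [map_sub, hd _ (hk.mono fun w hw => hw i), ht,
        Pi.single_eq_of_ne (fun e : i.1 = j => hj (e ▸ i.2)), sub_zero])
      (by rw [map_sub, hT', sub_self])
    have h8 := hd (F j) (by filter_upwards [Metric.ball_mem_nhds 0 hε] with y hy using h6 hy) (T t)
    rw [sub_eq_zero.1 h7, ht, Pi.single_eq_same] at h8
    exact one_ne_zero h8
  refine L0 (fun i : Subtype p => F i) v (fun i => h0 i) hs' ?_
  have h5 : Tendsto (fun z => T (z - v)) (𝓝 v) (𝓝 0) :=
    (T.continuous.comp (continuous_id.sub continuous_const)).tendsto' _ _ (by simp)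
  filter_upwards [hl, h5.eventually h4] with z h6 h7 h8
  rwa [h6 h8] at h7

/-- the ideal generated by the first terms of a sequence -/
def aI {R : Type} [CommRing R] (x : ℕ → R) : ℕ → Ideal R
  | 0 => ⊥
  | i + 1 => aI x i ⊔ Ideal.span {x i}

theorem aI_le {R : Type} [CommRing R] {x : ℕ → R} {J : Ideal R} {i : ℕ} (h : ∀ k < i, x k ∈ J) :
    aI x i ≤ J := by
  induction i with
  | zero => exact bot_le
  | succ i ih =>
    exact sup_le (ih fun k hk => h k (by lia)) ((Ideal.span_singleton_le_iff_mem _).2 (h i (by lia)))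

theorem mem_aI {R : Type} [CommRing R] (x : ℕ → R) {i k : ℕ} (h : k < i) : x k ∈ aI x i := by
  induction i with
  | zero => lia
  | succ i ih =>
    rcases Nat.lt_succ_iff_lt_or_eq.1 h with h | rfl
    · exact Ideal.mem_sup_left (ih h)
    · exact Ideal.mem_sup_right (Ideal.mem_span_singleton_self _)

/-- three parameters -/
theorem par3 {I : Ideal (Sn ν)} (hS : Surf I) {v : Fin ν → ℂ} (hv : Pt I v) :
    ∃ x : ℕ → Sn ν, (∀ i, x i ∈ mv v) ∧
      (∀ i < 3, ∀ a, x i * a ∈ aI x i ⊔ I → ∃ h ∉ mv v, h * a ∈ aI x i ⊔ I) ∧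
      ∃ h ∉ mv v, ∀ r ∈ mv v, h * r ∈ aI x 3 ⊔ I := by
  obtain ⟨c, g, h, hc, hg, hli, hh, hI⟩ := hS.jac v hv
  have hg0 : ∀ i, eval v (g i) = 0 := fun i => Pt.le hv (hg i)
  obtain ⟨d, T, -, hd, hinj, -⟩ := exists_par g v hg0 (surj_of_li g v hli)
  obtain rfl : d = 3 := by simp only [Fintype.card_fin] at hd; lia
  let y : Fin 3 → Sn ν := fun k => lin v ((ContinuousLinearMap.proj k).comp T)
  let F : Fin c ⊕ Fin 3 → Sn ν := Sum.elim g y
  have h0 : ∀ i, eval v (F i) = 0 := by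
    rintro (i | k)
    · exact hg0 i
    · simp [F, y, eval_lin]
  have h1 : ∀ t, (∀ i, dP v (F i) t = 0) → t = 0 := fun t ht => hinj t (fun i => ht (.inl i))
    (funext fun k => by simpa [F, y, dP_lin] using ht (.inr k))
  have hs : ∀ b : Fin c ⊕ Fin 3 → ℂ, ∃ t, ∀ i, dP v (F i) t = b i := fun b => by
    let Φ : (Fin ν → ℂ) →ₗ[ℂ] (Fin c ⊕ Fin 3 → ℂ) := LinearMap.pi fun i => dP v (F i)
    exact ((LinearMap.injective_iff_surjective_of_finrank_eq_finrank (f := Φ) (by simp [hc])).1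
      ((injective_iff_map_eq_zero _).2 fun t ht => h1 t (congrFun ht)) b).imp fun t => congrFun
  let x : ℕ → Sn ν := fun k => if hk : k < 3 then y ⟨k, hk⟩ else 0
  have hx : ∀ k (hk : k < 3), x k = F (.inr ⟨k, hk⟩) := fun k hk => dif_pos hk
  let p : ℕ → Fin c ⊕ Fin 3 → Prop := fun i => Sum.elim (fun _ => True) fun k => k < i
  have h2 : ∀ i, Ideal.span (Set.range fun l : Subtype (p i) => F l) ≤ aI x i ⊔ I := fun i =>
    Ideal.span_le.2 (by
      rintro _ ⟨⟨l | k, hk⟩, rfl⟩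
      · exact Ideal.mem_sup_right (hg l)
      · exact Ideal.mem_sup_left ((congrArg (· ∈ _) (hx k k.2)).mp (mem_aI x hk)))
  refine ⟨x, fun i => ?_, fun i hi a ha => ?_, ?_⟩
  · by_cases hi : i < 3
    · exact hx i hi ▸ h0 (.inr ⟨i, hi⟩)
    · rw [show x i = 0 from dif_neg hi]
      exact zero_mem _
  · refine (reg_step F v h0 hs (p i) (j := .inr ⟨i, hi⟩) (lt_irrefl i) hh ?_).imp
      fun s hs => ⟨hs.1, h2 i hs.2⟩
    obtain ⟨u, hu, w, hw, e⟩ := Submodule.mem_sup.1 ha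
    rw [← hx i hi, ← e, mul_add]
    refine add_mem (Ideal.mul_mem_left _ _ (aI_le (fun k hk => ?_) hu))
      (Ideal.span_mono ?_ (hI w hw))
    · exact Ideal.subset_span ⟨⟨.inr ⟨k, hk.trans hi⟩, hk⟩, (hx k _).symm⟩
    · rintro _ ⟨l, rfl⟩
      exact ⟨⟨.inl l, trivial⟩, rfl⟩
  · obtain ⟨s, hs1, hs2⟩ := gen_max v F h0 h1
    refine ⟨s, fun e => one_ne_zero (hs1.symm.trans e), fun r hr => h2 3 (Ideal.span_mono ?_
      (hs2 r hr))⟩
    rintro _ ⟨l | k, rfl⟩
    · exact ⟨⟨.inl l, trivial⟩, rfl⟩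
    · exact ⟨⟨.inr k, k.2⟩, rfl⟩

end Vale.Agent.P287T.Fm.La
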