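import Vale.Agent.P287T.Fm.Reg

/-!
# The ideal of a line in the cone over a smooth surface
-/

open MvPolynomial

namespace Vale.Agent.P287T.Fm.La

open Vale.Agent.P287Z Vale.Agent.P287Z.Gr Vale.Agent.P287T.Kx Vale.Agent.P294.V

variable {ν : ℕ} {I J : Ideal (Sn ν)} {v : Fin ν → ℂ}

theorem dP_eq_dv (v t : Fin ν → ℂ) (g : Sn ν) : dP v g t = dv v t g := by
  simp only [dP_apply, dv, mul_comm]

theorem dP_hom {g : Sn ν} {n : ℕ} (hg : g.IsHomogeneous n) (v : Fin ν → ℂ) :
    dP v g v = n * eval v g := by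
  have := congrArg (eval v) hg.sum_X_mul_pderiv
  simpa only [dP_apply, map_sum, map_mul, eval_X, nsmul_eq_mul, map_natCast, mul_comm] using this

theorem dP_rad {g : Sn ν} (hg : g ∈ ptI v) : dP v g v = 0 := by
  rw [← sum_homogeneousComponent g, dP_sum, sum_apply]
  exact Finset.sum_eq_zero fun n _ => by
    rw [dP_hom (homogeneousComponent_isHomogeneous n g), hg n, mul_zero]

theorem lin_mem {l : (Fin ν → ℂ) →L[ℂ] ℂ} (h : l v = 0) : lin v l ∈ ptI v := by
  have h1 : lin v l = lin 0 l := MvPolynomial.funext fun z => by simp [eval_lin, h]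
  refine (mem_ptI (k := 2) ?_).2 (by simp [eval_lin])
  rw [h1, lin]
  refine hga_sum _ fun k _ => ?_
  rw [Pi.zero_apply, map_zero, sub_zero, ← smul_eq_C_mul]
  exact hga_smul _ (hga_X k)

theorem cancel_rad {j : Fin ν} (hj : v j ≠ 0) {a : Sn ν} (h : (X j - C (v j)) * a ∈ ptI v) :
    a ∈ ptI v := by
  have key : ∀ k : ℤ, eval v (hpart k ((X j - C (v j)) * a)) =
      v j * (eval v (hpart (k - 2) a) - eval v (hpart k a)) := fun k => by
    have h0 : Hg 0 (-C (v j) : Sn ν) := hga_neg (isWeightedHomogeneous_C _ _)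
    rw [sub_eq_add_neg, add_mul, hpart_add, hpart_mul (hga_X j), hpart_mul h0]
    simp only [map_add, map_mul, eval_X, map_neg, eval_C, sub_zero]
    ring
  have h1 : ∀ n : ℕ, eval v (hpart (2 * (n : ℤ) - 2) a) = eval v (hpart (2 * (n : ℤ)) a) :=
    fun n => by
      have := key (2 * (n : ℤ))
      rw [hpart_two_mul, h n] at this
      exact sub_eq_zero.1 ((mul_eq_zero.1 this.symm).resolve_left hj)
  intro n
  rw [← hpart_two_mul]
  induction n with
  | zero => rw [← h1, hga_neg_eq_zero (hga_hpart _ a) (by simp), map_zero]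
  | succ n ih => rw [← h1, ← ih]; congr 2; push_cast; ring

/-- an ideal which cuts out the line to first order is locally the ideal of the line -/
theorem tang (hJ : IH J) (hle : J ≤ mv v) (h0 : v ≠ 0)
    (h : ∀ t, (∀ g ∈ J, dv v t g = 0) → ∃ c : ℂ, t = c • v) :
    ∃ h ∉ mv v, ∀ g ∈ ptI v, h * g ∈ J := by
  obtain ⟨j, hj⟩ := Function.ne_iff.1 h0
  obtain ⟨S, hS⟩ := IsNoetherian.noetherian J
  let F : Option S → Sn ν := fun o => o.elim (X j - C (v j)) Subtype.val
  have hm : ∀ g : S, g.1 ∈ J := fun g => hS.le (Submodule.subset_span g.2)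
  obtain ⟨s, hs1, hs2⟩ := gen_max v F (by
    rintro (_ | g)
    · simp [F]
    · exact hle (hm g)) fun t ht => by
      obtain ⟨c, rfl⟩ := h t fun g hg => by
        refine Submodule.span_induction (p := fun g _ => dv v t g = 0)
          (fun g hg => (dP_eq_dv v t g).symm.trans (ht (some ⟨g, hg⟩))) (by simp [dv])
          (fun a b _ _ ha hb => by rw [dv_add, ha, hb, add_zero]) (fun a b hb e => ?_) (hS.ge hg)
        rw [smul_eq_mul, dv_mul, e, mem_mv.1 (hle (hS.le hb)), mul_zero, zero_mul, add_zero]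
      have := ht none
      simp only [F, Option.elim, dP_sub, dP_C, dP_X, sub_zero, ContinuousLinearMap.proj_apply,
        Pi.smul_apply, smul_eq_mul] at this
      rw [(mul_eq_zero.1 this).resolve_right hj, zero_smul]
  have h1 : Ideal.span (Set.range F) ≤ J ⊔ Ideal.span {X j - C (v j)} := Ideal.span_le.2 (by
    rintro _ ⟨_ | g, rfl⟩
    · exact Ideal.mem_sup_right (Ideal.mem_span_singleton_self _)
    · exact Ideal.mem_sup_left (hm g))
  obtain ⟨r, hr, h2⟩ := Submodule.exists_sub_one_mem_and_smul_le_of_fg_of_le_sup (I := mv v)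
    (N := J) (IsNoetherian.noetherian (ptI v)) le_rfl fun g hg => by
      obtain ⟨u, hu, w, hw, e⟩ := Submodule.mem_sup.1 (h1 (hs2 g (ptI_le v hg)))
      obtain ⟨a, rfl⟩ := Ideal.mem_span_singleton'.1 hw
      refine unit_mem (mv_max v) (h := s) (fun e => one_ne_zero (hs1.symm.trans e))
        (fun a ha => Submodule.mem_sup_right (Submodule.smul_mem_smul ha hg)) ?_
      rw [show s • g = _ from e.symm, mul_comm a]
      refine Submodule.add_mem_sup hu (Submodule.smul_mem_smul (by simp [mem_mv])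
        (cancel_rad hj ?_))
      rw [mul_comm, eq_sub_of_add_eq' e]
      exact sub_mem (Ideal.mul_mem_left _ _ hg) (le_ptI hJ hle hu)
  refine ⟨r, fun e => ?_, fun g hg => h2 (Submodule.smul_mem_pointwise_smul g r _ hg)⟩
  simp [mem_mv.1 e, mem_mv] at hr

/-- a regular pair of linear forms which vanish on the line -/
theorem par2 (hS : Surf I) (hv : Pt I v) :
    ∃ s t, s ∈ ptI v ∧ t ∈ ptI v ∧ s ∉ I ∧ Rg I (mv v) s t := by
  obtain ⟨c, g, h, hc, hg, hli, hh, hI⟩ := hS.jac v hv
  have hg0 : ∀ i, eval v (g i) = 0 := fun i => Pt.le hv (hg i)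
  obtain ⟨d, T, -, hd, hinj, -⟩ := exists_par g v hg0 (surj_of_li g v hli)
  obtain rfl : d = 3 := by simp only [Fintype.card_fin] at hd; lia
  obtain ⟨k, hk⟩ := Function.ne_iff.1 fun e : T v = 0 =>
    hv.1 (hinj v (fun i => dP_rad (hv.2 (hg i))) e)
  let P : Fin 3 → (Fin ν → ℂ) →L[ℂ] ℂ := fun i => (ContinuousLinearMap.proj i).comp T
  let l : Option (Fin 2) → (Fin ν → ℂ) →L[ℂ] ℂ := fun o =>
    o.elim (P k) fun i => T v k • P (k.succAbove i) - T v (k.succAbove i) • P k
  let F : Fin c ⊕ Option (Fin 2) → Sn ν := Sum.elim g fun o => lin v (l o)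
  have h0 : ∀ i, eval v (F i) = 0 := by
    rintro (i | k)
    · exact hg0 i
    · simp [F, eval_lin]
  have h1 : ∀ t, (∀ i, dP v (F i) t = 0) → t = 0 := fun t ht => by
    have h2 : T t k = 0 := by simpa [F, l, P, dP_lin] using ht (.inr none)
    refine hinj t (fun i => ht (.inl i)) (funext (k.succAboveCases h2 fun i => ?_))
    have h3 : T v k * T t (k.succAbove i) = 0 := by
      simpa [F, l, P, dP_lin, h2, -mul_eq_zero] using ht (.inr (some i))
    exact (mul_eq_zero.1 h3).resolve_left hk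
  have hs : ∀ b : Fin c ⊕ Option (Fin 2) → ℂ, ∃ t, ∀ i, dP v (F i) t = b i := fun b => by
    let Φ : (Fin ν → ℂ) →ₗ[ℂ] (Fin c ⊕ Option (Fin 2) → ℂ) := LinearMap.pi fun i => dP v (F i)
    exact ((LinearMap.injective_iff_surjective_of_finrank_eq_finrank (f := Φ) (by simp [hc])).1
      ((injective_iff_map_eq_zero _).2 fun t ht => h1 t (congrFun ht)) b).imp fun t => congrFun
  have h2 : ∀ i, F (.inr (some i)) ∈ ptI v := fun i => lin_mem (by simp [l, P, mul_comm])
  refine ⟨F (.inr (some 0)), F (.inr (some 1)), h2 0, h2 1, fun e => ?_, fun a b e => ?_⟩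
  · obtain ⟨t, ht⟩ := hs (Pi.single (.inr (some 0)) 1)
    obtain ⟨a, ha⟩ := Ideal.mem_span_range_iff_exists_fun.1 (hI _ e)
    have h3 := congrArg (fun f => dP v f t) ha
    have h4 : ∀ i, dP v (g i) t = 0 := fun i => (ht (.inl i)).trans (by simp)
    simp [dP_sum, dP_mul, h4, hg0, h0, ht] at h3
    exact hh h3.symm
  · let p : Fin c ⊕ Option (Fin 2) → Prop := Sum.elim (fun _ => True) (· = some 0)
    obtain ⟨s, hs1, hs2⟩ := reg_step F v h0 hs p (j := .inr (some 1)) (by simp [p]) hh (a := a) (by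
      rw [← sub_add_cancel (F _ * a) (F (.inr (some 0)) * b), mul_add]
      refine add_mem (Ideal.span_mono ?_ (hI _ e)) (Ideal.mul_mem_left _ _
        (Ideal.mul_mem_right _ _ (Ideal.subset_span ⟨⟨.inr (some 0), rfl⟩, rfl⟩)))
      rintro _ ⟨i, rfl⟩
      exact ⟨⟨.inl i, trivial⟩, rfl⟩)
    have h3 : Ideal.span (Set.range fun i : Subtype p => F i) ≤
        I ⊔ Ideal.span {F (.inr (some 0))} := Ideal.span_le.2 (by
      rintro _ ⟨⟨i | o, hi⟩, rfl⟩
      · exact Ideal.mem_sup_left (hg i)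
      · obtain rfl : o = some 0 := hi
        exact Ideal.mem_sup_right (Ideal.mem_span_singleton_self _))
    obtain ⟨u, hu, w, hw, e'⟩ := Submodule.mem_sup.1 (h3 hs2)
    obtain ⟨a', rfl⟩ := Ideal.mem_span_singleton'.1 hw
    exact ⟨s, hs1, a', by rwa [← e', mul_comm a', add_sub_cancel_right]⟩

/-- an ideal whose zeros lie on the line contains powers of the elements of the ideal of the line -/
theorem pow_mem (h : ∀ v', (∀ c : ℂ, v' ≠ c • v) → ¬ J ≤ mv v') {s : Sn ν} (hs : s ∈ ptI v) :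
    ∃ n : ℕ, s ^ n ∈ J := nst (J := J) fun v' hv' => by
  by_contra e
  exact h v' (fun c hc => e (hc ▸ ptI_le _ (ptI_le_smul v c hs))) hv'

end Vale.Agent.P287T.Fm.La
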