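import Vale.Agent.P287T.Fm.Ten
import Vale.Agent.P287T.Fm.St2

/-!
# Block FM, step REP: dimensions from a representing cycle
-/

open CategoryTheory Limits MvPolynomial

namespace Vale.Agent.P287T.Fm

namespace Rp

open Vale.Agent.P287Z Vale.Agent.P287Z.O.V Vale.Agent.P287T.Cy

section

variable {U : Type} [AddCommGroup U] [Module ℂ U] {Z B : Submodule ℂ U}

theorem le_of_sub (h : Subsingleton (T.HQ Z B)) : Z ≤ B := fun f hf =>
  (Submodule.Quotient.mk_eq_zero (B.submoduleOf Z)).1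
    (Subsingleton.elim (Submodule.Quotient.mk ⟨f, hf⟩) 0)

theorem le_one {f : U} (hf : f ∈ Z) (h : ∀ g ∈ Z, ∃ c : ℂ, g - c • f ∈ B) :
    Module.finrank ℂ (T.HQ Z B) ≤ 1 := by
  refine finrank_le_one (Submodule.Quotient.mk ⟨f, hf⟩) fun w => ?_
  obtain ⟨⟨g, hg⟩, rfl⟩ := Submodule.Quotient.mk_surjective _ w
  obtain ⟨c, hc⟩ := h g hg
  refine ⟨c, ?_⟩
  rw [← Submodule.Quotient.mk_smul, eq_comm, Submodule.Quotient.eq]
  exact hc

end

variable {W : S6} [Fact (W.IsHomogeneous 3)] {m n : ℕ}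

theorem mX_smul {E : GMF W m} {F : GMF W n} {k l : ℤ} (c : ℂ) {f : Matrix (Fin n) (Fin m) S6}
    (hf : O.H962.HgT E F k l f) (h : O.H962.HgT E F k l (c • f)) :
    O.H962.mX (fun _ => True) (c • f) h = c • O.H962.mX (fun _ => True) f hf := by
  refine Eq.trans ?_ (O.L.matA_smul W c (hf.mask fun _ => True) (O.L.HgM.smul c (hf.mask fun _ => True)))
  refine O.L.matA_congr W _ _ ?_
  rw [O.L.mask_true, O.L.mask_true]

variable (N : O.L.GA W) (G : GMF W m) (u : (ten W N.obj).obj ((O.L.TT G).X 0)) (E : GMF W n)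
  (k : ℤ)

/-- the image of the cycle under a matrix -/
noncomputable def al : MM G.p E.p (3 * k) →ₗ[ℂ] (ten W N.obj).obj ((O.L.TT E).X k) where
  toFun f := (ten W N.obj).map (fz G E k f.2) u
  map_add' f g := by
    refine Eq.trans ?_ (ten_map_add _ _ u)
    exact congrArg (fun t => (ten W N.obj).map t u)
      (O.H962.mX_add (fun _ => True) (hgT_MM0 f.2) (hgT_MM0 g.2))
  map_smul' c f := by
    refine Eq.trans ?_ (ten_map_smul c _ u)
    exact congrArg (fun t => (ten W N.obj).map t u) (mX_smul c (hgT_MM0 f.2) _)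

theorem al_apply {f : Matrix (Fin n) (Fin m) S6} (hf : f ∈ MM G.p E.p (3 * k)) :
    al N G u E k ⟨f, hf⟩ = (ten W N.obj).map (fz G E k hf) u := rfl

variable {N G u E k}

theorem fz_d {f : Matrix (Fin n) (Fin m) S6} (hf : f ∈ ZZ G.p G.d E.p E.d (3 * k)) :
    ∃ t, fz G E k (mem_ZZ.1 hf).1 ≫ (O.L.TT E).d k (k + 1) = (O.L.TT G).d 0 1 ≫ t := by
  have h1 : O.H962.HgT G E 1 (k + 1) f := hgT_MM (by
    rw [show 3 * (k + 1) - 3 * 1 = 3 * k by ring]; exact (mem_ZZ.1 hf).1)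
  refine ⟨O.H962.mX (fun _ => True) f h1, ?_⟩
  rw [O.H962.T_dX _ E k (k + 1) rfl, O.H962.T_dX _ G 0 1 rfl, fz, O.H962.mX_comp, O.H962.mX_comp]
  exact O.H962.mX_congr _ (mem_ZZ.1 hf).2 _ _

theorem cyc (hu : dT N G 0 1 u = 0) {f : Matrix (Fin n) (Fin m) S6}
    (hf : f ∈ ZZ G.p G.d E.p E.d (3 * k)) :
    dT N E k (k + 1) ((ten W N.obj).map (fz G E k (mem_ZZ.1 hf).1) u) = 0 := by
  obtain ⟨t, ht⟩ := fz_d hf
  refine (ten_map_comp _ _ u).symm.trans ?_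
  rw [ht, ten_map_comp]
  exact (congrArg _ hu).trans (map_zero _)

end Rp

open Vale.Agent.P287Z Vale.Agent.P287Z.O.V Vale.Agent.P287T.Cy

/-- **step REP** -/
theorem stRep (W : S6) [Fact (W.IsHomogeneous 3)] : StRep W := by
  intro N m G u h n E k
  refine ⟨⟨fun h1 => T.hq_subsingleton fun f hf => (h.inj E k f hf).1 (h1 _ (Rp.cyc h.cyc hf)),
    fun h1 z hz => ?_⟩, ?_⟩
  · obtain ⟨f, hf, y, rfl⟩ := h.sur E k z hz
    obtain ⟨y', hy'⟩ := (h.inj E k f hf).2 (Rp.le_of_sub h1 hf)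
    exact ⟨y' + y, (congrArg (· + _) hy').trans (map_add _ _ _).symm⟩
  · rintro ⟨z, hz, h1⟩
    obtain ⟨f, hf, y, rfl⟩ := h.sur E k z hz
    refine Rp.le_one hf fun g hg => ?_
    obtain ⟨c, y', h2⟩ := h1 _ (Rp.cyc h.cyc hg)
    refine ⟨c, ?_⟩
    have h3 : g - c • f ∈ ZZ G.p G.d E.p E.d (3 * k) := sub_mem hg (Submodule.smul_mem _ c hf)
    refine (h.inj E k _ h3).1 ⟨c • y + y', ?_⟩
    have h4 := (Rp.al N G u E k).map_sub ⟨g, (mem_ZZ.1 hg).1⟩ (c • ⟨f, (mem_ZZ.1 hf).1⟩)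
    rw [map_smul] at h4
    refine h4.trans ((congrArg₂ (fun s t => s - c • t) h2 (Rp.al_apply N G u E k _)).trans ?_)
    rw [map_add, map_smul, smul_add]
    abel

end Vale.Agent.P287T.Fm
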