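import Vale.Agent.P287T.Fm.Reg

/-!
# Third syzygies on the cone over a smooth surface are locally free
-/

open CategoryTheory Limits MvPolynomial

namespace Vale.Agent.P287T.Fm

open Vale.Agent.P287Z Vale.Agent.P287Z.Gr

namespace La

section

variable {R : Type} [CommRing R] {I m : Ideal R} {x : ℕ → R} {K F M : Type} [AddCommGroup K]
  [Module R K] [AddCommGroup F] [Module R F] [AddCommGroup M] [Module R M]

/-- the first `j` terms of the sequence are regular on `M` near the point -/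
def PR (x : ℕ → R) (m : Ideal R) (j : ℕ) (M : Type) [AddCommGroup M] [Module R M] : Prop :=
  ∀ i < j, ∀ t : M, x i • t ∈ (aI x i • ⊤ : Submodule R M) →
    ∃ h ∉ m, h • t ∈ (aI x i • ⊤ : Submodule R M)

theorem PR.mono {j k : ℕ} (h : PR x m j M) (hk : k ≤ j) : PR x m k M :=
  fun i hi => h i (hi.trans_le hk)

theorem PR.inter (hm : m.IsPrime) {j : ℕ} (P : PR x m j M) (π : F →ₗ[R] M) {g : R} (hg : g ∉ m)
    (hs : ∀ t, ∃ y, π y = g • t) {i : ℕ} (hi : i ≤ j) :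
    ∀ y ∈ (aI x i • ⊤ : Submodule R F), π y = 0 → ∃ h ∉ m, h • y ∈ aI x i • LinearMap.ker π := by
  induction i with
  | zero =>
    intro y hy _
    rw [aI, Submodule.bot_smul, Submodule.mem_bot] at hy
    exact ⟨g, hg, by rw [hy, smul_zero]; exact zero_mem _⟩
  | succ i ih =>
    intro y hy h0
    rw [aI, Submodule.sup_smul, Submodule.ideal_span_singleton_smul] at hy
    obtain ⟨a, ha, _, ⟨f, -, rfl⟩, rfl⟩ := Submodule.mem_sup.1 hy
    change π (a + x i • f) = 0 at h0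
    obtain ⟨h, hh, h1⟩ := P i hi (π f) (by
      rw [map_add, map_smul] at h0
      rw [eq_neg_of_add_eq_zero_right h0]
      exact neg_mem (map_mem_smul π ha))
    have h2 : ∀ t ∈ (aI x i • ⊤ : Submodule R M), ∃ a ∈ (aI x i • ⊤ : Submodule R F),
        π a = g • t := fun t ht => by
      refine Submodule.smul_induction_on ht (fun r hr t _ => ?_) ?_
      · obtain ⟨y, hy⟩ := hs t
        exact ⟨r • y, Submodule.smul_mem_smul hr trivial, by rw [map_smul, hy, smul_comm]⟩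
      · rintro s t ⟨a, ha, e⟩ ⟨b, hb, e'⟩
        exact ⟨a + b, add_mem ha hb, by rw [map_add, e, e', smul_add]⟩
    obtain ⟨b, hb, e⟩ := h2 _ h1
    have h3 : π (g • h • f - b) = 0 := by rw [map_sub, e, map_smul, map_smul, sub_self]
    have h4 : g • h • (a + x i • f) = (g • h • a + x i • b) + x i • (g • h • f - b) := by module
    obtain ⟨c, hc, h5⟩ := ih (Nat.le_of_succ_le hi) (g • h • a + x i • b) (add_mem (Submodule.smul_mem _ _
      (Submodule.smul_mem _ _ ha)) (Submodule.smul_mem _ _ hb)) (by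
        rw [eq_sub_of_add_eq h4.symm, map_sub, map_smul, map_smul, h0, map_smul, h3]
        simp)
    refine ⟨c * (g * h), nm_mul hm hc (nm_mul hm hg hh), ?_⟩
    change _ • (a + x i • f) ∈ _
    rw [mul_smul, mul_smul, h4, smul_add, aI, Submodule.sup_smul]
    exact Submodule.add_mem_sup h5 (Submodule.smul_mem _ _
      (Submodule.smul_mem_smul (Ideal.mem_span_singleton_self _) h3))

theorem PR.syz (hm : m.IsPrime) {j : ℕ} (P : PR x m j M) (Q : PR x m (j + 1) F) (ι : K →ₗ[R] F)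
    (π : F →ₗ[R] M) (hι : Function.Injective ι) (hπ : Function.Surjective π)
    (e : LinearMap.ker π = LinearMap.range ι) : PR x m (j + 1) K := fun i hi t ht => by
  obtain ⟨h, hh, h1⟩ := Q i hi (ι t) (map_smul ι _ _ ▸ map_mem_smul ι ht)
  obtain ⟨c, hc, h2⟩ := P.inter hm π ((Ideal.ne_top_iff_one m).1 hm.ne_top)
    (fun t => (hπ t).imp fun _ h => h.trans (one_smul _ _).symm) (Nat.lt_succ_iff.1 hi) _ h1
    (LinearMap.mem_ker.1 (e ▸ Submodule.smul_mem _ _ ⟨t, rfl⟩))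
  rw [e, LinearMap.range_eq_map, ← Submodule.map_smul''] at h2
  obtain ⟨s, hs, h3⟩ := h2
  have h4 : s = (c * h) • t := hι (h3.trans (by rw [mul_smul, map_smul, map_smul]))
  exact ⟨c * h, nm_mul hm hc hh, h4 ▸ hs⟩

theorem coef_mem {ρ : ℕ} {n : Fin ρ → M} {g : R}
    (h : ∀ t, ∃ b : Fin ρ → R, g • t = ∑ j, b j • n j) {𝔞 : Ideal R} {t : M}
    (ht : t ∈ (𝔞 • ⊤ : Submodule R M)) :
    ∃ b : Fin ρ → R, (∀ j, b j ∈ 𝔞) ∧ g • t = ∑ j, b j • n j := by
  refine Submodule.smul_induction_on ht (fun r hr t _ => ?_) ?_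
  · obtain ⟨b, hb⟩ := h t
    exact ⟨fun j => r * b j, fun j => 𝔞.mul_mem_right _ hr, by
      simp only [mul_smul, ← Finset.smul_sum, ← hb]
      exact smul_comm _ _ _⟩
  · rintro s t ⟨a, ha, e⟩ ⟨b, hb, e'⟩
    exact ⟨a + b, fun j => add_mem (ha j) (hb j), by
      simp only [smul_add, e, e', Pi.add_apply, add_smul, Finset.sum_add_distrib]⟩

theorem pr_of_lfr (hm : m.IsPrime) {j : ℕ}
    (hx : ∀ i < j, ∀ a, x i * a ∈ aI x i ⊔ I → ∃ h ∉ m, h * a ∈ aI x i ⊔ I) (h : LFr I m M) :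
    PR x m j M := fun i hi t ht => by
  obtain ⟨ρ, n, g, hg, h1, h2⟩ := h.ex
  obtain ⟨a, ha⟩ := h1 t
  obtain ⟨b, hb, e⟩ := coef_mem h1 ht
  choose c hc h3 using fun l => hx i hi (a l) (by
    rw [← add_sub_cancel (b l) (x i * a l)]
    refine Submodule.add_mem_sup (hb l) (h2 (fun l => x i * a l - b l) ?_ l)
    simp only [sub_smul, mul_smul, Finset.sum_sub_distrib, ← Finset.smul_sum, ← ha, ← e]
    rw [smul_comm, sub_self])
  refine ⟨(∏ l, c l) * g, nm_mul hm (fun h4 => ?_) hg, ?_⟩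
  · obtain ⟨l, -, h5⟩ := hm.prod_mem_iff.1 h4
    exact hc l h5
  · rw [mul_smul, ha, Finset.smul_sum]
    refine Submodule.sum_mem _ fun l _ => ?_
    obtain ⟨u, hu, w, hw, e⟩ := Submodule.mem_sup.1 (h3 l)
    rw [← Finset.prod_erase_mul _ _ (Finset.mem_univ l), mul_smul, smul_smul (c l), ← e, add_smul,
      h.kill w hw, add_zero]
    exact Submodule.smul_mem _ _ (Submodule.smul_mem_smul hu trivial)

theorem rel_mem [IsNoetherianRing R] (hI : I.IsPrime) (hm : m.IsMaximal) (hle : I ≤ m)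
    (hk : ∀ a ∈ I, ∀ t : M, a • t = 0) {j : ℕ} (hx : ∀ i, x i ∈ m) {c : R} (hc : c ∉ m)
    (hc' : ∀ r ∈ m, c * r ∈ aI x j ⊔ I) (P : PR x m j M) {ρ : ℕ} {n : Fin ρ → M} {g : R}
    (hg : g ∉ m) (h1 : ∀ t, ∃ b : Fin ρ → R, g • t = ∑ j, b j • n j)
    (h2 : ∀ b : Fin ρ → R, ∑ j, b j • n j ∈ (m • ⊤ : Submodule R M) → ∀ j, b j ∈ m)
    (b : Fin ρ → R) (hb : ∑ j, b j • n j = 0) (l : Fin ρ) : b l ∈ I := by
  let π := Fintype.linearCombination R n
  obtain ⟨r, hr, h3⟩ := Submodule.exists_sub_one_mem_and_smul_le_of_fg_of_le_sup (I := m)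
    (N := Submodule.pi Set.univ fun _ : Fin ρ => I) (IsNoetherian.noetherian (LinearMap.ker π))
    le_rfl fun y hy => by
      choose u hu w hw e using fun l => Submodule.mem_sup.1
        (hc' _ (h2 y (by rw [show ∑ j, y j • n j = 0 from hy]; exact zero_mem _) l))
      have e' : c • y = u + w := funext fun l => (e l).symm
      obtain ⟨h, hh, h4⟩ := P.inter hm.isPrime π hg (fun t => (h1 t).imp fun _ => Eq.symm) le_rfl u
        (by
          rw [← Finset.univ_sum_single u]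
          refine Submodule.sum_mem _ fun l _ => ?_
          rw [← mul_one (u l), ← smul_eq_mul, Pi.single_smul]
          exact Submodule.smul_mem_smul (hu l) trivial)
        (by
          rw [eq_sub_of_add_eq e'.symm, map_sub, map_smul, LinearMap.mem_ker.1 hy, smul_zero,
            zero_sub, neg_eq_zero]
          change ∑ l, w l • n l = 0
          exact Finset.sum_eq_zero fun l _ => hk _ (hw l) _)
      refine unit_mem hm (nm_mul hm.isPrime hh hc)
        (fun a ha => Submodule.mem_sup_right (Submodule.smul_mem_smul ha hy)) ?_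
      rw [mul_smul, e', smul_add, add_comm]
      exact Submodule.add_mem_sup (fun l _ => I.mul_mem_left _ (hw l))
        (Submodule.smul_mono (aI_le fun k _ => hx k) le_rfl h4)
  refine (hI.mem_or_mem (h3 (Submodule.smul_mem_pointwise_smul b r _ hb) l trivial)).resolve_left
    fun h4 => hm.ne_top ((Ideal.eq_top_iff_one m).2 ?_)
  simpa using sub_mem (hle h4) hr

end

variable {ν : ℕ} {I : Ideal (Sn ν)}

theorem Fb.rank {M : Type} [AddCommGroup M] [Module (Sn ν) M] {v : Fin ν → ℂ} {σ ρ : ℕ}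
    {L : M →+ (Fin σ → ℂ)} (h : Fb v L) (hle : I ≤ mv v) {n : Fin ρ → M} {g : Sn ν} (hg : g ∉ mv v)
    (h1 : ∀ t, ∃ b : Fin ρ → Sn ν, g • t = ∑ j, b j • n j)
    (h2 : ∀ b : Fin ρ → Sn ν, ∑ j, b j • n j = 0 → ∀ j, b j ∈ I) : ρ = σ := by
  have h3 : Function.Injective (Fintype.linearCombination ℂ fun j => L (n j)) :=
    (injective_iff_map_eq_zero _).2 fun c hc => funext fun j => by
      obtain ⟨b, hb, e⟩ := coef_mem h1 ((h.ker (∑ j, (C (c j) : Sn ν) • n j)).1 (by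
        simpa only [h.sum, eval_C] using hc))
      have h4 := mem_mv.1 (hle (h2 (fun j => g * C (c j) - b j) (by
        simp only [sub_smul, mul_smul, Finset.sum_sub_distrib, ← Finset.smul_sum, e, sub_self]) j))
      rw [map_sub, mem_mv.1 (hb j), map_mul, eval_C, sub_zero] at h4
      exact (mul_eq_zero.1 h4).resolve_left hg
  simpa using (LinearEquiv.ofBijective _ ⟨h3, h.surj hg h1⟩).finrank_eq

/-- modules which are free near every point are locally free -/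
theorem lf_of_lfr [Fact (IsHom I)] (hp : I.IsPrime) (A : GA I)
    (h : ∀ v, Pt I v → LFr I (mv v) (Tot A.obj)) : LF I A.obj := by
  by_cases h0 : ∃ v, Pt I v
  swap
  · exact ⟨0, fun v hv => absurd ⟨v, hv⟩ h0⟩
  obtain ⟨v₀, h0⟩ := h0
  obtain ⟨ρ₀, n₀, g₀, hg₀, a₀, b₀⟩ := (h v₀ h0).ex
  refine ⟨ρ₀, fun v hv => ?_⟩
  obtain ⟨ρ, n, g, hg, a, b⟩ := (h v hv).ex
  obtain ⟨σ, ev, hev⟩ := exists_isQ (N := A.obj) v
  obtain ⟨L, hL⟩ := fb_of_isQ hev
  obtain ⟨u, hu, hu1, hu2⟩ : ∃ u, Pt I u ∧ g ∉ mv u ∧ g₀ ∉ mv u := by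
    by_contra! e
    exact hg₀ (Pt.le h0 (mem_of_pts hp hv hg e))
  obtain ⟨τ, ev', hev'⟩ := exists_isQ (N := A.obj) u
  obtain ⟨L', hL'⟩ := fb_of_isQ hev'
  obtain rfl : ρ₀ = σ := (hL'.rank (Pt.le hu) hu2 a₀ b₀).trans
    ((hL'.rank (Pt.le hu) hu1 a b).symm.trans (hL.rank (Pt.le hv) hg a b))
  exact ⟨ev, hev⟩

theorem tL_inj {A B : GA I} (f : A ⟶ B) [Mono f] : Function.Injective (tL f.hom) :=
  fun _ _ h => cmp_ext fun a => GA_app_injective I f a (congrArg (cmp _ a) h)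

theorem tL_surj {A B : GA I} (f : A ⟶ B) [Epi f] : Function.Surjective (tL f.hom) := fun t =>
  mem_of_sgl (Q := LinearMap.range (tL f.hom)) fun a => by
    obtain ⟨y, hy⟩ := GA_app_surjective I f a (cmp _ a t)
    exact ⟨sgl _ a y, by rw [tL_sgl, hy]⟩

theorem tL_exact {S : ShortComplex (GA I)} (h : S.Exact) :
    LinearMap.ker (tL S.g.hom) = LinearMap.range (tL S.f.hom) := by
  refine le_antisymm (fun t ht => mem_of_sgl fun a => ?_) (by rintro _ ⟨s, rfl⟩; exact tL_tL S.zero s)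
  obtain ⟨y, hy⟩ := GA_exact_apply I h a (cmp _ a t) (congrArg (cmp _ a) (LinearMap.mem_ker.1 ht))
  exact ⟨sgl _ a y, by rw [tL_sgl, hy]⟩

theorem PR.ses {x : ℕ → Sn ν} {m : Ideal (Sn ν)} (hm : m.IsPrime) {j : ℕ}
    {S : ShortComplex (GA I)} (hS : S.ShortExact) {M : GA I} (e : S.X₃ ≅ M)
    (P : PR x m j (Tot M.obj)) (Q : PR x m (j + 1) (Tot S.X₂.obj)) :
    PR x m (j + 1) (Tot S.X₁.obj) := by
  have := hS.mono_f
  have := hS.epi_g
  refine P.syz hm Q (tL S.f.hom) (tL e.hom.hom ∘ₗ tL S.g.hom) (tL_inj _)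
    ((tL_surj e.hom).comp (tL_surj S.g)) ?_
  rw [LinearMap.ker_comp_of_ker_eq_bot _ (LinearMap.ker_eq_bot.2 (tL_inj e.hom)), tL_exact hS.exact]

end La

open La

theorem stSyz {ν : ℕ} (I : Ideal (Sn ν)) [Fact (IsHom I)] : StSyz I := by
  intro hS S₀ S₁ S₂ h₀ h₁ h₂ e₁ e₂ l₀ l₁ l₂
  refine lf_of_lfr hS.prime _ fun v hv => ?_
  obtain ⟨x, hx, hr, c, hc, hc'⟩ := par3 hS hv
  have hm := (mv_max v).isPrime
  have p : ∀ A : GA I, LF I A.obj → PR x (mv v) 3 (Tot A.obj) := fun A h =>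
    pr_of_lfr hm hr (lfr hS.prime hv A h)
  have P := PR.ses hm h₂ e₂ (PR.ses hm h₁ e₁ (PR.ses hm h₀ (Iso.refl _) (j := 0)
    (fun _ hi => absurd hi (Nat.not_lt_zero _)) ((p _ l₀).mono (by lia))) ((p _ l₁).mono (by lia)))
    (p _ l₂)
  obtain ⟨ρ, ev, hev⟩ := exists_isQ (N := S₂.X₁.obj) v
  obtain ⟨L, hL⟩ := fb_of_isQ hev
  obtain ⟨n, g, hg, h1, h2⟩ := hL.gen
  exact ⟨fun _ => killGA _, ρ, n, g, hg, h1,
    rel_mem hS.prime (mv_max v) (Pt.le hv) (fun _ => killGA _) hx hc hc' P hg h1 h2⟩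

end Vale.Agent.P287T.Fm
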