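import Vale.Agent.P287T.Fm.St

/-!
# Block FM: the tensor product with free modules
-/

open CategoryTheory Limits MvPolynomial

namespace Vale.Agent.P287T.Fm

open Vale.Agent.P287Z Vale.Agent.P287Z.O.V Vale.Agent.P287T.Cy

theorem fin_obj {ν : ℕ} {N : Gr.GrS ν} (h : Gr.fg N) (b : ℤ) : Module.Finite ℂ (N.obj ⟨b⟩) := by
  obtain ⟨n, a, g, hg⟩ := h
  have h1 : ∀ i, Finite ((⟨a i⟩ : Gr.Dg ν) ⟶ ⟨b⟩) := fun i =>
    ((Finsupp.finite_of_degree_le (σ := Fin ν) (b - a i).toNat).subset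
      (t := {m : Fin ν →₀ ℕ | a i + ((m.degree : ℕ) : ℤ) = b}) fun m hm => by
        have : a i + ((m.degree : ℕ) : ℤ) = b := hm
        change Finsupp.degree m ≤ _
        lia).to_subtype
  refine ⟨Submodule.fg_def.2 ⟨Set.range
    fun x : Σ i, ((⟨a i⟩ : Gr.Dg ν) ⟶ ⟨b⟩) => N.map x.2 (g x.1), Set.finite_range _, ?_⟩⟩
  refine eq_top_iff.2 fun v _ => Submodule.span_mono ?_ (hg b v)
  rintro _ ⟨i, m, rfl⟩
  exact ⟨⟨i, m⟩, rfl⟩

variable {W : S6} {N N' : O.L.GrS} {P Q : O.L.GA W} {a b : ℤ}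

/-- evaluation of a tensor -/
def tev (z : (ten W N).obj P) : (P.obj ⟶ dgr N) →ₗ[ℂ] ℂ := z

/-- evaluation of an element of the dual -/
def dev (φ : (dgr N).obj ⟨a⟩) : N.obj ⟨-a⟩ →ₗ[ℂ] ℂ := φ

theorem ten_ext {z z' : (ten W N).obj P} (h : ∀ g, tev z g = tev z' g) : z = z' := LinearMap.ext h

theorem dev_ext {φ φ' : (dgr N).obj ⟨a⟩} (h : ∀ x, dev φ x = dev φ' x) : φ = φ' := LinearMap.ext h

theorem tev_tm (x : N.obj ⟨-a⟩) (y : P.obj.obj ⟨a⟩) (g : P.obj ⟶ dgr N) :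
    tev (tm x y) g = dev (g.app ⟨a⟩ y) x := rfl

theorem tev_add (z z' : (ten W N).obj P) (g) : tev (z + z') g = tev z g + tev z' g := rfl

theorem tev_smul (c : ℂ) (z : (ten W N).obj P) (g) : tev (c • z) g = c * tev z g := rfl

theorem tev_zero (g) : tev (0 : (ten W N).obj P) g = 0 := rfl

theorem tev_sum {τ : Type} (s : Finset τ) (z : τ → (ten W N).obj P) (g) :
    tev (∑ t ∈ s, z t) g = ∑ t ∈ s, tev (z t) g := LinearMap.sum_apply s (fun t => tev (z t)) g

theorem tev_map (f : P ⟶ Q) (z : (ten W N).obj P) (g) :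
    tev ((ten W N).map f z) g = tev z (f.hom ≫ g) := rfl

theorem tev_tenL (φ : N ⟶ N') (z : (ten W N).obj P) (g) :
    tev ((tenL W φ).app P z) g = tev z (g ≫ dgrM φ) := rfl

theorem dev_add (φ φ' : (dgr N).obj ⟨a⟩) (x) : dev (φ + φ') x = dev φ x + dev φ' x := rfl

theorem dev_smul (c : ℂ) (φ : (dgr N).obj ⟨a⟩) (x) : dev (c • φ) x = c * dev φ x := rfl

theorem dev_zero (x) : dev (0 : (dgr N).obj ⟨a⟩) x = 0 := rfl

theorem dev_sum {τ : Type} (s : Finset τ) (φ : τ → (dgr N).obj ⟨a⟩) (x) :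
    dev (∑ t ∈ s, φ t) x = ∑ t ∈ s, dev (φ t) x := LinearMap.sum_apply s (fun t => dev (φ t)) x

theorem dev_act (f : S6) (φ : (dgr N).obj ⟨a⟩) (x : N.obj ⟨-b⟩) :
    dev (O.L.act (dgr N) f a b φ) x = dev φ (O.L.act N f (-b) (-a) x) := by
  rw [O.L.act_apply_eq, O.L.act_apply_eq, dev_sum, map_sum]
  refine Finset.sum_congr rfl fun m _ => ?_
  rw [dev_smul, map_smul, smul_eq_mul]
  by_cases h : a + (m.degree : ℤ) = b
  · rw [O.L.mon_apply_of_eq m h, O.L.mon_apply_of_eq m (a := -b) (b := -a) (by lia)]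
    rfl
  · rw [O.L.mon_of_ne _ m h, O.L.mon_of_ne _ m (a := -b) (b := -a) (by lia)]
    exact congrArg _ (map_zero (dev φ)).symm

theorem killed_dgr (h : O.L.killed W N) : O.L.killed W (dgr N) := fun a b => by
  refine ModuleCat.hom_ext (LinearMap.ext fun φ => dev_ext fun x => ?_)
  refine (dev_act W φ x).trans ?_
  rw [h]
  exact map_zero (dev φ)

theorem tm_add_left (x x' : N.obj ⟨-a⟩) (y : P.obj.obj ⟨a⟩) :
    tm (x + x') y = tm x y + tm x' y := ten_ext fun g => map_add (dev (g.app ⟨a⟩ y)) x x'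

theorem tm_add_right (x : N.obj ⟨-a⟩) (y y' : P.obj.obj ⟨a⟩) :
    tm x (y + y') = tm x y + tm x y' := ten_ext fun g => by
  rw [tev_add, tev_tm, tev_tm, tev_tm, map_add, dev_add]

theorem tm_smul (c : ℂ) (x : N.obj ⟨-a⟩) (y : P.obj.obj ⟨a⟩) : tm (c • x) y = c • tm x y :=
  ten_ext fun g => map_smul (dev (g.app ⟨a⟩ y)) c x

theorem tm_smul_right (c : ℂ) (x : N.obj ⟨-a⟩) (y : P.obj.obj ⟨a⟩) :
    tm x (c • y) = c • tm x y := ten_ext fun g => by
  rw [tev_smul, tev_tm, tev_tm, map_smul, dev_smul]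

theorem tm_zero_left (y : P.obj.obj ⟨a⟩) : tm (0 : N.obj ⟨-a⟩) y = 0 :=
  ten_ext fun g => map_zero (dev (g.app ⟨a⟩ y))

theorem tm_zero_right (x : N.obj ⟨-a⟩) : tm x (0 : P.obj.obj ⟨a⟩) = 0 := ten_ext fun g => by
  rw [tev_tm, map_zero, dev_zero, tev_zero]

theorem tm_sum_left {τ : Type} (s : Finset τ) (x : τ → N.obj ⟨-a⟩) (y : P.obj.obj ⟨a⟩) :
    tm (∑ t ∈ s, x t) y = ∑ t ∈ s, tm (x t) y := ten_ext fun g => by
  rw [tev_sum, tev_tm, map_sum]
  rfl

theorem tm_sum_right {τ : Type} (s : Finset τ) (x : N.obj ⟨-a⟩) (y : τ → P.obj.obj ⟨a⟩) :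
    tm x (∑ t ∈ s, y t) = ∑ t ∈ s, tm x (y t) := ten_ext fun g => by
  rw [tev_sum, tev_tm, map_sum, dev_sum]
  rfl

theorem ten_map_tm (f : P ⟶ Q) (x : N.obj ⟨-a⟩) (y : P.obj.obj ⟨a⟩) :
    (ten W N).map f (tm x y) = tm x (f.hom.app ⟨a⟩ y) := rfl

theorem tenL_tm (φ : N ⟶ N') (x : N.obj ⟨-a⟩) (y : P.obj.obj ⟨a⟩) :
    (tenL W φ).app P (tm x y) = tm (φ.app ⟨-a⟩ x) y := rfl

theorem tm_act (g : S6) (x : N.obj ⟨-b⟩) (y : P.obj.obj ⟨a⟩) :
    tm x (O.L.act P.obj g a b y) = tm (O.L.act N g (-b) (-a) x) y := ten_ext fun h => by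
  rw [tev_tm, tev_tm, O.L.act_natural_apply, dev_act]

theorem tenL_nat (φ : N ⟶ N') (f : P ⟶ Q) (z : (ten W N).obj P) :
    (tenL W φ).app Q ((ten W N).map f z) = (ten W N').map f ((tenL W φ).app P z) :=
  congr($((tenL W φ).naturality f) z)

theorem tenL_id (z : (ten W N).obj P) : (tenL W (𝟙 N)).app P z = z :=
  ten_ext fun g => congrArg (tev z) (Category.comp_id g)

theorem tenL_comp {N'' : O.L.GrS} (φ : N ⟶ N') (ψ : N' ⟶ N'') (z : (ten W N).obj P) :
    (tenL W (φ ≫ ψ)).app P z = (tenL W ψ).app P ((tenL W φ).app P z) :=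
  ten_ext fun g => congrArg (tev z) (Category.assoc g (dgrM ψ) (dgrM φ)).symm

theorem tenL_add (φ ψ : N ⟶ N') (z : (ten W N).obj P) :
    (tenL W (φ + ψ)).app P z = (tenL W φ).app P z + (tenL W ψ).app P z := ten_ext fun g => by
  rw [tev_add, tev_tenL, tev_tenL, tev_tenL, ← map_add, ← Preadditive.comp_add]
  refine congrArg (fun t => tev z (g ≫ t)) (NatTrans.ext (funext fun a => ?_))
  exact ModuleCat.hom_ext (LinearMap.ext fun φ' => dev_ext fun x => map_add (dev φ') _ _)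

theorem tenL_smul (c : ℂ) (φ : N ⟶ N') (z : (ten W N).obj P) :
    (tenL W (c • φ)).app P z = c • (tenL W φ).app P z := ten_ext fun g => by
  rw [tev_smul, tev_tenL, tev_tenL, ← smul_eq_mul, ← map_smul, ← Linear.comp_smul]
  refine congrArg (fun t => tev z (g ≫ t)) (NatTrans.ext (funext fun a => ?_))
  exact ModuleCat.hom_ext (LinearMap.ext fun φ' => dev_ext fun x => map_smul (dev φ') _ _)

theorem tenL_zero (z : (ten W N).obj P) : (tenL W (0 : N ⟶ N')).app P z = 0 := by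
  have := tenL_smul 0 (0 : N ⟶ N') z
  rwa [zero_smul, zero_smul] at this

theorem tenL_sub (φ ψ : N ⟶ N') (z : (ten W N).obj P) :
    (tenL W (φ - ψ)).app P z = (tenL W φ).app P z - (tenL W ψ).app P z := by
  rw [eq_sub_iff_add_eq, ← tenL_add, sub_add_cancel]

theorem ten_map_add (f g : P ⟶ Q) (z : (ten W N).obj P) :
    (ten W N).map (f + g) z = (ten W N).map f z + (ten W N).map g z :=
  congr($((ten_add (W := W) N).map_add (f := f) (g := g)) z)

theorem ten_map_smul (c : ℂ) (f : P ⟶ Q) (z : (ten W N).obj P) :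
    (ten W N).map (c • f) z = c • (ten W N).map f z := ten_ext fun g => by
  rw [tev_smul, tev_map, tev_map, ← smul_eq_mul, ← map_smul, ← Linear.smul_comp]
  rfl

theorem ten_map_zero (z : (ten W N).obj P) : (ten W N).map (0 : P ⟶ Q) z = 0 := by
  have := ten_map_smul 0 (0 : P ⟶ Q) z
  rwa [zero_smul, zero_smul] at this

theorem ten_map_comp {R : O.L.GA W} (f : P ⟶ Q) (g : Q ⟶ R) (z : (ten W N).obj P) :
    (ten W N).map (f ≫ g) z = (ten W N).map g ((ten W N).map f z) :=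
  congr($((ten W N).map_comp f g) z)

theorem ten_surj (f : P ⟶ Q) [Epi f] : Function.Surjective ((ten W N).map f) := by
  refine LinearMap.dualMap_surjective_of_injective (f := Linear.leftComp ℂ (dgr N) f.hom) ?_
  have : Epi f.hom := inferInstanceAs (Epi ((O.L.grA W).ι.map f))
  exact fun g g' h => (cancel_epi f.hom).1 h

theorem gen_odd {ι : Type} [Fintype ι] {q : ι → ℤ} {i : ι} (h : ¬ Even (q i)) :
    O.L.gen W q i = 0 := dif_neg fun e => h ⟨q i / 2, by lia⟩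

variable [Fact (W.IsHomogeneous 3)]

theorem hg6 : Hg 6 W := O.L.hg_iff.2 fun m hm => by
  have : Finsupp.degree m = 3 := by
    rw [Finsupp.degree_eq_weight_one]
    exact (Fact.out : W.IsHomogeneous 3) (MvPolynomial.mem_support_iff.1 hm)
  lia

variable {ι κ : Type} [Fintype ι] [Fintype κ]

variable (N) in
/-- the tensor with the given coordinates -/
noncomputable def tv (q : ι → ℤ) (x : ∀ i, N.obj ⟨-(q i / 2)⟩) : (ten W N).obj (O.L.FrA W q) :=
  ∑ i, tm (P := O.L.FrA W q) (x i) (O.L.gen W q i)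

theorem tev_tv (q : ι → ℤ) (x : ∀ i, N.obj ⟨-(q i / 2)⟩) (g : O.L.FrO W q ⟶ dgr N) :
    tev (tv (W := W) N q x) g = ∑ i, dev (g.app _ (O.L.gen W q i)) (x i) :=
  tev_sum (P := O.L.FrA W q) _ _ g

theorem tv_add (q : ι → ℤ) (x y : ∀ i, N.obj ⟨-(q i / 2)⟩) :
    tv (W := W) N q (x + y) = tv N q x + tv N q y := by
  rw [tv, tv, tv, ← Finset.sum_add_distrib]
  exact Finset.sum_congr rfl fun i _ => tm_add_left (P := O.L.FrA W q) _ _ _

theorem tv_smul (q : ι → ℤ) (c : ℂ) (x : ∀ i, N.obj ⟨-(q i / 2)⟩) :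
    tv (W := W) N q (c • x) = c • tv N q x := by
  rw [tv, tv, Finset.smul_sum]
  exact Finset.sum_congr rfl fun i _ => tm_smul (P := O.L.FrA W q) _ _ _

variable (W N) in
/-- the coordinates, as a linear map -/
noncomputable def tvL (q : ι → ℤ) :
    (∀ i, N.obj ⟨-(q i / 2)⟩) →ₗ[ℂ] (ten W N).obj (O.L.FrA W q) where
  toFun := tv N q
  map_add' := tv_add q
  map_smul' := tv_smul q

theorem tv_sub (q : ι → ℤ) (x y : ∀ i, N.obj ⟨-(q i / 2)⟩) :
    tv (W := W) N q (x - y) = tv N q x - tv N q y := map_sub (tvL W N q) x y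

theorem tv_zero (q : ι → ℤ) : tv (W := W) N q 0 = 0 := map_zero (tvL W N q)

theorem tv_single [DecidableEq ι] (q : ι → ℤ) (i : ι) (x : N.obj ⟨-(q i / 2)⟩) :
    tv (W := W) N q (Pi.single i x) = tm (P := O.L.FrA W q) x (O.L.gen W q i) := by
  rw [tv, Finset.sum_eq_single i, Pi.single_eq_same]
  · intro j _ hj
    rw [Pi.single_eq_of_ne hj]
    exact tm_zero_left (P := O.L.FrA W q) _
  · exact fun h => absurd (Finset.mem_univ i) h

theorem desc_single [DecidableEq ι] (hN : O.L.killed W N) (q : ι → ℤ) {i : ι} (hi : Even (q i))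
    (φ : (dgr N).obj ⟨q i / 2⟩) (j : ι) :
    (O.L.desc (q := q) (killed_dgr hN) hg6 (Pi.single i φ)).app _ (O.L.gen W q j) =
      (Pi.single i φ : ∀ j, (dgr N).obj ⟨q j / 2⟩) j := by
  by_cases hj : Even (q j)
  · exact O.L.desc_gen _ _ _ j (by obtain ⟨r, hr⟩ := hj; lia)
  · rw [gen_odd hj, map_zero, Pi.single_eq_of_ne (by rintro rfl; exact hj hi)]

theorem tv_eq_zero (hN : O.L.killed W N) {q : ι → ℤ} {x : ∀ i, N.obj ⟨-(q i / 2)⟩} :
    tv (W := W) N q x = 0 ↔ ∀ i, Even (q i) → x i = 0 := by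
  classical
  refine ⟨fun h i hi => (Module.forall_dual_apply_eq_zero_iff ℂ (x i)).1 fun φ => ?_, fun h => ?_⟩
  · have h1 := tev_tv q x (O.L.desc (q := q) (killed_dgr hN) hg6
      (Pi.single i (show (dgr N).obj ⟨q i / 2⟩ from φ)))
    rw [h, Finset.sum_eq_single i, desc_single hN q hi, Pi.single_eq_same] at h1
    · exact h1.symm
    · intro j _ hj
      rw [desc_single hN q hi, Pi.single_eq_of_ne hj, dev_zero]
    · exact fun h => absurd (Finset.mem_univ i) h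
  · refine Finset.sum_eq_zero fun i _ => ?_
    by_cases hi : Even (q i)
    · rw [h i hi]
      exact tm_zero_left (P := O.L.FrA W q) _
    · rw [gen_odd hi]
      exact tm_zero_right (P := O.L.FrA W q) _

theorem tv_eq_iff (hN : O.L.killed W N) {q : ι → ℤ} {x y : ∀ i, N.obj ⟨-(q i / 2)⟩} :
    tv (W := W) N q x = tv N q y ↔ ∀ i, Even (q i) → x i = y i := by
  rw [← sub_eq_zero, ← tv_sub, tv_eq_zero hN]
  exact forall₂_congr fun i _ => sub_eq_zero

theorem tv_surj (N : O.L.GA W) (q : ι → ℤ) (z : (ten W N.obj).obj (O.L.FrA W q)) :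
    ∃ x, z = tv N.obj q x := by
  classical
  have hN := N.property.1
  have key : ∀ i, ∃ x : N.obj.obj ⟨-(q i / 2)⟩, ∀ φ : (dgr N.obj).obj ⟨q i / 2⟩,
      dev φ x = tev z (O.L.desc (q := q) (killed_dgr hN) hg6 (Pi.single i φ)) := fun i => by
    have := fin_obj (N := N.obj) N.property.2 (-(q i / 2))
    let l : Module.Dual ℂ (N.obj.obj ⟨-(q i / 2)⟩) →ₗ[ℂ] (O.L.FrO W q ⟶ dgr N.obj) :=
      { toFun := fun φ => O.L.desc (q := q) (killed_dgr hN) hg6
          (Pi.single i (show (dgr N.obj).obj ⟨q i / 2⟩ from φ))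
        map_add' := fun φ φ' => O.L.FrO.hom_ext W fun j hj => by
          refine (O.L.desc_gen _ _ _ j hj).trans (Eq.trans ?_ (congrArg₂ (· + ·)
            (O.L.desc_gen (killed_dgr hN) hg6 _ j hj) (O.L.desc_gen (killed_dgr hN) hg6 _ j hj)).symm)
          exact congrFun (Pi.single_add (f := fun j => (dgr N.obj).obj ⟨q j / 2⟩) i φ φ') j
        map_smul' := fun c φ => O.L.FrO.hom_ext W fun j hj => by
          refine (O.L.desc_gen _ _ _ j hj).trans (Eq.trans ?_ (congrArg (c • ·)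
            (O.L.desc_gen (killed_dgr hN) hg6 _ j hj)).symm)
          exact congrFun (Pi.single_smul (f := fun j => (dgr N.obj).obj ⟨q j / 2⟩) i c φ) j }
    obtain ⟨x, hx⟩ := (Module.evalEquiv ℂ (N.obj.obj ⟨-(q i / 2)⟩)).surjective
      (tev (P := O.L.FrA W q) z ∘ₗ l)
    exact ⟨x, fun φ => congr($hx φ)⟩
  choose x hx using key
  refine ⟨x, ten_ext fun (g : O.L.FrO W q ⟶ dgr N.obj) => ?_⟩
  rw [tev_tv]
  have e : g = ∑ i, O.L.desc (q := q) (killed_dgr hN) hg6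
      (Pi.single i (g.app _ (O.L.gen W q i))) := O.L.FrO.hom_ext W fun j hj => by
    rw [NatTrans.app_sum, O.L.sum_hom_apply, Finset.sum_eq_single j, O.L.desc_gen _ _ _ j hj,
      Pi.single_eq_same]
    · intro i _ hi
      rw [O.L.desc_gen _ _ _ j hj, Pi.single_eq_of_ne hi.symm]
    · exact fun h => absurd (Finset.mem_univ j) h
  exact (congrArg (tev z) e).trans ((map_sum (tev z) _ _).trans
    (Finset.sum_congr rfl fun i _ => (hx i _).symm))

theorem tenL_tv (φ : N ⟶ N') (q : ι → ℤ) (x : ∀ i, N.obj ⟨-(q i / 2)⟩) :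
    (tenL W φ).app (O.L.FrA W q) (tv N q x) = tv N' q fun i => φ.app _ (x i) := by
  rw [tv, map_sum]
  rfl

theorem ten_mat_tv {q : ι → ℤ} {q' : κ → ℤ} (f : Matrix κ ι S6) (hf : O.L.HgM q q' f)
    (x : ∀ i, N.obj ⟨-(q i / 2)⟩) : (ten W N).map (O.L.matA W f hf) (tv N q x) =
      tv N q' fun j => ∑ i, O.L.act N (f j i) (-(q i / 2)) (-(q' j / 2)) (x i) := by
  rw [tv, tv, map_sum]
  refine Eq.trans ?_ (Finset.sum_congr rfl fun j _ =>
    tm_sum_left (P := O.L.FrA W q') Finset.univ _ (O.L.gen W q' j)).symm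
  rw [Finset.sum_comm]
  refine Finset.sum_congr rfl fun i _ => ?_
  by_cases hi : Even (q i)
  · have h1 : q i = 2 * (q i / 2) := by obtain ⟨r, hr⟩ := hi; lia
    refine (congrArg (tm (P := O.L.FrA W q') (x i))
      ((O.L.matO_gen W f hf i h1).trans (O.L.FrO.mk_eq_sum W _))).trans ?_
    refine (tm_sum_right (P := O.L.FrA W q') _ _ _).trans (Finset.sum_congr rfl fun j _ => ?_)
    exact tm_act (P := O.L.FrA W q') _ _ _
  · rw [gen_odd hi]
    refine (congrArg _ (tm_zero_right (P := O.L.FrA W q) _)).trans ((map_zero _).trans ?_)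
    refine (Finset.sum_eq_zero fun j _ => ?_).symm
    by_cases hj : Even (q' j)
    · rw [O.L.hga_odd_eq_zero (hf j i) (by
        rw [Int.not_even_iff_odd] at hi; obtain ⟨r, hr⟩ := hi; obtain ⟨s, hs⟩ := hj; lia),
        O.L.act_zero_apply]
      exact tm_zero_left (P := O.L.FrA W q') _
    · rw [gen_odd hj]
      exact tm_zero_right (P := O.L.FrA W q') _

end Vale.Agent.P287T.Fm
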