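import Vale.Agent.P287T.Fm.UnitB
import Vale.Agent.P287T.Fm.Main0
import Vale.Agent.P287T.Fm.O1

/-!
# Block FM, step UNIT
-/

open CategoryTheory Limits MvPolynomial HomologicalComplex

universe w v u

namespace Vale.Agent.P287T.Fm.UnC

open Vale.Agent.P287Z Vale.Agent.P287Z.O.V Vale.Agent.P287T.Cy Vale.Agent.P287T.Fm.Hy

theorem g5 {A B C D : Type*} [Category A] [Category B] [Category C] [Category D]
    [HasZeroMorphisms A] [HasZeroMorphisms B] [HasZeroMorphisms C] (F : A ⥤ B) (G : B ⥤ C)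
    {_ : F.PreservesZeroMorphisms} {_ : G.PreservesZeroMorphisms}
    {_ : (F ⋙ G).PreservesZeroMorphisms} (p p' p'' : IsRightCancelAdd ℤ)
    (Q : CochainComplex C ℤ ⥤ D) : @Eq (CochainComplex A ℤ ⥤ D)
      ((F ⋙ G).mapHomologicalComplex (@ComplexShape.up ℤ _ p _) ⋙ Q)
      (F.mapHomologicalComplex (@ComplexShape.up ℤ _ p'' _) ⋙
        G.mapHomologicalComplex (@ComplexShape.up ℤ _ p' _) ⋙ Q) := rfl

variable {ν : ℕ} {W : S6} {I : Ideal (Gr.Sn ν)} [Fact (W.IsHomogeneous 3)]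
  (Ψ : O.L.GA W ⥤ Gr.GA I) [Ψ.Additive]

/-- the functor on complexes -/
noncomputable def PP : CochainComplex (O.L.GA W) ℤ ⥤ CochainComplex (Gr.GA I) ℤ :=
  Ψ.mapHomologicalComplex (ComplexShape.up ℤ)

/-- the cycle `u` represents the cohomology in degree `m` -/
def Rp (m : ℤ) {n : ℕ} (G : GMF W n) (u : (Ψ.obj ((O.L.TT G).X 0)).obj.obj ⟨m⟩) : Prop :=
  (Ψ.map ((O.L.TT G).d 0 1)).hom.app ⟨m⟩ u = 0 ∧ ∀ {n' : ℕ} (E : GMF W n') (k : ℤ),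
    ∃ Φ : ZZ G.p G.d E.p E.d (3 * k) →ₗ[ℂ] (Ψ.obj ((O.L.TT E).X k)).obj.obj ⟨m⟩,
      FibI (BB G.p G.d E.p E.d (3 * k)) ((Ψ.map ((O.L.TT E).d (k - 1) k)).hom.app ⟨m⟩).hom
        ((Ψ.map ((O.L.TT E).d k (k + 1))).hom.app ⟨m⟩).hom Φ ∧
      ∀ f, Φ f = (Ψ.map (fz G E k (mem_ZZ.1 f.2).1)).hom.app ⟨m⟩ u

theorem d_fz {m n : ℕ} (G : GMF W m) (E : GMF W n) {f : Matrix (Fin n) (Fin m) S6}
    (hf : f ∈ ZZ G.p G.d E.p E.d (3 * 2)) : (O.L.TT G).d (-1) 0 ≫ fz G E 2 (mem_ZZ.1 hf).1 =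
      fm G E (-1) 1 (mem_ZZ.1 hf).1 ≫ (O.L.TT E).d 1 2 := by
  rw [O.H962.T_dX _ E 1 2 rfl, O.H962.T_dX _ G (-1) 0 rfl, fz, fm, O.H962.mX_comp,
    O.H962.mX_comp]
  exact O.H962.mX_congr _ (mem_ZZ.1 hf).2.symm _ _

theorem nb_of {A B A' B' : Gr.GA I} {f : A ⟶ B} {f' : A' ⟶ B'} {a : A ⟶ A'} {b : B ⟶ B'}
    (e : f ≫ b = a ≫ f') {v : Fin ν → ℂ} {m : ℤ} {u : B.obj.obj ⟨m⟩} {z : B'.obj.obj ⟨m⟩}
    {y : A'.obj.obj ⟨m⟩} (h : z = b.hom.app ⟨m⟩ u + f'.hom.app ⟨m⟩ y)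
    (hz : NB f' v (DFinsupp.single m z)) : NB f v (DFinsupp.single m u) := fun s hs => by
  refine hz (totL a.hom s + DFinsupp.single m y) ?_
  have h1 := La.inI_map b.hom hs
  rw [map_sub, totL_comp' e, ← totL_comp' rfl, totL_single'] at h1
  rwa [h, DFinsupp.single_add, map_add, totL_single', add_sub_add_right_eq_sub]

variable {Ψ} {m : ℤ} {n : ℕ} {G : GMF W n} {u : (Ψ.obj ((O.L.TT G).X 0)).obj.obj ⟨m⟩}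

omit [Fact (W.IsHomogeneous 3)] in
theorem cl_zz {n' : ℕ} {E : GMF W n'} {f : Matrix (Fin n') (Fin n) S6} :
    Cl G E f ↔ f ∈ ZZ G.p G.d E.p E.d (3 * 0) := by
  simp only [Cl, mem_ZZ, mem_MM, mul_zero, zero_add]

omit [Fact (W.IsHomogeneous 3)] in
theorem nh_bb {n' : ℕ} {E : GMF W n'} {f : Matrix (Fin n') (Fin n) S6}
    (h : f ∈ BB G.p G.d E.p E.d (3 * 0)) : Nh G E f := by
  obtain ⟨g, h1, h2⟩ := h
  refine ⟨g, fun i j => ?_, h2⟩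
  have := h1 i j
  rwa [show 3 * 0 - 3 + G.p j - E.p i = G.p j - E.p i - 3 by ring] at this

variable [Fact (IsHom I)]

theorem bij0 {𝒟 : Type u} [Category.{v} 𝒟] [Preadditive 𝒟]
    (Θ : CochainComplex (Gr.GA I) ℤ ⥤ 𝒟) [Θ.Additive] {C D : CochainComplex (Gr.GA I) ℤ}
    (φ : Fr I m ⟶ C.X 0) (h : φ ≫ C.d 0 1 = 0) [IsIso (Θ.map (ofCyc φ h))]
    (h1 : ∀ g : Θ.obj ((single _ (ComplexShape.up ℤ) 0).obj (Fr I m)) ⟶ Θ.obj D,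
      ∃ f, Θ.map f = g)
    (h2 : ∀ f : (single _ (ComplexShape.up ℤ) 0).obj (Fr I m) ⟶ D,
      Θ.map f = 0 ↔ Nonempty (Homotopy f 0)) :
    (∀ g : Θ.obj C ⟶ Θ.obj D, ∃ x : (D.X 0).obj.obj ⟨m⟩, (D.d 0 1).hom.app ⟨m⟩ x = 0 ∧
      ∀ (c : C ⟶ D) (y : (D.X (-1)).obj.obj ⟨m⟩),
        x = (c.f 0).hom.app ⟨m⟩ (vl φ) + (D.d (-1) 0).hom.app ⟨m⟩ y → Θ.map c = g) ∧
    ∀ c : C ⟶ D, Θ.map c = 0 →
      ∃ y, (c.f 0).hom.app ⟨m⟩ (vl φ) = (D.d (-1) 0).hom.app ⟨m⟩ y := by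
  have key : ∀ c : C ⟶ D, vl ((singleObjXSelf _ 0 (Fr I m)).inv ≫ (ofCyc φ h ≫ c).f 0) =
      (c.f 0).hom.app ⟨m⟩ (vl φ) := fun c => by
    rw [comp_f, ← Category.assoc, ofCyc_f, vl_comp]
  refine ⟨fun g => ?_, fun c h3 => ?_⟩
  · obtain ⟨f', h3⟩ := h1 (Θ.map (ofCyc φ h) ≫ g)
    refine ⟨vl ((singleObjXSelf _ 0 (Fr I m)).inv ≫ f'.f 0), ?_, fun c y h4 => ?_⟩
    · rw [← vl_comp, Category.assoc, f'.comm, (isZero_single_obj_X (ComplexShape.up ℤ) 0 (Fr I m)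
        1 one_ne_zero).eq_of_src (f'.f 1) 0, comp_zero, comp_zero, vl_zero]
    obtain ⟨y', rfl⟩ := vl_surj y
    have h5 := (h2 (f' - ofCyc φ h ≫ c)).2 ((htpy_single_iff _).2 ⟨y', vl_inj (by
      rw [sub_f_apply, Preadditive.comp_sub, vl_sub, key, h4, vl_comp, add_sub_cancel_left])⟩)
    rw [Θ.map_sub, sub_eq_zero, h3, Θ.map_comp, cancel_epi] at h5
    exact h5.symm
  · obtain ⟨y, hy⟩ := (htpy_single_iff _).1 ((h2 (ofCyc φ h ≫ c)).1 (by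
      rw [Θ.map_comp, h3, comp_zero]))
    exact ⟨vl y, (key c).symm.trans (congrArg vl hy)⟩

theorem bij {𝒟 : Type u} [Category.{v} 𝒟] [Preadditive 𝒟]
    (Θ : CochainComplex (Gr.GA I) ℤ ⥤ 𝒟) [Θ.Additive] (hR : Rp Ψ m G u)
    (φ : Fr I m ⟶ ((PP Ψ).obj (O.L.TT G)).X 0) (hφ : vl φ = u)
    (h : φ ≫ ((PP Ψ).obj (O.L.TT G)).d 0 1 = 0) (hi : IsIso (Θ.map (ofCyc φ h)))
    {n' : ℕ} (E : GMF W n')
    (h1 : ∀ g : Θ.obj ((single _ (ComplexShape.up ℤ) 0).obj (Fr I m)) ⟶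
      Θ.obj ((PP Ψ).obj (O.L.TT E)), ∃ f, Θ.map f = g)
    (h2 : ∀ f : (single _ (ComplexShape.up ℤ) 0).obj (Fr I m) ⟶ (PP Ψ).obj (O.L.TT E),
      Θ.map f = 0 ↔ Nonempty (Homotopy f 0)) :
    (∀ g : o1ob (PP Ψ ⋙ Θ) G ⟶ o1ob (PP Ψ ⋙ Θ) E, ∃ f, ∃ hf : Cl G E f,
      o1mp (PP Ψ ⋙ Θ) hf = g) ∧ ∀ f (hf : Cl G E f), o1mp (PP Ψ ⋙ Θ) hf = 0 → Nh G E f := by
  obtain ⟨Φ, hI, hΦ⟩ := hR.2 E 0
  obtain ⟨h3, h4⟩ := bij0 Θ φ h h1 h2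
  rw [hφ] at h3 h4
  refine ⟨fun g => ?_, fun f hf h5 => ?_⟩
  · obtain ⟨x, h5, h6⟩ := h3 g
    obtain ⟨f, y, h7⟩ := hI.sur x h5
    rw [hΦ] at h7
    exact ⟨f.1, cl_zz.2 f.2, h6 ((PP Ψ).map (O.L.Tf (cl_zz.2 f.2) fun _ => True)) y h7⟩
  · obtain ⟨y, hy⟩ := h4 ((PP Ψ).map (O.L.Tf hf fun _ => True)) h5
    exact nh_bb ((hI.inj ⟨f, cl_zz.1 hf⟩).1 ⟨y, (hΦ _).trans hy⟩)

variable [HasDerivedCategory.{w} (P294Z.Coh (PI I))]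

theorem iso (hC : CY W) (hS : Surf I) (hR : Rp Ψ m G u) {r : (Fin ν → ℂ) → ℕ}
    (U : ∀ v, GMF W (r v)) (cx : ∀ {n : ℕ}, GMF W n → CochainComplex (Gr.GA I) ℤ)
    (hcx : ∀ {n : ℕ} (E : GMF W n), cx E = (PP Ψ).obj (O.L.TT E))
    (hl : ∀ k, LF I ((cx G).X k).obj)
    (hF : ∀ v, Pt I v → ∀ k, k ≠ 0 → Subsingleton (Hm (U v) G k) →
      FEx ((cx G).d (k - 1) k) ((cx G).d k (k + 1)) (mv v))
    (hF' : ∀ v, Pt I v → Module.finrank ℂ (Hm (U v) G 0) ≤ 1 →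
      ∃ z, Sp ((cx G).d (-1) 0) ((cx G).d 0 1) (mv v) z)
    (hH : ∀ v, Pt I v → (∀ k, k ≠ 2 → ∀ z : ((cx (U v)).X k).obj.obj ⟨m⟩,
      ((cx (U v)).d k (k + 1)).hom.app ⟨m⟩ z = 0 →
        ∃ y, z = ((cx (U v)).d (k - 1) k).hom.app ⟨m⟩ y) ∧
      ∃ z : ((cx (U v)).X 2).obj.obj ⟨m⟩, ((cx (U v)).d 2 3).hom.app ⟨m⟩ z = 0 ∧
        NB ((cx (U v)).d 1 2) v (DFinsupp.single m z) ∧ ∀ z' : ((cx (U v)).X 2).obj.obj ⟨m⟩,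
          ((cx (U v)).d 2 3).hom.app ⟨m⟩ z' = 0 →
            ∃ (c : ℂ) (y : _), z' = c • z + ((cx (U v)).d 1 2).hom.app ⟨m⟩ y) :
    ∃ (φ : Fr I m ⟶ ((PP Ψ).obj (O.L.TT G)).X 0) (h : φ ≫ ((PP Ψ).obj (O.L.TT G)).d 0 1 = 0),
      vl φ = u ∧ IsIso ((QS I).map (ofCyc φ h)) := by
  obtain rfl : @cx = fun _ E => (PP Ψ).obj (O.L.TT E) := funext fun _ => funext hcx
  obtain ⟨φ, hφ⟩ := vl_surj (N := ((PP Ψ).obj (O.L.TT G)).X 0) u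
  have h : φ ≫ ((PP Ψ).obj (O.L.TT G)).d 0 1 = 0 := vl_inj (by
    rw [vl_comp, hφ]
    exact hR.1)
  refine ⟨φ, h, hφ, unit_cx (stExg I) hS.prime hS.ne hl φ h (fun v hv k hk => ?_)
    (fun v hv => ?_) fun v hv => ?_⟩
  · obtain ⟨Φ, hI, -⟩ := hR.2 (U v) (2 - k)
    exact hF v hv k hk (ptk_sub hC _ _ (l := 2 - k) (by lia)
      (hI.sub_iff.1 ((hH v hv).1 (2 - k) (by lia))))
  · obtain ⟨Φ, hI, -⟩ := hR.2 (U v) 2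
    obtain ⟨z, h1, -, h2⟩ := (hH v hv).2
    exact hF' v hv ((ptk_rk hC _ _ (zero_add 2)).trans_le (hI.le_one ⟨z, h1, h2⟩))
  · obtain ⟨Φ, hI, hΦ⟩ := hR.2 (U v) 2
    obtain ⟨z, h1, h2, -⟩ := (hH v hv).2
    obtain ⟨f, y, h3⟩ := hI.sur z h1
    rw [hφ]
    rw [hΦ] at h3
    exact nb_of (((Ψ.map_comp _ _).symm.trans (congrArg Ψ.map (d_fz G (U v) f.2))).trans
      (Ψ.map_comp _ _)) h3 h2

theorem un (hR : Rp Ψ m G u) (Q : CochainComplex (O.L.GA W) ℤ ⥤ DerivedCategory (P294Z.Coh (PI I)))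
    (hQ : Q = PP Ψ ⋙ QS I) (cx : ∀ {n : ℕ}, GMF W n → CochainComplex (Gr.GA I) ℤ)
    (hcx : ∀ {n : ℕ} (E : GMF W n), cx E = (PP Ψ).obj (O.L.TT E))
    (hi : ∃ (φ : Fr I m ⟶ ((PP Ψ).obj (O.L.TT G)).X 0)
      (h : φ ≫ ((PP Ψ).obj (O.L.TT G)).d 0 1 = 0), vl φ = u ∧ IsIso ((QS I).map (ofCyc φ h)))
    {m₀ : ℤ} (hm : m₀ ≤ m) (hb : ∀ {n : ℕ} (E : GMF W n), ∃ b, (cx E).IsStrictlyGE b)
    (hs : ∀ {n : ℕ} (E : GMF W n) (j : ℤ), SV I m₀ ((cx E).X j)) :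
    Nonempty ((sg I).obj (Om I m) ≅ o1ob Q G) ∧ ∀ {n' : ℕ} (E : GMF W n'),
      (∀ g : o1ob Q G ⟶ o1ob Q E, ∃ f, ∃ hf : Cl G E f, o1mp Q hf = g) ∧
      ∀ f (hf : Cl G E f), o1mp Q hf = 0 → Nh G E f := by
  subst hQ
  obtain ⟨φ, h, hφ, hi⟩ := hi
  refine ⟨⟨sgIso (Fr I m) 0 ≪≫ @asIso _ _ _ _ _ hi⟩, fun E => ?_⟩
  obtain ⟨b, hb⟩ := hb E
  have h1 := stAdj0 m₀ _ b hb (hs E) m hm 0
  rw [hcx] at h1
  exact bij (QS I) hR φ hφ h hi E h1.1 h1.2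

omit [Fact (IsHom I)] [HasDerivedCategory.{w} (P294Z.Coh (PI I))] in
theorem rp (K : Ker W I) [K.psi.Additive] {u : (ten W (K.N.obj ⟨m⟩).obj).obj ((O.L.TT G).X 0)}
    (h : Rep (K.N.obj ⟨m⟩) G u) : Rp K.psi m G u :=
  ⟨h.cyc, fun E k => ⟨fibP _ G u E k, h.fibI E k, fun _ => rfl⟩⟩

omit [Fact (IsHom I)] [HasDerivedCategory.{w} (P294Z.Coh (PI I))] in
theorem cx_pp (K : Ker W I) [K.psi.Additive] {n : ℕ} (E : GMF W n) :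
    K.cx E = (PP K.psi).obj (O.L.TT E) := by
  unfold Ker.cx PP
  exact cx_g4 _ _ _ _

omit [Fact (W.IsHomogeneous 3)] in
theorem q_pp (K : Ker W I) [K.psi.Additive] : K.Q = PP K.psi ⋙ QS I := by
  unfold Ker.Q Ker.F PP
  exact g5 _ _ _ _ _ _

/-- **step UNIT** -/
theorem stUnit : StUnit W I := by
  intro hC hS K r U m₀ h hg m hm n G u hR
  have := K.psi_add
  have hs : ∀ {n : ℕ} (E : GMF W n) (j : ℤ), SV I m₀ ((K.cx E).X j) := fun E j =>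
    cx_pr (stPsif I W) K E j (SV I m₀) (fun _ _ => SV.iso) (fun _ => SV.zero)
      (fun _ _ => SV.biprod) fun _ e _ => hg e
  have hF : StFib W I := main_fib (main_ne hC)
  exact un (rp K hR) K.Q (q_pp K) K.cx (cx_pp K) (iso hC hS (rp K hR) U K.cx (cx_pp K)
    (ptk_lf (stPsif I W) (stLfc I) K h.lf G)
    (fun v hv k _ => (hF K _ _ (h.fib v hv) G k).1)
    (fun v hv h1 => ((ptk_fib hF K (h.fib v hv) G (i := -1) (k := 0) (j := 1) rfl rfl).2.2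
      (hC _ _ 0).1 h1).imp fun _ h => h.2)
    fun v hv => (bdd_ge (stPsif I W) K (U v)).elim fun b hb =>
      (stHyp I _ v hv (main_ptk hC hS K r U h v hv)).2 m₀ b hb (hs _) m hm)
    hm (bdd_ge (stPsif I W) K) hs

end Vale.Agent.P287T.Fm.UnC
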