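import Vale.Agent.P287T.Fm.UnitB
import Vale.Agent.P287T.Fm.Main0
import Vale.Agent.P287T.Fm.Rp
import Vale.Agent.P287T.Fm.O1

/-!
# Block FM: step UNIT, for a variable functor
-/

set_option linter.unusedSectionVars false

open CategoryTheory Limits MvPolynomial HomologicalComplex

universe w v u

namespace Vale.Agent.P287T.Fm.Uc

open Vale.Agent.P287Z Vale.Agent.P287Z.O.V Vale.Agent.P287T.Cy Vale.Agent.P287T.Fm.Hy
  Vale.Agent.P287T.Fm.La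

variable {ν : ℕ} {W : S6} {I : Ideal (Gr.Sn ν)}

theorem nb_of {A B A' B' : Gr.GA I} {f : A ⟶ B} {f' : A' ⟶ B'} {a : A ⟶ A'} {b : B ⟶ B'}
    (e : f ≫ b = a ≫ f') {v : Fin ν → ℂ} {m : ℤ} {u : B.obj.obj ⟨m⟩} {y : A'.obj.obj ⟨m⟩}
    (h : NB f' v (DFinsupp.single m (b.hom.app ⟨m⟩ u + f'.hom.app ⟨m⟩ y))) :
    NB f v (DFinsupp.single m u) := fun s hs => by
  refine h (totL a.hom s + DFinsupp.single m y) ?_
  have := La.inI_map b.hom hs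
  rw [map_sub, totL_single', totL_comp' e, ← totL_comp' (f := a) (g := f') rfl] at this
  rwa [map_add, totL_single', DFinsupp.single_add, add_sub_add_right_eq_sub]

section

variable [Fact (IsHom I)] [HasDerivedCategory.{w} (P294Z.Coh (PI I))]

theorem adj {m₀ m b : ℤ} (hm : m ≥ m₀) {C C' : CochainComplex (Gr.GA I) ℤ} (φ : Fr I m ⟶ C.X 0)
    (h : φ ≫ C.d 0 1 = 0) (hi : IsIso ((QS I).map (ofCyc φ h))) (hb : C'.IsStrictlyGE b)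
    (hs : ∀ j, SV I m₀ (C'.X j)) :
    (∀ g : (QS I).obj C ⟶ (QS I).obj C', ∃ z : (C'.X 0).obj.obj ⟨m⟩,
      (C'.d 0 1).hom.app ⟨m⟩ z = 0 ∧ ∀ (f : C ⟶ C') y,
        z = (f.f 0).hom.app ⟨m⟩ (vl φ) + (C'.d (-1) 0).hom.app ⟨m⟩ y → (QS I).map f = g) ∧
    ∀ f : C ⟶ C', (QS I).map f = 0 →
      ∃ y, (f.f 0).hom.app ⟨m⟩ (vl φ) = (C'.d (-1) 0).hom.app ⟨m⟩ y := by
  obtain ⟨h1, h2⟩ := stAdj0 m₀ C' b hb hs m hm 0
  have e : ∀ f : C ⟶ C', (singleObjXSelf _ 0 _).inv ≫ (ofCyc φ h ≫ f).f 0 = φ ≫ f.f 0 :=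
    fun f => by rw [comp_f, ← Category.assoc, ofCyc_f]
  refine ⟨fun g => ?_, fun f hf => ?_⟩
  · obtain ⟨f₀, h0⟩ := h1 ((QS I).map (ofCyc φ h) ≫ g)
    refine ⟨vl ((singleObjXSelf _ 0 _).inv ≫ f₀.f 0), ?_, fun f y hy => ?_⟩
    · rw [← vl_comp, Category.assoc, f₀.comm, single_obj_d, zero_comp, comp_zero, vl_zero]
    · obtain ⟨y', rfl⟩ := vl_surj y
      have h3 := (h2 (f₀ - ofCyc φ h ≫ f)).2 ((htpy_single_iff _).2 ⟨y', vl_inj (by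
        rw [sub_f_apply, Preadditive.comp_sub, vl_sub, hy, e, vl_comp, vl_comp,
          add_sub_cancel_left])⟩)
      rw [Functor.map_sub, sub_eq_zero, h0, Functor.map_comp] at h3
      exact ((cancel_epi _).1 h3).symm
  · obtain ⟨y, hy⟩ := (htpy_single_iff _).1 ((h2 (ofCyc φ h ≫ f)).1 (by
      rw [Functor.map_comp, hf, comp_zero]))
    exact ⟨vl y, congrArg vl ((e f).symm.trans hy)⟩

end

variable [Fact (W.IsHomogeneous 3)]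

/-- `Rep` for a variable functor -/
structure RepT (τ : O.L.GA W ⥤ ModuleCat.{0} ℂ) {m : ℕ} (G : GMF W m)
    (u : τ.obj ((O.L.TT G).X 0)) : Prop where
  cyc : τ.map ((O.L.TT G).d 0 1) u = 0
  sur : ∀ {n : ℕ} (E : GMF W n) (k : ℤ) (z : τ.obj ((O.L.TT E).X k)),
    τ.map ((O.L.TT E).d k (k + 1)) z = 0 → ∃ (f : Matrix (Fin n) (Fin m) S6)
      (hf : f ∈ ZZ G.p G.d E.p E.d (3 * k)) (y : τ.obj ((O.L.TT E).X (k - 1))),
      z = τ.map (fz G E k (mem_ZZ.1 hf).1) u + τ.map ((O.L.TT E).d (k - 1) k) y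
  inj : ∀ {n : ℕ} (E : GMF W n) (k : ℤ) (f : Matrix (Fin n) (Fin m) S6)
    (hf : f ∈ ZZ G.p G.d E.p E.d (3 * k)),
    (∃ y, τ.map (fz G E k (mem_ZZ.1 hf).1) u = τ.map ((O.L.TT E).d (k - 1) k) y) ↔
      f ∈ BB G.p G.d E.p E.d (3 * k)
  dim : ∀ {n : ℕ} (E : GMF W n) (k : ℤ),
    ((∀ z, τ.map ((O.L.TT E).d k (k + 1)) z = 0 →
      ∃ y, z = τ.map ((O.L.TT E).d (k - 1) k) y) ↔ Subsingleton (Hm G E k)) ∧
    ((∃ z, τ.map ((O.L.TT E).d k (k + 1)) z = 0 ∧ ∀ z', τ.map ((O.L.TT E).d k (k + 1)) z' = 0 →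
      ∃ (c : ℂ) (y : _), z' = c • z + τ.map ((O.L.TT E).d (k - 1) k) y) →
      Module.finrank ℂ (Hm G E k) ≤ 1)

theorem repT {N : O.L.GA W} {m : ℕ} {G : GMF W m} {u} (h : Rep N G u) : RepT (ten W N.obj) G u :=
  ⟨h.cyc, h.sur, h.inj, stRep W N G u h⟩

theorem fz_d {m n : ℕ} (G : GMF W m) (E : GMF W n) {f : Matrix (Fin n) (Fin m) S6}
    (hf : f ∈ ZZ G.p G.d E.p E.d (3 * 2)) : ∃ a : (O.L.TT G).X (-1) ⟶ (O.L.TT E).X (2 - 1),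
    (O.L.TT G).d (-1) 0 ≫ fz G E 2 (mem_ZZ.1 hf).1 = a ≫ (O.L.TT E).d (2 - 1) 2 := by
  refine ⟨O.H962.mX (fun _ => True) f (hgT_MM (k := -1) (l := 2 - 1) hf.1), ?_⟩
  rw [O.H962.T_dX _ G _ _ (by norm_num), O.H962.T_dX _ E _ _ (by norm_num), fz, O.H962.mX_comp,
    O.H962.mX_comp]
  exact O.H962.mX_congr _ hf.2.symm _ _

theorem cl_iff {m n : ℕ} {G : GMF W m} {E : GMF W n} {f : Matrix (Fin n) (Fin m) S6} :
    Cl G E f ↔ f ∈ ZZ G.p G.d E.p E.d (3 * 0) :=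
  and_congr_left fun _ => forall₂_congr fun i j => by rw [mul_zero, zero_add]

theorem nh_of {m n : ℕ} {G : GMF W m} {E : GMF W n} {f : Matrix (Fin n) (Fin m) S6}
    (h : f ∈ BB G.p G.d E.p E.d (3 * 0)) : Nh G E f := by
  obtain ⟨g, h1, h2⟩ := h
  exact ⟨g, fun i j => by
    rw [show G.p j - E.p i - 3 = 3 * 0 - 3 + G.p j - E.p i by ring]; exact h1 i j, h2⟩

theorem tf_zero {m n : ℕ} {G : GMF W m} {E : GMF W n} {f : Matrix (Fin n) (Fin m) S6}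
    (hf : Cl G E f) : (O.L.Tf hf fun _ => True).f 0 = fz G E 0 (mem_ZZ.1 (cl_iff.1 hf)).1 := rfl

variable (ψ : O.L.GA W ⥤ Gr.GA I)

/-- the part of degree `m` -/
noncomputable def evm (m : ℤ) : O.L.GA W ⥤ ModuleCat.{0} ℂ :=
  ψ ⋙ (Gr.grA I).ι ⋙ (evaluation _ _).obj ⟨m⟩

theorem evm_psi (K : Ker W I) (m : ℤ) : ten W (K.N.obj ⟨m⟩).obj = evm K.psi m := rfl

/-- the functor on complexes -/
noncomputable def PC [ψ.Additive] : CochainComplex (O.L.GA W) ℤ ⥤ CochainComplex (Gr.GA I) ℤ :=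
  ψ.mapHomologicalComplex (ComplexShape.up ℤ)

variable [Fact (IsHom I)] [HasDerivedCategory.{w} (P294Z.Coh (PI I))]

/-- `Un` for a variable functor -/
def UnF (Φ : CochainComplex (O.L.GA W) ℤ ⥤ DerivedCategory (P294Z.Coh (PI I))) (m : ℤ) {n : ℕ}
    (G : GMF W n) : Prop :=
  Nonempty ((sg I).obj (Om I m) ≅ o1ob Φ G) ∧ ∀ {n' : ℕ} (E : GMF W n'),
    (∀ g : o1ob Φ G ⟶ o1ob Φ E, ∃ f, ∃ hf : Cl G E f, o1mp Φ hf = g) ∧
    ∀ f (hf : Cl G E f), o1mp Φ hf = 0 → Nh G E f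

theorem core [ψ.Additive] (cy : CY W) (hS : Surf I) {m₀ m : ℤ} (hm : m ≥ m₀)
    {r : (Fin ν → ℂ) → ℕ} (U : ∀ v, GMF W (r v)) {n : ℕ} (G : GMF W n) {u}
    (hu : RepT (evm ψ m) G u) (cx : ∀ n : ℕ, GMF W n → CochainComplex (Gr.GA I) ℤ)
    (hcx : ∀ n E, cx n E = (PC ψ).obj (O.L.TT E)) (lf : ∀ k, LF I ((cx _ G).X k).obj)
    (ge : ∀ n E, ∃ b, (cx n E).IsStrictlyGE b) (sv : ∀ n E j, SV I m₀ ((cx n E).X j))
    (pt : ∀ v, Pt I v → PtCx (cx _ (U v)) v)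
    (f1 : ∀ v, Pt I v → ∀ k, Subsingleton (Hm (U v) G k) →
      FEx ((cx _ G).d (k - 1) k) ((cx _ G).d k (k + 1)) (mv v))
    (f2 : ∀ v, Pt I v → Module.finrank ℂ (Hm (U v) G 0) ≤ 1 →
      ∃ z, Sp ((cx _ G).d (-1) 0) ((cx _ G).d 0 1) (mv v) z) : UnF (PC ψ ⋙ QS I) m G := by
  obtain rfl : cx = fun _ E => (PC ψ).obj (O.L.TT E) := funext₂ hcx
  obtain ⟨φ, hφ⟩ := vl_surj (N := ((PC ψ).obj (O.L.TT G)).X 0) (m := m) u
  have h0 : φ ≫ ((PC ψ).obj (O.L.TT G)).d 0 1 = 0 :=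
    vl_inj ((vl_comp _ _).trans ((congrArg _ hφ).trans hu.cyc))
  have hy := fun v hv => (ge _ (U v)).elim fun b hb =>
    (stHyp I _ v hv (pt v hv)).2 m₀ b hb (sv _ _) m hm
  have hi := unit_cx (stExg I) hS.prime hS.ne lf φ h0
    (fun v hv k hk => f1 v hv k (ptk_sub cy _ _ (l := 2 - k) (by ring)
      ((hu.dim (U v) (2 - k)).1.1 ((hy v hv).1 _ (by omega)))))
    (fun v hv => f2 v hv ((ptk_rk cy _ _ (l := 2) rfl).trans_le ((hu.dim (U v) 2).2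
      ((hy v hv).2.imp fun z hz => ⟨hz.1, hz.2.2⟩))))
    fun v hv => by
      obtain ⟨z, h1, h2, -⟩ := (hy v hv).2
      obtain ⟨f, hf, y, rfl⟩ := hu.sur (U v) 2 z h1
      obtain ⟨a, ha⟩ := fz_d G (U v) hf
      rw [hφ]
      exact nb_of ((ψ.map_comp _ _).symm.trans ((congrArg ψ.map ha).trans (ψ.map_comp _ _))) h2
  refine ⟨⟨sgIso (Fr I m) 0 ≪≫ @asIso _ _ _ _ _ hi⟩, fun E => ?_⟩
  obtain ⟨b, hb⟩ := ge _ E
  obtain ⟨a1, a2⟩ := adj hm φ h0 hi hb (sv _ E)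
  rw [hφ] at a1 a2
  refine ⟨fun g => ?_, fun f hf h => ?_⟩
  · obtain ⟨z, h1, h2⟩ := a1 g
    obtain ⟨f, hf, y, e⟩ := hu.sur E 0 z h1
    exact ⟨f, cl_iff.2 hf, h2 ((PC ψ).map (O.L.Tf (cl_iff.2 hf) fun _ => True)) y e⟩
  · exact nh_of ((hu.inj E 0 f (cl_iff.1 hf)).1 (a2 ((PC ψ).map (O.L.Tf hf fun _ => True)) h))

theorem q_comp {A B C D : Type*} [Category A] [Category B] [Category C] [Category D]
    [HasZeroMorphisms A] [HasZeroMorphisms B] [HasZeroMorphisms C] (F : A ⥤ B) (G : B ⥤ C)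
    {_ : F.PreservesZeroMorphisms} {_ : G.PreservesZeroMorphisms}
    {_ : (F ⋙ G).PreservesZeroMorphisms} (p p' p'' : IsRightCancelAdd ℤ)
    (Q : CochainComplex C ℤ ⥤ D) :
    @Eq (CochainComplex A ℤ ⥤ D)
      ((F ⋙ G).mapHomologicalComplex (@ComplexShape.up ℤ _ p _) ⋙ Q)
      (F.mapHomologicalComplex (@ComplexShape.up ℤ _ p'' _) ⋙
        (G.mapHomologicalComplex (@ComplexShape.up ℤ _ p' _) ⋙ Q)) := rfl

theorem q_eq (K : Ker W I) [K.psi.Additive] : K.Q = PC K.psi ⋙ QS I := by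
  unfold Ker.Q Ker.F PC
  exact q_comp _ _ _ _ _ _

theorem un_of (K : Ker W I) {m : ℤ} {n : ℕ} {G : GMF W n} (h : UnF K.Q m G) : K.Un m G := h

theorem cx_PC (K : Ker W I) [K.psi.Additive] {n : ℕ} (E : GMF W n) :
    K.cx E = (PC K.psi).obj (O.L.TT E) := by
  unfold Ker.cx PC
  exact cx_g4 _ _ _ _

/-- **step UNIT** -/
theorem stUnit : StUnit W I := by
  intro cy hS K r U m₀ h hg m hm n G u hu
  have := K.psi_add
  obtain ⟨u', hu'⟩ : ∃ u, RepT (evm K.psi m) G u := evm_psi K m ▸ ⟨u, repT hu⟩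
  have hF : StFib W I := main_fib (main_ne cy)
  refine un_of K ?_
  rw [q_eq]
  exact core K.psi cy hS hm U G hu' (fun _ E => K.cx E) (fun _ E => cx_PC K E)
    (ptk_lf (stPsif I W) (stLfc I) K h.lf G) (fun _ E => bdd_ge (stPsif I W) K E)
    (fun _ E j => cx_pr (stPsif I W) K E j (SV I m₀) (fun _ _ => SV.iso) (fun _ => SV.zero)
      (fun _ _ => SV.biprod) fun _ e _ => hg e) (main_ptk cy hS K r U h)
    (fun v hv k => (hF K _ _ (h.fib v hv) G k).1)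
    fun v hv h1 => ((ptk_fib hF K (h.fib v hv) G rfl rfl).2.2 (cy _ _ 0).1 h1).imp fun _ => And.right

end Vale.Agent.P287T.Fm.Uc
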