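import Vale.Agent.P287T.Fm.ExL
import Vale.Agent.P287T.Fm.Hyp0
import Mathlib.Algebra.Homology.HomotopyCategory.HomComplexSingle

/-!
# Block FM: maps from a free module of rank one to a complex
-/

open CategoryTheory Limits MvPolynomial HomologicalComplex

universe w v u

namespace Vale.Agent.P287T.Fm

open Vale.Agent.P287Z Vale.Agent.P294.V Vale.Agent.P287T.Fm.Hy

theorem htpy_single_iff {C : Type u} [Category.{v} C] [Preadditive C] [HasZeroObject C] {A : C}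
    {K : CochainComplex C ℤ} (f : (single C (ComplexShape.up ℤ) 0).obj A ⟶ K) :
    Nonempty (Homotopy f 0) ↔
      ∃ y : A ⟶ K.X (-1), (singleObjXSelf _ 0 A).inv ≫ f.f 0 = y ≫ K.d (-1) 0 := by
  constructor
  · rintro ⟨h⟩
    refine ⟨(singleObjXSelf _ 0 A).inv ≫ h.hom 0 (-1), ?_⟩
    rw [h.comm 0, dNext_eq h.hom (show (ComplexShape.up ℤ).Rel 0 1 from rfl),
      prevD_eq h.hom (show (ComplexShape.up ℤ).Rel (-1) 0 from rfl),
      (isZero_single_obj_X (ComplexShape.up ℤ) 0 A 1 one_ne_zero).eq_of_src (h.hom 1 0) 0,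
      comp_zero, zero_add, zero_f, add_zero, Category.assoc]
  · rintro ⟨y, hy⟩
    refine ⟨(CochainComplex.HomComplex.Cochain.equivHomotopy f 0).symm
      ⟨CochainComplex.HomComplex.Cochain.fromSingleMk y (p := 0) (n := -1) rfl, ?_⟩⟩
    rw [CochainComplex.HomComplex.Cochain.ofHom_zero, add_zero]
    refine Eq.trans ?_
      (CochainComplex.HomComplex.Cochain.δ_fromSingleMk y (p := 0) (n := -1) rfl 0 0 rfl).symm
    refine (CochainComplex.HomComplex.Cochain.fromSingleEquiv (p := 0) (q := 0) (n := 0)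
      rfl).injective (Eq.trans ?_
        (CochainComplex.HomComplex.Cochain.fromSingleEquiv_fromSingleMk _ _).symm)
    refine Eq.trans (congrArg (_ ≫ ·) ?_) hy
    exact CochainComplex.HomComplex.Cochain.ofHom_v f 0

variable {ν : ℕ} {I : Ideal (Gr.Sn ν)}

theorem comp_app {A B C : Gr.GA I} {f : A ⟶ B} {g : B ⟶ C} {h : A ⟶ C} (e : f ≫ g = h) {a : ℤ}
    (x : A.obj.obj ⟨a⟩) : g.hom.app ⟨a⟩ (f.hom.app ⟨a⟩ x) = h.hom.app ⟨a⟩ x :=
  congrArg (fun k : A ⟶ C => k.hom.app ⟨a⟩ x) e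

theorem cyc_lift (S : ShortComplex (Gr.GA I)) {a : ℤ} (x : S.X₂.obj.obj ⟨a⟩)
    (hx : S.g.hom.app ⟨a⟩ x = 0) : ∃ z, S.iCycles.hom.app ⟨a⟩ z = x :=
  Gr.GA_exact_apply I (S := ShortComplex.mk _ _ S.iCycles_g)
    (ShortComplex.exact_of_f_is_kernel _ S.cyclesIsKernel) a x hx

theorem hpi_zero (S : ShortComplex (Gr.GA I)) {a : ℤ} (z : S.cycles.obj.obj ⟨a⟩) :
    S.homologyπ.hom.app ⟨a⟩ z = 0 ↔ ∃ y, S.iCycles.hom.app ⟨a⟩ z = S.f.hom.app ⟨a⟩ y := by
  constructor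
  · intro h
    obtain ⟨y, hy⟩ := Gr.GA_exact_apply I (S := ShortComplex.mk _ _ S.toCycles_comp_homologyπ)
      (ShortComplex.exact_of_g_is_cokernel _ S.homologyIsCokernel) a z h
    exact ⟨y, (congrArg _ hy.symm).trans (comp_app S.toCycles_i y)⟩
  · rintro ⟨y, hy⟩
    rw [← Gr.GA_app_injective I S.iCycles a ((comp_app S.toCycles_i y).trans hy.symm)]
    exact comp_app S.toCycles_comp_homologyπ y

theorem hmap_bij {S T : ShortComplex (Gr.GA I)} (φ : S ⟶ T) (a : ℤ)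
    (hs : ∀ x' : T.X₂.obj.obj ⟨a⟩, T.g.hom.app ⟨a⟩ x' = 0 →
      ∃ x y, S.g.hom.app ⟨a⟩ x = 0 ∧ x' = φ.τ₂.hom.app ⟨a⟩ x + T.f.hom.app ⟨a⟩ y)
    (hi : ∀ x : S.X₂.obj.obj ⟨a⟩, S.g.hom.app ⟨a⟩ x = 0 →
      (∃ y, φ.τ₂.hom.app ⟨a⟩ x = T.f.hom.app ⟨a⟩ y) → ∃ y, x = S.f.hom.app ⟨a⟩ y) :
    Function.Bijective ((ShortComplex.homologyMap φ).hom.app ⟨a⟩) := by
  have h1 := fun z => (comp_app (a := a) (ShortComplex.homologyπ_naturality φ) z).trans
    (comp_app (g := T.homologyπ) rfl z).symm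
  have h2 := fun z => (comp_app (a := a) (ShortComplex.cyclesMap_i φ) z).trans
    (comp_app (g := φ.τ₂) rfl z).symm
  constructor
  · rw [injective_iff_map_eq_zero]
    intro h hh
    obtain ⟨z, rfl⟩ := Gr.GA_app_surjective I S.homologyπ a h
    obtain ⟨y, hy⟩ := (hpi_zero T _).1 ((h1 z).symm.trans hh)
    exact (hpi_zero S z).2 (hi _ (comp_app S.iCycles_g z) ⟨y, (h2 z).symm.trans hy⟩)
  · intro h
    obtain ⟨z', rfl⟩ := Gr.GA_app_surjective I T.homologyπ a h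
    obtain ⟨x, y, hx, e⟩ := hs _ (comp_app T.iCycles_g z')
    obtain ⟨z, rfl⟩ := cyc_lift S x hx
    refine ⟨S.homologyπ.hom.app ⟨a⟩ z, (h1 z).trans ?_⟩
    rw [eq_comm, ← sub_eq_zero, ← map_sub, hpi_zero]
    exact ⟨y, by rw [map_sub, h2, e, add_sub_cancel_left]⟩

variable [Fact (IsHom I)]

theorem quasi_map {S T : ShortComplex (Gr.GA I)} (φ : S ⟶ T) (n : ℤ)
    (h : ∀ a ≥ n, Function.Bijective ((ShortComplex.homologyMap φ).hom.app ⟨a⟩)) :
    ShortComplex.QuasiIso ((piI I).mapShortComplex.map φ) := by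
  have := Sv.isIso_of_large (piI I) _ n h
  have h1 := (Iso.eq_comp_inv (T.mapHomologyIso (piI I))).2
    (ShortComplex.mapHomologyIso_hom_naturality φ (piI I))
  have h2 : IsIso (((S.mapHomologyIso (piI I)).hom ≫ (piI I).map (ShortComplex.homologyMap φ)) ≫
      (T.mapHomologyIso (piI I)).inv) := inferInstance
  exact ⟨h1 ▸ h2⟩

/-- the chain map given by a cycle -/
noncomputable def ofCyc {m : ℤ} {C : CochainComplex (Gr.GA I) ℤ} (φ : Fr I m ⟶ C.X 0)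
    (h : φ ≫ C.d 0 1 = 0) : (single _ (ComplexShape.up ℤ) 0).obj (Fr I m) ⟶ C :=
  mkHomFromSingle φ fun k hk => by
    obtain rfl : k = 1 := (show 0 + 1 = k from hk).symm
    exact h

theorem ofCyc_f {m : ℤ} {C : CochainComplex (Gr.GA I) ℤ} (φ : Fr I m ⟶ C.X 0)
    (h : φ ≫ C.d 0 1 = 0) : (singleObjXSelf _ 0 _).inv ≫ (ofCyc φ h).f 0 = φ := by
  rw [ofCyc, mkHomFromSingle_f, Iso.inv_hom_id_assoc]

variable [HasDerivedCategory.{w} (P294Z.Coh (PI I))]

theorem isIso_ofCyc {m : ℤ} {C : CochainComplex (Gr.GA I) ℤ} (φ : Fr I m ⟶ C.X 0)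
    (h : φ ≫ C.d 0 1 = 0) (hex : ∀ k, k ≠ 0 → ExL (C.d (k - 1) k) (C.d k (k + 1))) (n : ℤ)
    (hs : ∀ a ≥ n, ∀ x : (C.X 0).obj.obj ⟨a⟩, (C.d 0 1).hom.app ⟨a⟩ x = 0 →
      ∃ s y, x = φ.hom.app ⟨a⟩ s + (C.d (-1) 0).hom.app ⟨a⟩ y)
    (hi : ∀ (a : ℤ) (s : (Fr I m).obj.obj ⟨a⟩),
      (∃ y, φ.hom.app ⟨a⟩ s = (C.d (-1) 0).hom.app ⟨a⟩ y) → s = 0) :
    IsIso ((QS I).map (ofCyc φ h)) := by
  have : QuasiIso (((piI I).mapHomologicalComplex (ComplexShape.up ℤ)).map (ofCyc φ h)) := by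
    refine ⟨fun k => ?_⟩
    by_cases hk : k = 0
    · subst hk
      rw [quasiIsoAt_iff' _ (-1) 0 1 (by simp) (by simp)]
      refine quasi_map ((shortComplexFunctor' _ _ (-1) 0 1).map (ofCyc φ h)) n
        fun a ha => hmap_bij _ a (fun x hx => ?_) fun x _ hx => ?_
      · obtain ⟨s, y, e⟩ := hs a ha x hx
        refine ⟨(singleObjXSelf (ComplexShape.up ℤ) 0 (Fr I m)).inv.hom.app ⟨a⟩ s, y, ?_,
          e.trans (congrArg (· + _) (comp_app (ofCyc_f φ h) s).symm)⟩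
        exact @Subsingleton.elim _ ((Gr.GA_isZero_iff I _).1
          (isZero_single_obj_X (ComplexShape.up ℤ) 0 (Fr I m) 1 one_ne_zero) a) _ _
      · refine ⟨0, Eq.trans ?_ (map_zero _).symm⟩
        have h1 := comp_app (singleObjXSelf (ComplexShape.up ℤ) 0 (Fr I m)).hom_inv_id x
        obtain ⟨y, hy⟩ := hx
        have h2 := hi a ((singleObjXSelf (ComplexShape.up ℤ) 0 (Fr I m)).hom.hom.app ⟨a⟩ x)
          ⟨y, ((comp_app (ofCyc_f φ h) _).symm.trans (congrArg _ h1)).trans hy⟩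
        exact h1.symm.trans ((congrArg _ h2).trans (map_zero _))
    · rw [quasiIsoAt_iff_exactAt, exactAt_iff_exL]
      · exact hex k hk
      · exact ShortComplex.exact_of_isZero_X₂ _
          ((piI I).map_isZero (isZero_single_obj_X (ComplexShape.up ℤ) 0 (Fr I m) k hk))
  exact inferInstanceAs (IsIso (DerivedCategory.Q.map
    (((piI I).mapHomologicalComplex (ComplexShape.up ℤ)).map (ofCyc φ h))))

/-- the single complex of a free module -/
noncomputable def sgIso (A : Gr.GA I) (k : ℤ) :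
    (DerivedCategory.singleFunctor _ k).obj ((piI I).obj A) ≅
      (QS I).obj ((single _ (ComplexShape.up ℤ) k).obj A) :=
  (DerivedCategory.singleFunctorIsoCompQ _ k).app _ ≪≫
    DerivedCategory.Q.mapIso ((singleMapHomologicalComplex (piI I) (ComplexShape.up ℤ) k).app A).symm

end Vale.Agent.P287T.Fm
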