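import Vale.Agent.P287T.Fm.UnitA
import Vale.Agent.P287T.Fm.Lfc

/-!
# Block FM: a cycle which generates the cohomology of all fibres
-/

open CategoryTheory Limits MvPolynomial HomologicalComplex

universe w

namespace Vale.Agent.P287T.Fm

open Vale.Agent.P287Z Vale.Agent.P294.V Vale.Agent.P287T.Fm.Hy Vale.Agent.P287T.Fm.La

variable {ν : ℕ} {I : Ideal (Gr.Sn ν)}

theorem totL_comp' {A B C : Gr.GA I} {f : A ⟶ B} {g : B ⟶ C} {h : A ⟶ C} (e : f ≫ g = h) (t) :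
    totL g.hom (totL f.hom t) = totL h.hom t := by
  subst e
  exact (tL_comp f.hom g.hom t).symm

theorem totL_single' {M N : Gr.GrS ν} (f : M ⟶ N) (a : ℤ) (x : M.obj ⟨a⟩) :
    totL f (DFinsupp.single a x) = DFinsupp.single a (f.app ⟨a⟩ x) := totL_sgl f a x

variable [Fact (IsHom I)]

theorem mem_of_pts (hI : I.IsPrime) (hne : ∃ v, Pt I v) {g : Gr.Sn ν}
    (h : ∀ v, Pt I v → eval v g = 0) : g ∈ I := by
  obtain ⟨v₀, h0, h1⟩ := hne
  obtain ⟨i, hi⟩ := Function.ne_iff.1 h0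
  have h2 : X i * g ∈ I := hI.isRadical (nst fun v hv => by
    by_cases e : v = 0
    · rw [map_mul, eval_X, e, Pi.zero_apply, zero_mul]
    · rw [map_mul, h v ⟨e, le_ptI (ih I) hv⟩, mul_zero])
  refine (hI.mem_or_mem h2).resolve_left fun h3 => hi ?_
  have := mem_mv.1 (ptI_le v₀ (h1 h3))
  rwa [eval_X] at this

theorem unit_inj (hI : I.IsPrime) (hne : ∃ v, Pt I v) {m : ℤ} {A B : Gr.GA I} (f : A ⟶ B)
    (φ : Fr I m ⟶ B) (hn : ∀ v, Pt I v → NB f v (DFinsupp.single m (vl φ))) (a : ℤ)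
    (s : (Fr I m).obj.obj ⟨a⟩) (h : ∃ y, φ.hom.app ⟨a⟩ s = f.hom.app ⟨a⟩ y) : s = 0 := by
  obtain ⟨g, hg, rfl⟩ := fr_surj s
  obtain ⟨y, hy⟩ := h
  refine (Gr.FrO.mk_eq_zero I).2 fun _ => mem_of_pts hI hne fun v hv => by_contra fun hc => ?_
  have h1 : (show Π₀ m : ℤ, B.obj.obj ⟨m⟩ from g • sgl B.obj m (vl φ)) =
      totL f.hom (DFinsupp.single a y) :=
    (hg_smul_sgl hg _).trans ((congrArg (sgl B.obj a) ((app_fr φ hg).symm.trans hy)).trans
      (totL_single' f.hom a y).symm)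
  have h2 : totL f.hom (DFinsupp.single a y) - eval v g • DFinsupp.single m (vl φ) ∈
      subC B.obj (mv v) := by
    have := sub_eval_mem v g (sgl B.obj m (vl φ))
    rw [show (C (eval v g) : Gr.Sn ν) • sgl B.obj m (vl φ) = _ from
      C_smul (eval v g) (DFinsupp.single m (vl φ))] at this
    rw [← h1]
    exact this
  refine hn v hv ((eval v g)⁻¹ • DFinsupp.single a y) ?_
  have h3 := (subC B.obj (mv v)).smul_mem (-(eval v g)⁻¹) h2
  rwa [smul_sub, smul_smul, neg_mul, inv_mul_cancel₀ hc, neg_smul, neg_smul, one_smul,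
    sub_neg_eq_add, neg_add_eq_sub, ← map_smul] at h3

theorem unit_fex {m : ℤ} {A B D : Gr.GA I} {f : A ⟶ B} {g : B ⟶ D} {φ : Fr I m ⟶ B}
    (hφ : φ ≫ g = 0) {v : Fin ν → ℂ} (hn : NB f v (DFinsupp.single m (vl φ))) {z}
    (hz : Sp f g (mv v) z) : FEx (biprod.desc f φ) g (mv v) := by
  intro t ht
  obtain ⟨c, s, h1⟩ := hz t ht
  obtain ⟨c', s', h2⟩ := hz (DFinsupp.single m (vl φ)) (by
    rw [totL_single', ← vl_comp, hφ, vl_zero, DFinsupp.single_zero]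
    exact (subC D.obj (mv v)).zero_mem)
  have hc : c' ≠ 0 := by
    rintro rfl
    rw [zero_smul, sub_zero] at h2
    exact hn s' h2
  refine ⟨totL (biprod.inl : A ⟶ A ⊞ Fr I m).hom (s - (c / c') • s') +
    totL (biprod.inr : Fr I m ⟶ A ⊞ Fr I m).hom
      ((c / c') • DFinsupp.single m (fr I m 1 (hg1 m))), ?_⟩
  rw [map_add, totL_comp' (biprod.inl_desc f φ), totL_comp' (biprod.inr_desc f φ), map_sub,
    map_smul, map_smul, totL_single']
  have h3 : t - c • z - totL f.hom s -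
      (c / c') • (DFinsupp.single m (vl φ) - c' • z - totL f.hom s') ∈ subC B.obj (mv v) :=
    (subC B.obj (mv v)).sub_mem h1 ((subC B.obj (mv v)).smul_mem (c / c') h2)
  rw [smul_sub, smul_sub, smul_smul, div_mul_cancel₀ _ hc] at h3
  refine (congrArg (· ∈ subC B.obj (mv v)) ?_).mp h3
  change _ = t - (_ - _ + (c / c') • DFinsupp.single m (vl φ))
  abel

variable [HasDerivedCategory.{w} (P294Z.Coh (PI I))]

theorem unit_cx (hE : StExg I) (hI : I.IsPrime) (hne : ∃ v, Pt I v) {m : ℤ}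
    {C : CochainComplex (Gr.GA I) ℤ} (hl : ∀ k, LF I (C.X k).obj) (φ : Fr I m ⟶ C.X 0)
    (h : φ ≫ C.d 0 1 = 0)
    (hf : ∀ v, Pt I v → ∀ k, k ≠ 0 → FEx (C.d (k - 1) k) (C.d k (k + 1)) (mv v))
    (hs : ∀ v, Pt I v → ∃ z, Sp (C.d (-1) 0) (C.d 0 1) (mv v) z)
    (hn : ∀ v, Pt I v → NB (C.d (-1) 0) v (DFinsupp.single m (vl φ))) :
    IsIso ((QS I).map (ofCyc φ h)) := by
  obtain ⟨n, hn'⟩ := hE hI (biprod.desc (C.d (-1) 0) φ) (C.d 0 1)
    (biprod.hom_ext' _ _ (by rw [biprod.inl_desc_assoc, C.d_comp_d, comp_zero])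
      (by rw [biprod.inr_desc_assoc, h, comp_zero])) (hl 0) (hl 1)
    fun v hv => (hs v hv).elim fun z hz => unit_fex h (hn v hv) hz
  refine isIso_ofCyc φ h (fun k hk => hE hI _ _ (C.d_comp_d _ _ _) (hl _) (hl _)
    fun v hv => hf v hv k hk) n (fun a ha x hx => ?_) (unit_inj hI hne _ φ hn)
  obtain ⟨y, rfl⟩ := hn' a ha x hx
  refine ⟨(biprod.snd : _ ⟶ Fr I m).hom.app ⟨a⟩ y, (biprod.fst : _ ⟶ C.X (-1)).hom.app ⟨a⟩ y, ?_⟩
  rw [biprod.desc_eq, add_comm]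
  rfl

end Vale.Agent.P287T.Fm
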